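import Vale.Agent.P130.Simple.Defs

/-!
The choice of the base point: Bessel's inequality on the cube, exact orthogonality of the pieces
against weights of low degree, and translation invariant averaging.
-/

namespace Vale.Agent.P130.Simple.Base

open Finset MeasureTheory
open scoped BigOperators
open Vale.Agent.P110.Flat (ee dot)

lemma ee_add (a b : ℝ) : ee (a + b) = ee a * ee b := by
  rw [ee, ee, ee, ← Complex.exp_add]; push_cast; ring_nf

lemma conj_ee (a : ℝ) : starRingEnd ℂ (ee a) = ee (-a) := by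
  rw [ee, ee, ← Complex.exp_conj]
  congr 1
  simp [map_ofNat]

lemma norm_ee (a : ℝ) : ‖ee a‖ = 1 := by rw [ee, Complex.norm_exp]; simp

lemma ee_int (z : ℤ) : ee z = 1 := by
  rw [ee, Complex.exp_eq_one_iff]; exact ⟨z, by push_cast; ring⟩

@[fun_prop]
lemma continuous_ee : Continuous ee := by unfold ee; fun_prop

lemma ee_zero : ee 0 = 1 := by simp [ee]

lemma integral_ee (n : ℤ) : ∫ x in (0 : ℝ)..1, ee ((n : ℝ) * x) = if n = 0 then 1 else 0 := by
  split_ifs with h
  · subst h; simp [ee_zero]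
  · have hc : (2 * Real.pi * n * Complex.I : ℂ) ≠ 0 := by
      simp [Real.pi_ne_zero, h, Complex.I_ne_zero]
    have e : ∀ x : ℝ, ee ((n : ℝ) * x) = Complex.exp ((2 * Real.pi * n * Complex.I : ℂ) * x) := by
      intro x; rw [ee]; congr 1; push_cast; ring
    simp only [e]
    rw [integral_exp_mul_complex hc]
    have h1 : Complex.exp ((2 * Real.pi * n * Complex.I : ℂ) * (1 : ℝ)) = 1 := by
      rw [← e, mul_one]; exact ee_int n
    rw [h1]; simp

lemma volume_cube (d : ℕ) : volume.restrict (cube d) =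
    Measure.pi fun _ : Fin d => volume.restrict (Set.Ico (0 : ℝ) 1) := by
  rw [cube, volume_pi, Measure.restrict_pi_pi]

lemma isProbability_cube (d : ℕ) : IsProbabilityMeasure (volume.restrict (cube d)) := by
  refine ⟨?_⟩
  rw [Measure.restrict_apply_univ, cube, volume_pi_pi]
  simp

lemma continuous_dot {d : ℕ} (k : Fin d → ℤ) : Continuous (dot k) := by
  unfold dot; fun_prop

lemma integral_char {d : ℕ} (k : Fin d → ℤ) :
    ∫ φ in cube d, ee (dot k φ) = if k = 0 then 1 else 0 := by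
  classical
  have e : ∀ φ : Fin d → ℝ, ee (dot k φ) = ∏ l, ee ((k l : ℝ) * φ l) := by
    intro φ
    simp only [ee, dot, ← Complex.exp_sum]
    congr 1
    push_cast
    rw [mul_sum, sum_mul]
  simp only [e]
  rw [volume_cube, integral_fintype_prod_eq_prod (fun l (x : ℝ) => ee ((k l : ℝ) * x))]
  have h1 : ∀ l : Fin d, ∫ x in Set.Ico (0 : ℝ) 1, ee ((k l : ℝ) * x) =
      if k l = 0 then 1 else 0 := fun l => by
    rw [integral_Ico_eq_integral_Ioo, ← integral_Ioc_eq_integral_Ioo,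
      ← intervalIntegral.integral_of_le zero_le_one, integral_ee]
  simp only [h1]
  split_ifs with h
  · subst h; simp
  · obtain ⟨l, hl⟩ := Function.ne_iff.1 h
    exact prod_eq_zero (mem_univ l) (if_neg hl)

lemma sec_preserving (a : ℝ) : MeasurePreserving (fun x : ℝ => Int.fract (x + a))
    (volume.restrict (Set.Ico (0 : ℝ) 1)) (volume.restrict (Set.Ico (0 : ℝ) 1)) := by
  let f : UnitAddCircle → ℝ := fun t => (AddCircle.equivIco (1 : ℝ) 0 t : ℝ)
  have hf : Measurable f := (AddCircle.measurableEquivIco (1 : ℝ) 0).measurable.subtype_val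
  have hmk := UnitAddCircle.measurePreserving_mk 0
  rw [zero_add, ← Measure.restrict_congr_set (Ico_ae_eq_Ioc (μ := volume) (a := (0 : ℝ)) (b := 1))]
    at hmk
  have hfx : ∀ x : ℝ, f (x : UnitAddCircle) = Int.fract x := fun x => by
    simp [f, AddCircle.coe_equivIco_mk_apply]
  have hid : Int.fract =ᵐ[volume.restrict (Set.Ico (0 : ℝ) 1)] id := by
    filter_upwards [ae_restrict_mem measurableSet_Ico] with x hx
    exact Int.fract_eq_self.2 hx
  have hsec : MeasurePreserving f (volume : Measure UnitAddCircle)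
      (volume.restrict (Set.Ico (0 : ℝ) 1)) := by
    refine ⟨hf, ?_⟩
    rw [← hmk.map_eq, Measure.map_map hf hmk.measurable,
      show f ∘ QuotientAddGroup.mk = Int.fract from funext hfx, Measure.map_congr hid, Measure.map_id]
  have h := hsec.comp ((measurePreserving_add_right volume (a : UnitAddCircle)).comp hmk)
  convert h using 1
  funext x
  simp [Function.comp, ← hfx, QuotientAddGroup.mk_add]

lemma integral_shift {d : ℕ} (G : (Fin d → ℝ) → ℝ) (hGm : Measurable G)
    (hper : ∀ (φ : Fin d → ℝ) (z : Fin d → ℤ), G (fun l => φ l + (z l : ℝ)) = G φ) (a : Fin d → ℝ) :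
    ∫ φ in cube d, G (fun l => φ l + a l) = ∫ φ in cube d, G φ := by
  have hmp := measurePreserving_pi (fun _ : Fin d => volume.restrict (Set.Ico (0 : ℝ) 1))
    (fun _ : Fin d => volume.restrict (Set.Ico (0 : ℝ) 1)) (fun l => sec_preserving (a l))
  have e : ∀ φ : Fin d → ℝ, G (fun l => φ l + a l) = G (fun l => Int.fract (φ l + a l)) := by
    intro φ
    rw [← hper (fun l => Int.fract (φ l + a l)) fun l => ⌊φ l + a l⌋]
    simp [Int.fract_add_floor]
  simp only [e, volume_cube]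
  conv_rhs => rw [← hmp.map_eq]
  rw [integral_map hmp.measurable.aemeasurable hGm.aestronglyMeasurable]

variable {d : ℕ} {D : (Fin d → ℝ) → ℕ}

/-- The part of one exponential outside the frequencies `F`. -/
noncomputable def gap (D : (Fin d → ℝ) → ℕ) (F : Finset (Fin d → ℤ)) (θ : ℝ) (φ : Fin d → ℝ) : ℂ :=
  ee (θ * (D φ : ℝ)) - ∑ k ∈ F, coef D θ k * ee (dot k φ)

lemma measurable_exp (hD : Measurable D) (θ : ℝ) : Measurable fun φ => ee (θ * (D φ : ℝ)) :=
  continuous_ee.measurable.comp ((measurable_from_nat.comp hD).const_mul θ)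

lemma measurable_char (k : Fin d → ℤ) : Measurable fun φ : Fin d → ℝ => ee (dot k φ) :=
  continuous_ee.measurable.comp (continuous_dot k).measurable

lemma integrable_of_norm {d : ℕ} {f : (Fin d → ℝ) → ℂ} (hf : Measurable f) (C : ℝ)
    (h : ∀ φ, ‖f φ‖ ≤ C) : Integrable f (volume.restrict (cube d)) := by
  have := isProbability_cube d
  exact Integrable.of_bound hf.aestronglyMeasurable C (Filter.Eventually.of_forall h)

/-- Pythagoras: the mean square outside `F`. -/
lemma integral_gap_sq (hD : Measurable D) (F : Finset (Fin d → ℤ)) (θ : ℝ) :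
    ∫ φ in cube d, ‖gap D F θ φ‖ ^ 2 = 1 - ∑ k ∈ F, ‖coef D θ k‖ ^ 2 := by
  have := isProbability_cube d
  set c := coef D θ with hc
  let f : (Fin d → ℝ) → ℂ := fun φ => ee (θ * (D φ : ℝ))
  have hfm : Measurable f := measurable_exp hD θ
  have hcoef : ∀ k, ∫ φ in cube d, f φ * ee (-dot k φ) = c k := fun k => by
    simp only [f, hc, coef, ← ee_add, sub_eq_add_neg]
  have hcoef' : ∀ k, ∫ φ in cube d, starRingEnd ℂ (f φ) * ee (dot k φ) = starRingEnd ℂ (c k) := by
    intro k
    rw [← hcoef, ← integral_conj]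
    exact integral_congr_ae (Filter.Eventually.of_forall fun φ => by
      simp only [map_mul, conj_ee, neg_neg])
  have horth : ∀ k l, ∫ φ in cube d, ee (dot k φ) * ee (-dot l φ) = if k = l then (1 : ℂ) else 0 := by
    intro k l
    have e : ∀ φ, ee (dot k φ) * ee (-dot l φ) = ee (dot (k - l) φ) := fun φ => by
      rw [← ee_add]; congr 1
      simp [dot, sub_mul, sum_sub_distrib]; ring
    simp only [e, integral_char, sub_eq_zero]
  have hexp : ∀ φ, ((‖gap D F θ φ‖ ^ 2 : ℝ) : ℂ) =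
      1 - (∑ k ∈ F, starRingEnd ℂ (c k) * (f φ * ee (-dot k φ))) -
        (∑ k ∈ F, c k * (starRingEnd ℂ (f φ) * ee (dot k φ))) +
        ∑ k ∈ F, ∑ l ∈ F, c k * starRingEnd ℂ (c l) * (ee (dot k φ) * ee (-dot l φ)) := by
    intro φ
    have h1 : f φ * starRingEnd ℂ (f φ) = 1 := by
      rw [Complex.mul_conj']; simp [f, norm_ee]
    rw [Complex.ofReal_pow, ← Complex.mul_conj']
    simp only [gap, map_sub, map_sum, map_mul, conj_ee, ← hc]
    rw [sub_mul, mul_sub, mul_sub, show ee (θ * (D φ : ℝ)) * ee (-(θ * (D φ : ℝ))) = 1 by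
      rw [← ee_add, add_neg_cancel, ee_zero], mul_sum, sum_mul, sum_mul_sum]
    simp only [f, conj_ee]
    rw [sum_congr rfl fun k _ => (by ring : ee (θ * (D φ : ℝ)) * (starRingEnd ℂ (c k) * ee (-dot k φ))
      = starRingEnd ℂ (c k) * (ee (θ * (D φ : ℝ)) * ee (-dot k φ))),
      sum_congr rfl fun k _ => (by ring : c k * ee (dot k φ) * ee (-(θ * (D φ : ℝ)))
      = c k * (ee (-(θ * (D φ : ℝ))) * ee (dot k φ))),
      sum_congr rfl fun k _ => sum_congr rfl fun l _ => (by ring :
        c k * ee (dot k φ) * (starRingEnd ℂ (c l) * ee (-dot l φ))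
        = c k * starRingEnd ℂ (c l) * (ee (dot k φ) * ee (-dot l φ)))]
    ring
  have i1 : ∀ k, Integrable (fun φ => f φ * ee (-dot k φ)) (volume.restrict (cube d)) := fun k =>
    integrable_of_norm (hfm.mul (continuous_ee.measurable.comp (continuous_dot k).measurable.neg)) 1
      fun φ => by simp [f, norm_ee]
  have i2 : ∀ k, Integrable (fun φ => starRingEnd ℂ (f φ) * ee (dot k φ))
      (volume.restrict (cube d)) := fun k =>
    integrable_of_norm ((Complex.continuous_conj.measurable.comp hfm).mul (measurable_char k)) 1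
      fun φ => by simp [f, norm_ee]
  have i3 : ∀ k l, Integrable (fun φ => ee (dot k φ) * ee (-dot l φ))
      (volume.restrict (cube d)) := fun k l =>
    integrable_of_norm ((measurable_char k).mul
      (continuous_ee.measurable.comp (continuous_dot l).measurable.neg)) 1
      fun φ => by simp [norm_ee]
  apply Complex.ofReal_injective
  rw [← integral_complex_ofReal]
  simp only [hexp]
  have I1 : Integrable (fun φ => ∑ k ∈ F, starRingEnd ℂ (c k) * (f φ * ee (-dot k φ)))
      (volume.restrict (cube d)) := integrable_finsetSum _ fun k _ => (i1 k).const_mul _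
  have I2 : Integrable (fun φ => ∑ k ∈ F, c k * (starRingEnd ℂ (f φ) * ee (dot k φ)))
      (volume.restrict (cube d)) := integrable_finsetSum _ fun k _ => (i2 k).const_mul _
  have I3 : Integrable (fun φ => ∑ k ∈ F, ∑ l ∈ F,
      c k * starRingEnd ℂ (c l) * (ee (dot k φ) * ee (-dot l φ))) (volume.restrict (cube d)) :=
    integrable_finsetSum _ fun k _ => integrable_finsetSum _ fun l _ => (i3 k l).const_mul _
  rw [integral_add (((integrable_const _).sub' I1).sub' I2) I3,
    integral_sub ((integrable_const _).sub' I1) I2, integral_sub (integrable_const _) I1,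
    integral_finsetSum _ fun k _ => (i1 k).const_mul _,
    integral_finsetSum _ fun k _ => (i2 k).const_mul _,
    integral_finsetSum _ fun k _ => integrable_finsetSum _ fun l _ => (i3 k l).const_mul _]
  have h3 : ∀ k ∈ F, ∫ φ in cube d, ∑ l ∈ F,
      c k * starRingEnd ℂ (c l) * (ee (dot k φ) * ee (-dot l φ)) = c k * starRingEnd ℂ (c k) := by
    intro k hk
    rw [integral_finsetSum _ fun l _ => (i3 k l).const_mul _]
    simp only [integral_const_mul, horth, mul_ite, mul_one, mul_zero, sum_ite_eq, if_pos hk]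
  rw [sum_congr rfl h3]
  simp only [integral_const_mul, hcoef, hcoef', integral_const, probReal_univ, one_smul]
  push_cast
  simp only [← Complex.mul_conj']
  rw [show ∑ k ∈ F, starRingEnd ℂ (c k) * c k = ∑ k ∈ F, c k * starRingEnd ℂ (c k) from
    sum_congr rfl fun k _ => mul_comm _ _]
  ring

/-- The coefficient of `exp (2 π i t θ)` in `coef D θ k`. -/
noncomputable def coefAt (D : (Fin d → ℝ) → ℕ) (k : Fin d → ℤ) (t : ℕ) : ℂ :=
  ∫ φ in cube d, (if D φ = t then 1 else 0) * ee (-dot k φ)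

lemma coef_eq_sum {R : ℕ} (hD : Measurable D) (hR : ∀ φ, D φ ≤ R) (θ : ℝ) (k : Fin d → ℤ) :
    coef D θ k = ∑ t ∈ range (R + 1), coefAt D k t * ee (θ * t) := by
  have e : ∀ φ, ee (θ * (D φ : ℝ) - dot k φ) =
      ∑ t ∈ range (R + 1), ((if D φ = t then (1 : ℂ) else 0) * ee (-dot k φ)) * ee (θ * t) := by
    intro φ
    rw [sum_eq_single (D φ)]
    · simp [← ee_add, sub_eq_add_neg, add_comm]
    · intro t _ ht; simp [Ne.symm ht]
    · intro h; exact absurd (mem_range.2 (Nat.lt_succ_of_le (hR φ))) h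
  simp only [coef, e]
  rw [integral_finsetSum]
  · exact sum_congr rfl fun t _ => integral_mul_const _ _
  · intro t _
    refine (integrable_of_norm ((Measurable.ite (hD (measurableSet_singleton t)) measurable_const
      measurable_const).mul (continuous_ee.measurable.comp (continuous_dot k).measurable.neg)) 1
      fun φ => ?_).mul_const _
    simp only [Pi.mul_apply, Function.comp_apply, norm_mul, norm_ee, mul_one]
    split_ifs <;> simp

lemma continuous_coef {R : ℕ} (hD : Measurable D) (hR : ∀ φ, D φ ≤ R) (k : Fin d → ℤ) :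
    Continuous fun θ => coef D θ k := by
  simp only [coef_eq_sum hD hR]; fun_prop

lemma gap_poly {R : ℕ} (hD : Measurable D) (hR : ∀ φ, D φ ≤ R) (F : Finset (Fin d → ℤ))
    (φ : Fin d → ℝ) : ∃ γ : ℕ → ℂ, ∀ θ, gap D F θ φ = ∑ t ∈ range (R + 1), γ t * ee (θ * t) := by
  refine ⟨fun t => (if D φ = t then 1 else 0) - ∑ k ∈ F, coefAt D k t * ee (dot k φ), fun θ => ?_⟩
  simp only [gap, sub_mul, sum_sub_distrib, sum_mul]
  congr 1
  · simp [ite_mul, Nat.lt_succ_of_le (hR φ)]
  · simp only [coef_eq_sum hD hR θ, sum_mul]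
    rw [sum_comm]
    exact sum_congr rfl fun k _ => sum_congr rfl fun t _ => by ring

lemma cross_zero {R Dg H : ℕ} (hH : Dg + R < H) {j j' : ℕ} (hj : j ≠ j') (a γ γ' : ℕ → ℂ) :
    ∫ θ in (0 : ℝ)..1,
      (tpoly Dg a θ * (∑ t ∈ range (R + 1), γ t * ee (θ * t)) * ee ((j : ℝ) * ((H : ℝ) * θ))) *
        starRingEnd ℂ (tpoly Dg a θ * (∑ t ∈ range (R + 1), γ' t * ee (θ * t)) *
          ee ((j' : ℝ) * ((H : ℝ) * θ))) = 0 := by
  let z : (ℕ × ℕ) × (ℕ × ℕ) → ℤ := fun x =>
    ((j : ℤ) - j') * H + ((x.1.1 : ℤ) + x.1.2) - ((x.2.1 : ℤ) + x.2.2)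
  set U : Finset (ℕ × ℕ) := range (Dg + 1) ×ˢ range (R + 1) with hU
  have e : ∀ θ : ℝ,
      (tpoly Dg a θ * (∑ t ∈ range (R + 1), γ t * ee (θ * t)) * ee ((j : ℝ) * ((H : ℝ) * θ))) *
        starRingEnd ℂ (tpoly Dg a θ * (∑ t ∈ range (R + 1), γ' t * ee (θ * t)) *
          ee ((j' : ℝ) * ((H : ℝ) * θ))) =
      ∑ x ∈ U ×ˢ U,
        (a x.1.1 * γ x.1.2 * starRingEnd ℂ (a x.2.1 * γ' x.2.2)) * ee ((z x : ℝ) * θ) := by
    intro θ
    have hp : ∀ (β : ℕ → ℂ) (i : ℕ),
        tpoly Dg a θ * (∑ t ∈ range (R + 1), β t * ee (θ * t)) * ee ((i : ℝ) * ((H : ℝ) * θ)) =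
        ∑ u ∈ U, (a u.1 * β u.2) * ee (((u.1 : ℝ) + u.2 + i * H) * θ) := by
      intro β i
      rw [tpoly, sum_mul_sum, sum_mul, hU, sum_product]
      refine sum_congr rfl fun u _ => ?_
      rw [sum_mul]
      refine sum_congr rfl fun t _ => ?_
      rw [show ((u : ℝ) + t + i * H) * θ = (u : ℝ) * θ + θ * t + (i : ℝ) * ((H : ℝ) * θ) by ring,
        ee_add, ee_add]
      ring
    rw [hp γ j, hp γ' j', map_sum, sum_mul_sum, sum_product (s := U) (t := U)]
    refine sum_congr rfl fun u _ => sum_congr rfl fun u' _ => ?_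
    rw [map_mul, conj_ee, show (z (u, u') : ℝ) * θ =
      ((u.1 : ℝ) + u.2 + j * H) * θ + -(((u'.1 : ℝ) + u'.2 + j' * H) * θ) by
        simp only [z]; push_cast; ring, ee_add]
    ring
  simp only [e]
  rw [intervalIntegral.integral_finsetSum fun x _ =>
    ((by fun_prop : Continuous fun θ : ℝ => _ * ee ((z x : ℝ) * θ))).intervalIntegrable _ _]
  refine sum_eq_zero fun x hx => ?_
  rw [intervalIntegral.integral_const_mul, integral_ee, if_neg, mul_zero]
  simp only [hU, mem_product, mem_range] at hx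
  obtain ⟨⟨h1, h2⟩, h3, h4⟩ := hx
  intro h0
  simp only [z] at h0
  rcases Nat.lt_or_gt_of_ne hj with h | h
  · have : ((j : ℤ) - j') * H ≤ -(H : ℤ) := by
      have : ((j : ℤ) - j') ≤ -1 := by omega
      nlinarith
    omega
  · have : (H : ℤ) ≤ ((j : ℤ) - j') * H := by
      have : 1 ≤ ((j : ℤ) - j') := by omega
      nlinarith
    omega

/-- The pieces are orthogonal against a weight of low degree. -/
lemma piece_sum {R m H Dg : ℕ} (hD : Measurable D) (hR : ∀ φ, D φ ≤ R) (F : Finset (Fin d → ℤ))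
    (hH : Dg + R < H) (a : ℕ → ℂ) (P : ℕ → Fin d → ℝ) :
    ∫ θ in (0 : ℝ)..1, ‖tpoly Dg a θ‖ ^ 2 * ‖((Real.sqrt m)⁻¹ : ℝ) *
        ∑ j ∈ range m, gap D F θ (P j) * ee ((j : ℝ) * ((H : ℝ) * θ))‖ ^ 2 =
      (m : ℝ)⁻¹ * ∑ j ∈ range m,
        ∫ θ in (0 : ℝ)..1, ‖tpoly Dg a θ‖ ^ 2 * ‖gap D F θ (P j)‖ ^ 2 := by
  choose γ hγ using fun j => gap_poly hD hR F (P j)
  let f : ℕ → ℝ → ℂ := fun j θ =>
    tpoly Dg a θ * gap D F θ (P j) * ee ((j : ℝ) * ((H : ℝ) * θ))
  have hfc : ∀ j, Continuous (f j) := fun j => by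
    simp only [f, hγ, tpoly]; fun_prop
  have e : ∀ θ, ((‖tpoly Dg a θ‖ ^ 2 * ‖((Real.sqrt m)⁻¹ : ℝ) *
      ∑ j ∈ range m, gap D F θ (P j) * ee ((j : ℝ) * ((H : ℝ) * θ))‖ ^ 2 : ℝ) : ℂ) =
      ((m : ℝ)⁻¹ : ℝ) * ∑ j ∈ range m, ∑ j' ∈ range m, f j θ * starRingEnd ℂ (f j' θ) := by
    intro θ
    have h1 : ∑ j ∈ range m, f j θ = tpoly Dg a θ *
        ∑ j ∈ range m, gap D F θ (P j) * ee ((j : ℝ) * ((H : ℝ) * θ)) := by
      rw [mul_sum]; exact sum_congr rfl fun j _ => mul_assoc _ _ _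
    rw [← sum_mul_sum, ← map_sum, Complex.mul_conj', h1, norm_mul, norm_mul, Complex.norm_real,
      Real.norm_eq_abs, abs_inv, abs_of_nonneg (Real.sqrt_nonneg _), mul_pow, inv_pow,
      Real.sq_sqrt (Nat.cast_nonneg m)]
    push_cast
    ring
  have hdiag : ∀ j θ, f j θ * starRingEnd ℂ (f j θ) =
      ((‖tpoly Dg a θ‖ ^ 2 * ‖gap D F θ (P j)‖ ^ 2 : ℝ) : ℂ) := fun j θ => by
    rw [Complex.mul_conj']
    simp only [f, norm_mul, norm_ee, mul_one]
    push_cast; ring
  apply Complex.ofReal_injective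
  rw [← intervalIntegral.integral_ofReal]
  simp only [e]
  have hc2 : ∀ j j', Continuous fun θ => f j θ * starRingEnd ℂ (f j' θ) := fun j j' =>
    (hfc j).mul (Complex.continuous_conj.comp (hfc j'))
  rw [intervalIntegral.integral_const_mul, intervalIntegral.integral_finsetSum
    (f := fun j θ => ∑ j' ∈ range m, f j θ * starRingEnd ℂ (f j' θ)) fun j _ =>
      (continuous_finsetSum _ fun j' _ => hc2 j j').intervalIntegrable _ _]
  push_cast
  congr 1
  refine sum_congr rfl fun j hj => ?_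
  rw [intervalIntegral.integral_finsetSum (f := fun j' θ => f j θ * starRingEnd ℂ (f j' θ))
      fun j' _ => (hc2 j j').intervalIntegrable _ _,
    sum_eq_single j]
  · simp only [hdiag, intervalIntegral.integral_ofReal]
  · intro j' _ hne
    simp only [f, hγ]
    exact cross_zero hH (Ne.symm hne) a (γ j) (γ j')
  · exact fun h => absurd hj h

lemma missing_nonneg (hD : Measurable D) (F : Finset (Fin d → ℤ)) (θ : ℝ) :
    0 ≤ 1 - ∑ k ∈ F, ‖coef D θ k‖ ^ 2 ∧ 1 - ∑ k ∈ F, ‖coef D θ k‖ ^ 2 ≤ 1 :=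
  ⟨integral_gap_sq hD F θ ▸ integral_nonneg fun φ => sq_nonneg _,
    by linarith [sum_nonneg fun k (_ : k ∈ F) => sq_nonneg ‖coef D θ k‖]⟩

lemma gap_periodic (hper : ∀ (φ : Fin d → ℝ) (z : Fin d → ℤ), D (fun l => φ l + (z l : ℝ)) = D φ)
    (F : Finset (Fin d → ℤ)) (θ : ℝ) (φ : Fin d → ℝ) (z : Fin d → ℤ) :
    gap D F θ (fun l => φ l + (z l : ℝ)) = gap D F θ φ := by
  have e : ∀ k : Fin d → ℤ, ee (dot k fun l => φ l + (z l : ℝ)) = ee (dot k φ) := fun k => by
    rw [show dot k (fun l => φ l + (z l : ℝ)) = dot k φ + ((∑ l, k l * z l : ℤ) : ℝ) by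
      simp [dot, mul_add, sum_add_distrib], ee_add, ee_int, mul_one]
  simp only [gap, hper, e]

lemma exists_good {R m H Dg N : ℕ} (hD : Measurable D) (hR : ∀ φ, D φ ≤ R)
    (hper : ∀ (φ : Fin d → ℝ) (z : Fin d → ℤ), D (fun l => φ l + (z l : ℝ)) = D φ)
    (F : Finset (Fin d → ℤ)) (hm : 0 < m) (hH : Dg + R < H) (a : Fin N → ℕ → ℂ)
    (ψ : ℕ → Fin d → ℝ) :
    ∃ φ₀ : Fin d → ℝ,
      ∑ i, ∫ θ in (0 : ℝ)..1, ‖tpoly Dg (a i) θ‖ ^ 2 * ‖((Real.sqrt m)⁻¹ : ℝ) *
          ∑ j ∈ range m, gap D F θ (fun l => φ₀ l + ψ j l) * ee ((j : ℝ) * ((H : ℝ) * θ))‖ ^ 2 ≤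
        ∑ i, ∫ θ in (0 : ℝ)..1, ‖tpoly Dg (a i) θ‖ ^ 2 * (1 - ∑ k ∈ F, ‖coef D θ k‖ ^ 2) := by
  have := isProbability_cube d
  let I : Measure ℝ := volume.restrict (Set.uIoc 0 1)
  have hI : IsFiniteMeasure I := ⟨by simp [I]⟩
  let Φ : Fin N → ℕ → ℝ → (Fin d → ℝ) → ℝ := fun i j θ φ =>
    ‖tpoly Dg (a i) θ‖ ^ 2 * ‖gap D F θ (fun l => φ l + ψ j l)‖ ^ 2
  have hΦm : ∀ i j, Measurable (Function.uncurry (Φ i j)) := by
    intro i j
    have h1 : Measurable fun p : ℝ × (Fin d → ℝ) => tpoly Dg (a i) p.1 :=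
      (by unfold tpoly; fun_prop : Continuous (tpoly Dg (a i))).measurable.comp measurable_fst
    have hshift : Measurable fun p : ℝ × (Fin d → ℝ) => fun l => p.2 l + ψ j l :=
      measurable_pi_lambda _ fun l => ((measurable_pi_apply l).comp measurable_snd).add_const _
    have h2 : Measurable fun p : ℝ × (Fin d → ℝ) => gap D F p.1 (fun l => p.2 l + ψ j l) :=
      (continuous_ee.measurable.comp (measurable_fst.mul
        (measurable_from_nat.comp (hD.comp hshift)))).sub
        (Finset.measurable_fun_sum _ fun k _ => ((continuous_coef hD hR k).measurable.comp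
          measurable_fst).mul ((measurable_char k).comp hshift))
    exact (h1.norm.pow_const 2).mul (h2.norm.pow_const 2)
  have hΦb : ∀ i j θ φ, |Φ i j θ φ| ≤
      (∑ t ∈ range (Dg + 1), ‖a i t‖) ^ 2 * (1 + F.card) ^ 2 := by
    intro i j θ φ
    have hc : ∀ k, ‖coef D θ k‖ ≤ 1 := fun k => by
      simpa [coef, probReal_univ] using norm_integral_le_of_norm_le_const
        (μ := volume.restrict (cube d)) (f := fun φ => ee (θ * (D φ : ℝ) - dot k φ)) (C := 1)
        (Filter.Eventually.of_forall fun φ => (norm_ee _).le)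
    have b1 : ‖tpoly Dg (a i) θ‖ ≤ ∑ t ∈ range (Dg + 1), ‖a i t‖ :=
      (norm_sum_le _ _).trans_eq (sum_congr rfl fun t _ => by rw [norm_mul, norm_ee, mul_one])
    have b2 : ‖gap D F θ (fun l => φ l + ψ j l)‖ ≤ 1 + F.card := by
      refine (norm_sub_le _ _).trans (add_le_add (norm_ee _).le ((norm_sum_le _ _).trans ?_))
      calc ∑ k ∈ F, ‖coef D θ k * ee (dot k fun l => φ l + ψ j l)‖ ≤ ∑ _k ∈ F, (1 : ℝ) :=
            sum_le_sum fun k _ => by rw [norm_mul, norm_ee, mul_one]; exact hc k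
        _ = F.card := by simp
    rw [abs_of_nonneg (by positivity)]
    exact mul_le_mul (pow_le_pow_left₀ (norm_nonneg _) b1 2)
      (pow_le_pow_left₀ (norm_nonneg _) b2 2) (by positivity) (by positivity)
  have hΦi : ∀ i j, Integrable (Function.uncurry (Φ i j)) (I.prod (volume.restrict (cube d))) :=
    fun i j => Integrable.of_bound (hΦm i j).aestronglyMeasurable _
      (Filter.Eventually.of_forall fun p => by rw [Real.norm_eq_abs]; exact hΦb i j p.1 p.2)
  let G : (Fin d → ℝ) → ℝ := fun φ => ∑ i, (m : ℝ)⁻¹ * ∑ j ∈ range m,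
    ∫ θ in (0 : ℝ)..1, Φ i j θ φ
  have hswap : ∀ i j, ∫ φ in cube d, ∫ θ in (0 : ℝ)..1, Φ i j θ φ =
      ∫ θ in (0 : ℝ)..1, ‖tpoly Dg (a i) θ‖ ^ 2 * (1 - ∑ k ∈ F, ‖coef D θ k‖ ^ 2) := by
    intro i j
    rw [← intervalIntegral_integral_swap (hΦi i j)]
    refine intervalIntegral.integral_congr fun θ _ => ?_
    simp only [Φ, integral_const_mul]
    congr 1
    rw [← integral_gap_sq hD F θ, integral_shift (fun φ => ‖gap D F θ φ‖ ^ 2)]
    · exact (((measurable_exp hD θ).sub
        (Finset.measurable_fun_sum _ fun k _ => (measurable_char k).const_mul _)).norm.pow_const 2)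
    · intro φ z; simp only [gap_periodic hper]
  have hint : ∀ i j, Integrable (fun φ => ∫ θ in (0 : ℝ)..1, Φ i j θ φ)
      (volume.restrict (cube d)) := by
    intro i j
    simp only [intervalIntegral.integral_of_le (zero_le_one' ℝ)]
    simpa [I, Set.uIoc_of_le (zero_le_one' ℝ)] using (hΦi i j).integral_prod_right
  have hG : Integrable G (volume.restrict (cube d)) :=
    integrable_finsetSum _ fun i _ => (integrable_finsetSum _ fun j _ => hint i j).const_mul _
  obtain ⟨φ₀, hφ₀⟩ := exists_le_integral hG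
  refine ⟨φ₀, le_trans (le_of_eq (sum_congr rfl fun i _ => piece_sum hD hR F hH (a i) _))
    (le_trans hφ₀ (le_of_eq ?_))⟩
  simp only [G]
  rw [integral_finsetSum _ fun i _ => (integrable_finsetSum _ fun j _ => hint i j).const_mul _]
  refine sum_congr rfl fun i _ => ?_
  rw [integral_const_mul, integral_finsetSum _ fun j _ => hint i j,
    sum_congr rfl fun j _ => hswap i j, sum_const, card_range, nsmul_eq_mul, ← mul_assoc,
    inv_mul_cancel₀ (by exact_mod_cast hm.ne'), one_mul]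

end Vale.Agent.P130.Simple.Base
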