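import Vale.Agent.P130.Simple.Defs
import Vale.Agent.P130.SimpleChain

/-! The cells of a rank one system: refinement, correlations, totality. -/

namespace Vale.Agent.P130.Simple

open Finset MeasureTheory Filter Topology
open scoped BigOperators ENNReal ComplexConjugate
open Vale.Agent.P110.Flat (ee)
open P130Indep (tp tp_add tp_mp integral_tp)

theorem pos_succ (h : ℕ) (w : ℕ → ℕ) (j : ℕ) : pos h w (j + 1) = pos h w j + (h + w j) :=
  Finset.sum_range_succ _ _

theorem pos_mono (h : ℕ) (w : ℕ → ℕ) {i j : ℕ} (hij : i ≤ j) : pos h w i ≤ pos h w j :=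
  Finset.sum_le_sum_of_subset (Finset.range_mono hij)

theorem pos_gap (h : ℕ) (w : ℕ → ℕ) {i j : ℕ} (hij : i < j) : pos h w i + h ≤ pos h w j :=
  le_trans (by rw [pos_succ]; omega) (pos_mono h w (Nat.succ_le_of_lt hij))

namespace Params

variable (A : Params)

theorem two_le_height (n : ℕ) : 2 ≤ A.height n := by
  induction n with
  | zero => exact A.hh₀
  | succ n ih =>
      show 2 ≤ pos (A.height n) (A.w n) (A.m n)
      have h := pos_gap (A.height n) (A.w n) (show 0 < A.m n by have := A.hm n; omega)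
      omega

theorem height_pos (n : ℕ) : 0 < A.height n := by have := A.two_le_height n; omega

theorem two_mul_height_le (n : ℕ) : 2 * A.height n ≤ A.height (n + 1) := by
  show 2 * A.height n ≤ pos (A.height n) (A.w n) (A.m n)
  have h1 := pos_gap (A.height n) (A.w n) (show 0 < 1 from one_pos)
  have h2 := pos_gap (A.height n) (A.w n) (show 1 < 2 from one_lt_two)
  have h3 := pos_mono (A.height n) (A.w n) (A.hm n)
  omega

theorem tendsto_height : Tendsto A.height atTop atTop := by
  refine tendsto_atTop_mono (fun n => ?_) tendsto_id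
  induction n with
  | zero => exact Nat.zero_le _
  | succ n ih => have := A.two_mul_height_le n; have := A.height_pos n; simp only [id] at ih ⊢; omega

theorem pos_lt_height {n j : ℕ} (hj : j < A.m n) :
    pos (A.height n) (A.w n) j + A.height n ≤ A.height (n + 1) :=
  pos_gap _ _ hj

/-- The offsets of the copies of tower `n` inside tower `n + l`. -/
def offs (A : Params) (n : ℕ) : ℕ → Finset ℕ
  | 0 => {0}
  | l + 1 => (range (A.m (n + l))).biUnion fun j =>
      (A.offs n l).map (addRightEmbedding (pos (A.height (n + l)) (A.w (n + l)) j))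

theorem offs_add_le (n : ℕ) : ∀ l, ∀ J ∈ A.offs n l, J + A.height n ≤ A.height (n + l) := by
  intro l
  induction l with
  | zero => intro J hJ; simp only [offs, Finset.mem_singleton] at hJ; simp [hJ]
  | succ l ih =>
    intro J hJ
    simp only [offs, Finset.mem_biUnion, Finset.mem_map, addRightEmbedding_apply,
      Finset.mem_range] at hJ
    obtain ⟨j, hj, J', hJ', rfl⟩ := hJ
    have := A.pos_lt_height hj
    have := ih J' hJ'
    show J' + _ + _ ≤ A.height (n + l + 1)
    omega

theorem offs_lt (n l : ℕ) (J : ℕ) (hJ : J ∈ A.offs n l) : J < A.height (n + l) := by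
  have := A.offs_add_le n l J hJ
  have := A.height_pos n
  omega

theorem offs_disjoint (n l : ℕ) {i j : ℕ} (hij : i ≠ j) :
    Disjoint ((A.offs n l).map (addRightEmbedding (pos (A.height (n + l)) (A.w (n + l)) i)))
      ((A.offs n l).map (addRightEmbedding (pos (A.height (n + l)) (A.w (n + l)) j))) := by
  wlog h : i < j generalizing i j with H
  · exact (H hij.symm (by omega)).symm
  rw [Finset.disjoint_left]
  intro J h1 h2
  simp only [Finset.mem_map, addRightEmbedding_apply] at h1 h2
  obtain ⟨a, ha, rfl⟩ := h1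
  obtain ⟨b, hb, hab⟩ := h2
  have := A.offs_lt n l a ha
  have := pos_gap (A.height (n + l)) (A.w (n + l)) h
  omega

theorem sum_offs {M : Type*} [AddCommMonoid M] (n l : ℕ) (F : ℕ → M) :
    ∑ J ∈ A.offs n (l + 1), F J = ∑ j ∈ range (A.m (n + l)), ∑ J ∈ A.offs n l,
      F (J + pos (A.height (n + l)) (A.w (n + l)) j) := by
  rw [offs, Finset.sum_biUnion (fun i _ j _ hij => A.offs_disjoint n l hij)]
  simp

theorem card_offs (n : ℕ) : ∀ l, ((A.offs n l).card : ℝ) = ∏ j ∈ range l, (A.m (n + j) : ℝ) := by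
  intro l
  induction l with
  | zero => simp [offs]
  | succ l ih =>
    rw [Finset.card_eq_sum_ones, Nat.cast_sum, sum_offs, Finset.prod_range_succ, ← ih]
    simp [mul_comm]

theorem prod_m_pos (n l : ℕ) : 0 < ∏ j ∈ range l, (A.m (n + j) : ℝ) :=
  Finset.prod_pos fun j _ => by have := A.hm (n + j); exact_mod_cast (by omega : 0 < A.m (n + j))

end Params

theorem ee_add (a b : ℝ) : ee (a + b) = ee a * ee b := by
  rw [ee, ee, ee, ← Complex.exp_add]; push_cast; ring_nf

theorem ee_zero : ee 0 = 1 := by simp [ee]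

theorem conj_ee (x : ℝ) : conj (ee x) = ee (-x) := by
  rw [ee, ee, ← Complex.exp_conj]
  simp [Complex.conj_I, map_ofNat]

theorem continuous_ee : Continuous ee := by unfold ee; fun_prop

theorem fourier_eq_ee (k : ℤ) (θ : ℝ) :
    fourier k (θ : AddCircle (1 : ℝ)) = ee ((k : ℝ) * θ) := by
  rw [fourier_coe_apply, ee]
  push_cast
  ring_nf

theorem integral_ee (k : ℤ) : ∫ θ in (0 : ℝ)..1, ee ((k : ℝ) * θ) = if k = 0 then 1 else 0 := by
  split_ifs with h
  · simp [h, ee_zero]
  · have e : ∀ θ : ℝ, ee ((k : ℝ) * θ) = Complex.exp (2 * Real.pi * k * Complex.I * θ) := by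
      intro θ; rw [ee]; push_cast; ring_nf
    simp only [e]
    rw [integral_exp_mul_complex (by simp [h, Real.pi_ne_zero])]
    have : Complex.exp (2 * Real.pi * k * Complex.I * ((1 : ℝ) : ℂ)) = 1 := by
      rw [Complex.ofReal_one, mul_one, show 2 * (Real.pi : ℂ) * k * Complex.I
        = k * (2 * Real.pi * Complex.I) by ring, Complex.exp_int_mul_two_pi_mul_I]
    rw [this]; simp

namespace Params

variable (A : Params)

theorem prod_poly (n : ℕ) (θ : ℝ) : ∀ l, ((Real.sqrt (∏ j ∈ range l, (A.m (n + j) : ℝ)) : ℝ) : ℂ)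
      * ∏ j ∈ range l, A.poly (n + j) θ = ∑ J ∈ A.offs n l, ee ((J : ℝ) * θ) := by
  intro l
  induction l with
  | zero => simp [offs, ee_zero]
  | succ l ih =>
    have hm : (0 : ℝ) < (A.m (n + l) : ℝ) := by
      have := A.hm (n + l); exact_mod_cast (by omega : 0 < A.m (n + l))
    rw [Finset.prod_range_succ, Finset.prod_range_succ,
      Real.sqrt_mul (A.prod_m_pos n l).le, Complex.ofReal_mul, mul_mul_mul_comm, ih, sum_offs,
      poly, stagePoly, ← mul_assoc (((Real.sqrt (A.m (n + l) : ℝ)) : ℝ) : ℂ), ← Complex.ofReal_mul,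
      mul_inv_cancel₀ (Real.sqrt_pos.2 hm).ne', Complex.ofReal_one, one_mul, Finset.mul_sum]
    refine Finset.sum_congr rfl fun j _ => ?_
    rw [Finset.sum_mul]
    refine Finset.sum_congr rfl fun J _ => ?_
    rw [← ee_add]; push_cast; ring_nf

/-- The proportion of `J` with `J + k` again an offset. -/
noncomputable def occ (n l : ℕ) (k : ℤ) : ℂ :=
  (∑ J ∈ A.offs n l, ∑ J' ∈ A.offs n l, if (J' : ℤ) = J + k then (1 : ℂ) else 0)
    / ((A.offs n l).card : ℂ)

theorem prod_sq_coef (n l : ℕ) (k : ℤ) :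
    ∫ θ in (0 : ℝ)..1, ((∏ j ∈ range l, ‖A.poly (n + j) θ‖ ^ 2 : ℝ) : ℂ) * ee ((k : ℝ) * θ)
      = A.occ n l k := by
  have hP := A.prod_m_pos n l
  set P := ∏ j ∈ range l, (A.m (n + j) : ℝ)
  have e : ∀ θ : ℝ, ((∏ j ∈ range l, ‖A.poly (n + j) θ‖ ^ 2 : ℝ) : ℂ) * ee ((k : ℝ) * θ)
      = (P : ℂ)⁻¹ * ∑ J ∈ A.offs n l, ∑ J' ∈ A.offs n l,
          ee ((((J : ℤ) + k - J' : ℤ) : ℝ) * θ) := by
    intro θ
    have h := A.prod_poly n θ l
    have h2 : conj (∑ J ∈ A.offs n l, ee ((J : ℝ) * θ)) * (∑ J ∈ A.offs n l, ee ((J : ℝ) * θ))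
        = (P : ℂ) * ((∏ j ∈ range l, ‖A.poly (n + j) θ‖ ^ 2 : ℝ) : ℂ) := by
      rw [← h, Complex.conj_mul', Finset.prod_pow, norm_mul, norm_prod,
        Complex.norm_real, Real.norm_eq_abs, abs_of_nonneg (Real.sqrt_nonneg _)]
      norm_cast
      rw [mul_pow, Real.sq_sqrt (Nat.cast_nonneg _)]
      simp [P]
    have hP' : (P : ℂ) ≠ 0 := Complex.ofReal_ne_zero.2 hP.ne'
    rw [show ((∏ j ∈ range l, ‖A.poly (n + j) θ‖ ^ 2 : ℝ) : ℂ) = (P : ℂ)⁻¹ *
        ((P : ℂ) * ((∏ j ∈ range l, ‖A.poly (n + j) θ‖ ^ 2 : ℝ) : ℂ)) by field_simp,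
      ← h2, map_sum, Finset.sum_mul_sum, Finset.sum_comm, mul_assoc, Finset.sum_mul]
    congr 1
    refine Finset.sum_congr rfl fun J _ => ?_
    rw [Finset.sum_mul]
    refine Finset.sum_congr rfl fun J' _ => ?_
    rw [conj_ee, ← ee_add, ← ee_add]
    push_cast; ring_nf
  simp only [e]
  have hc : ∀ a : ℝ, Continuous fun θ : ℝ => ee (a * θ) := fun a =>
    continuous_ee.comp (continuous_const.mul continuous_id)
  rw [intervalIntegral.integral_const_mul, intervalIntegral.integral_finsetSum
    (fun J _ => (continuous_finsetSum _ fun J' _ => hc _).intervalIntegrable _ _)]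
  rw [occ, A.card_offs n l |> congrArg (fun x : ℝ => (x : ℂ)) |> fun h => (by
    push_cast at h ⊢; exact h : ((A.offs n l).card : ℂ) = _), div_eq_inv_mul]
  congr 1
  · simp [P]
  refine Finset.sum_congr rfl fun J _ => ?_
  rw [intervalIntegral.integral_finsetSum (fun J' _ => (hc _).intervalIntegrable _ _)]
  refine Finset.sum_congr rfl fun J' _ => ?_
  rw [integral_ee]
  exact if_congr (by omega) rfl rfl

theorem weight_coef (n l : ℕ) (k : ℤ) :
    ∫ θ in (0 : ℝ)..1, (A.weight n l θ : ℂ) * ee ((k : ℝ) * θ)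
      = 2 * A.occ n l k - A.occ n l (k + 1) - A.occ n l (k - 1) := by
  have hc : ∀ j : ℤ, IntervalIntegrable (fun θ : ℝ =>
      ((∏ i ∈ range l, ‖A.poly (n + i) θ‖ ^ 2 : ℝ) : ℂ) * ee ((j : ℝ) * θ)) volume 0 1 := by
    intro j
    refine Continuous.intervalIntegrable ?_ _ _
    refine (Complex.continuous_ofReal.comp (continuous_finsetProd _ fun i _ => ?_)).mul
      (continuous_ee.comp (continuous_const.mul continuous_id))
    unfold poly stagePoly
    exact (continuous_norm.comp (continuous_const.mul (continuous_finsetSum _ fun _ _ =>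
      continuous_ee.comp (continuous_const.mul continuous_id)))).pow 2
  have e : ∀ θ : ℝ, (A.weight n l θ : ℂ) * ee ((k : ℝ) * θ)
      = 2 * (((∏ i ∈ range l, ‖A.poly (n + i) θ‖ ^ 2 : ℝ) : ℂ) * ee ((k : ℝ) * θ))
        - ((∏ i ∈ range l, ‖A.poly (n + i) θ‖ ^ 2 : ℝ) : ℂ) * ee (((k + 1 : ℤ) : ℝ) * θ)
        - ((∏ i ∈ range l, ‖A.poly (n + i) θ‖ ^ 2 : ℝ) : ℂ) * ee (((k - 1 : ℤ) : ℝ) * θ) := by
    intro θ
    have h1 : ee θ * ee (-θ) = 1 := by rw [← ee_add, add_neg_cancel, ee_zero]
    have h2 : (((‖1 - ee θ‖ ^ 2 : ℝ)) : ℂ) = 2 - ee θ - ee (-θ) := by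
      rw [Complex.ofReal_pow, ← Complex.conj_mul', map_sub, map_one, conj_ee]
      linear_combination h1
    rw [weight, Complex.ofReal_mul, h2,
      show (((k + 1 : ℤ) : ℝ)) * θ = (k : ℝ) * θ + θ by push_cast; ring,
      show (((k - 1 : ℤ) : ℝ)) * θ = (k : ℝ) * θ + -θ by push_cast; ring, ee_add, ee_add]
    ring
  simp only [e]
  rw [intervalIntegral.integral_sub (((hc k).const_mul 2).sub (hc (k + 1))) (hc (k - 1)),
    intervalIntegral.integral_sub ((hc k).const_mul 2) (hc (k + 1)),
    intervalIntegral.integral_const_mul, prod_sq_coef, prod_sq_coef, prod_sq_coef]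

end Params

variable {A : Params} (S : RankOne A)

instance : MeasurableSpace S.X := S.mX
instance : IsProbabilityMeasure S.μ := S.hprob

namespace RankOne

/-- Level `i` of tower `n`. -/
def level (n i : ℕ) : Set S.X := (S.T : S.X → S.X)^[i] '' S.B n

theorem tp_nat (i : ℕ) : tp S.T (i : ℤ) = (S.T : S.X → S.X)^[i] := by
  simp [tp, Equiv.Perm.coe_pow]

theorem tp_cancel (a : ℤ) (x : S.X) : tp S.T a (tp S.T (-a) x) = x := by
  rw [← tp_add, add_neg_cancel]; simp [tp]

theorem level_eq_preimage (n i : ℕ) : S.level n i = tp S.T (-(i : ℤ)) ⁻¹' S.B n := by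
  ext x
  constructor
  · rintro ⟨y, hy, rfl⟩
    show tp S.T (-(i : ℤ)) ((S.T : S.X → S.X)^[i] y) ∈ S.B n
    rw [← tp_nat, ← tp_add, neg_add_cancel]
    simpa [tp] using hy
  · intro hx
    exact ⟨tp S.T (-(i : ℤ)) x, hx, by rw [← tp_nat]; exact S.tp_cancel _ x⟩

theorem measurableSet_level (n i : ℕ) : MeasurableSet (S.level n i) := by
  rw [level_eq_preimage]
  exact (tp_mp S.hT _).measurable (S.hB n)

theorem measure_level (n i : ℕ) : S.μ (S.level n i) = S.μ (S.B n) := by
  rw [level_eq_preimage]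
  exact (tp_mp S.hT _).measure_preimage (S.hB n).nullMeasurableSet

theorem level_disjoint {n i j : ℕ} (hi : i < A.height n) (hj : j < A.height n) (hij : i ≠ j) :
    Disjoint (S.level n i) (S.level n j) := S.hdisj n i j hi hj hij

theorem level_split (n i : ℕ) :
    S.level n i = ⋃ j ∈ range (A.m n), S.level (n + 1) (i + pos (A.height n) (A.w n) j) := by
  unfold level
  conv_lhs => rw [S.hsplit n]
  simp only [Set.image_iUnion, ← Set.image_comp, ← Function.iterate_add]

/-- The indicator of the base. -/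
noncomputable def ind (n : ℕ) : S.X → ℂ := (S.B n).indicator fun _ => 1

theorem ind_tp (n i : ℕ) (x : S.X) :
    S.ind n (tp S.T (-(i : ℤ)) x) = (S.level n i).indicator (fun _ => 1) x := by
  rw [level_eq_preimage]
  rfl

theorem ind_refine (n : ℕ) (x : S.X) :
    S.ind n x = ∑ j ∈ range (A.m n),
      S.ind (n + 1) (tp S.T (-(pos (A.height n) (A.w n) j : ℤ)) x) := by
  simp only [ind_tp]
  have hd : ((range (A.m n) : Finset ℕ) : Set ℕ).PairwiseDisjoint
      fun j => S.level (n + 1) (pos (A.height n) (A.w n) j) := by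
    intro i hi j hj hij
    simp only [Finset.coe_range, Set.mem_Iio] at hi hj
    have h1 := A.pos_lt_height hi
    have h2 := A.pos_lt_height hj
    have := A.height_pos n
    refine S.level_disjoint (by omega) (by omega) ?_
    rcases lt_or_gt_of_ne hij with h | h
    · have := pos_gap (A.height n) (A.w n) h; omega
    · have := pos_gap (A.height n) (A.w n) h; omega
  rw [← Finset.indicator_biUnion_apply _ _ hd]
  simp only [level, ← S.hsplit n]
  rfl

theorem ind_expand (n : ℕ) : ∀ (l : ℕ) (x : S.X),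
    S.ind n x = ∑ J ∈ A.offs n l, S.ind (n + l) (tp S.T (-(J : ℤ)) x) := by
  intro l
  induction l with
  | zero => intro x; simp [Params.offs, tp]; rfl
  | succ l ih =>
    intro x
    rw [ih x, A.sum_offs, Finset.sum_comm]
    refine Finset.sum_congr rfl fun J _ => ?_
    rw [ind_refine]
    refine Finset.sum_congr rfl fun j _ => ?_
    rw [← tp_add, Nat.cast_add, neg_add, add_comm (-(J : ℤ)), Nat.add_assoc]

theorem mem_level_B {n l : ℕ} {i : ℕ} (hi : i < A.height (n + l)) {y : S.X}
    (hy : y ∈ S.B (n + l)) :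
    S.ind n (tp S.T (i : ℤ) y) = if i ∈ A.offs n l then 1 else 0 := by
  have hz : tp S.T (i : ℤ) y ∈ S.level (n + l) i := ⟨y, hy, (congrFun (S.tp_nat i) y).symm⟩
  rw [S.ind_expand n l]
  simp only [ind_tp]
  have e : ∀ J ∈ A.offs n l, (S.level (n + l) J).indicator (fun _ => (1 : ℂ)) (tp S.T (i : ℤ) y)
      = if i = J then 1 else 0 := by
    intro J hJ
    split_ifs with h
    · subst h; simp [hz]
    · exact Set.indicator_of_notMem (Set.disjoint_left.1
        (S.level_disjoint hi (A.offs_lt n l J hJ) h) hz) _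
  rw [Finset.sum_congr rfl e, Finset.sum_ite_eq]

theorem norm_ind_le (n : ℕ) (x : S.X) : ‖S.ind n x‖ ≤ 1 := by
  unfold ind; by_cases h : x ∈ S.B n <;> simp [h]

theorem measurable_ind (n : ℕ) : Measurable (S.ind n) :=
  measurable_const.indicator (S.hB n)

theorem memLp_ind (n : ℕ) : MemLp (S.ind n) 2 S.μ :=
  MemLp.of_bound (S.measurable_ind n).aestronglyMeasurable 1
    (Eventually.of_forall (S.norm_ind_le n))

/-- Correlations of the base indicator. -/
noncomputable def corr (n : ℕ) (k : ℤ) : ℂ := ∫ x, S.ind n x * S.ind n (tp S.T k x) ∂S.μ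

theorem corr_near (n l : ℕ) (k : ℤ) :
    ‖S.corr n k - ∑ J ∈ A.offs n l, ∑ J' ∈ A.offs n l,
        (if (J' : ℤ) = J + k then ((S.μ (S.B (n + l))).toReal : ℂ) else 0)‖
      ≤ |(k : ℝ)| * (S.μ (S.B (n + l))).toReal := by
  set M := n + l
  set β := (S.μ (S.B M)).toReal
  have hint : ∀ (J : ℕ), Integrable
      (fun x => S.ind M (tp S.T (-(J : ℤ)) x) * S.ind n (tp S.T k x)) S.μ := by
    intro J
    refine Integrable.of_bound (((S.measurable_ind M).comp (tp_mp S.hT _).measurable).mul
      ((S.measurable_ind n).comp (tp_mp S.hT _).measurable)).aestronglyMeasurable 1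
      (Eventually.of_forall fun x => ?_)
    rw [norm_mul]
    exact mul_le_one₀ (S.norm_ind_le _ _) (norm_nonneg _) (S.norm_ind_le _ _)
  have e : S.corr n k = ∑ J ∈ A.offs n l, ∫ y, S.ind M y * S.ind n (tp S.T (k + J) y) ∂S.μ := by
    have e1 : (fun x => S.ind n x * S.ind n (tp S.T k x))
        = fun x => ∑ J ∈ A.offs n l, S.ind M (tp S.T (-(J : ℤ)) x) * S.ind n (tp S.T k x) := by
      funext x
      rw [← Finset.sum_mul, ← S.ind_expand n l x]
    rw [corr, e1, integral_finsetSum _ fun J _ => hint J]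
    refine Finset.sum_congr rfl fun J _ => ?_
    rw [← integral_tp S.hT (-(J : ℤ)) (fun y => S.ind M y * S.ind n (tp S.T (k + J) y))
      ((S.measurable_ind M).mul
        ((S.measurable_ind n).comp (tp_mp S.hT _).measurable)).aestronglyMeasurable]
    simp only [← tp_add, add_neg_cancel_right]
  set bad := (A.offs n l).filter fun J : ℕ => ¬ (0 ≤ (J : ℤ) + k ∧ (J : ℤ) + k < A.height M)
  have hterm : ∀ J ∈ A.offs n l, ‖(∫ y, S.ind M y * S.ind n (tp S.T (k + J) y) ∂S.μ)
      - ∑ J' ∈ A.offs n l, (if (J' : ℤ) = J + k then (β : ℂ) else 0)‖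
      ≤ if J ∈ bad then β else 0 := by
    intro J hJ
    by_cases hb : J ∈ bad
    · rw [if_pos hb]
      have hz : ∑ J' ∈ A.offs n l, (if (J' : ℤ) = J + k then (β : ℂ) else 0) = 0 := by
        refine Finset.sum_eq_zero fun J' hJ' => if_neg fun h => ?_
        exact (Finset.mem_filter.1 hb).2 ⟨by omega, by have := A.offs_lt n l J' hJ'; simp only [M]; omega⟩
      rw [hz, sub_zero]
      refine (norm_integral_le_integral_norm _).trans ?_
      calc ∫ y, ‖S.ind M y * S.ind n (tp S.T (k + J) y)‖ ∂S.μ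
          ≤ ∫ y, (S.B M).indicator (fun _ => (1 : ℝ)) y ∂S.μ := by
            refine integral_mono_of_nonneg (Eventually.of_forall fun y => norm_nonneg _)
              ((integrable_const _).indicator (S.hB M)) (Eventually.of_forall fun y => ?_)
            by_cases hy : y ∈ S.B M
            · simp [ind, hy, Set.indicator]; split_ifs <;> simp
            · simp [ind, hy]
        _ = β := by rw [integral_indicator_const _ (S.hB M)]; simp [β, Measure.real]
    · rw [if_neg hb]
      simp only [bad, Finset.mem_filter, hJ, true_and, not_not] at hb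
      obtain ⟨i, hi⟩ := Int.eq_ofNat_of_zero_le hb.1
      have hi' : i < A.height M := by omega
      have hv : ∀ y, S.ind M y * S.ind n (tp S.T (k + J) y)
          = (S.B M).indicator (fun _ => (if i ∈ A.offs n l then (1 : ℂ) else 0)) y := by
        intro y
        by_cases hy : y ∈ S.B M
        · rw [show k + (J : ℤ) = (i : ℤ) by omega, S.mem_level_B hi' hy]
          simp [ind, hy]
        · simp [ind, hy]
      simp only [hv]
      rw [integral_indicator_const _ (S.hB M), norm_le_zero_iff, sub_eq_zero, Complex.real_smul]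
      have hs : ∀ J' ∈ A.offs n l, (if (J' : ℤ) = J + k then (β : ℂ) else 0)
          = if J' = i then (β : ℂ) else 0 := fun J' _ => if_congr (by omega) rfl rfl
      rw [Finset.sum_congr rfl hs, Finset.sum_ite_eq']
      split_ifs <;> simp [β, Measure.real]
  have hcard : (bad.card : ℝ) ≤ |(k : ℝ)| := by
    have h1 : bad.card ≤ k.natAbs := by
      rcases le_total 0 k with hk | hk
      · refine (Finset.card_le_card (t := Finset.Ico (A.height M - k.natAbs) (A.height M))
          fun J hJ => ?_).trans (by simp; omega)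
        have := A.offs_lt n l J (Finset.mem_filter.1 hJ).1
        have := (Finset.mem_filter.1 hJ).2
        rw [Finset.mem_Ico]; simp only [M] at *; omega
      · refine (Finset.card_le_card (t := Finset.range k.natAbs) fun J hJ => ?_).trans (by simp)
        have := A.offs_lt n l J (Finset.mem_filter.1 hJ).1
        have := (Finset.mem_filter.1 hJ).2
        rw [Finset.mem_range]; simp only [M] at *; omega
    calc (bad.card : ℝ) ≤ (k.natAbs : ℝ) := by exact_mod_cast h1
      _ = |(k : ℝ)| := by rw [← Int.cast_abs, Int.abs_eq_natAbs]; simp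
  rw [e, ← Finset.sum_sub_distrib]
  refine (norm_sum_le _ _).trans ((Finset.sum_le_sum hterm).trans ?_)
  rw [← Finset.sum_filter, Finset.sum_const, nsmul_eq_mul]
  refine mul_le_mul_of_nonneg_right (le_trans ?_ hcard) ENNReal.toReal_nonneg
  exact_mod_cast Finset.card_le_card fun J hJ => (Finset.mem_filter.1 hJ).2

theorem measure_B_eq (n : ℕ) : ∀ l,
    (S.μ (S.B n)).toReal = ((A.offs n l).card : ℝ) * (S.μ (S.B (n + l))).toReal := by
  intro l
  induction l with
  | zero => simp [Params.offs]
  | succ l ih =>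
    rw [ih, A.card_offs, A.card_offs, Finset.prod_range_succ, S.hsize (n + l),
      ENNReal.toReal_mul, ENNReal.toReal_natCast, mul_assoc]
    rfl

theorem tendsto_measure_B : Tendsto (fun n => (S.μ (S.B n)).toReal) atTop (𝓝 0) := by
  have hh : Tendsto (fun n => (A.height n : ℝ)⁻¹) atTop (𝓝 0) :=
    tendsto_inv_atTop_zero.comp (tendsto_natCast_atTop_atTop.comp A.tendsto_height)
  have := hh.mul S.hcover
  rw [zero_mul] at this
  refine this.congr fun n => ?_
  have : (0 : ℝ) < A.height n := by exact_mod_cast A.height_pos n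
  field_simp

theorem measure_B_pos (n : ℕ) : 0 < (S.μ (S.B n)).toReal := by
  obtain ⟨M, hM, hnM⟩ := (((tendsto_order.1 S.hcover).1 0 one_pos).and (eventually_ge_atTop n)).exists
  obtain ⟨l, rfl⟩ := Nat.exists_eq_add_of_le hnM
  rw [S.measure_B_eq n l, A.card_offs]
  refine mul_pos (A.prod_m_pos n l) (pos_of_mul_pos_right hM (Nat.cast_nonneg _))

theorem tendsto_corr (n : ℕ) (k : ℤ) :
    Tendsto (fun l => ((S.μ (S.B n)).toReal : ℂ) * A.occ n l k) atTop (𝓝 (S.corr n k)) := by
  rw [tendsto_iff_norm_sub_tendsto_zero]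
  refine squeeze_zero (fun l => norm_nonneg _) (fun l => ?_)
    (g := fun l => |(k : ℝ)| * (S.μ (S.B (n + l))).toReal) ?_
  · rw [norm_sub_rev]
    have hc : ((A.offs n l).card : ℂ) ≠ 0 := by
      have := A.prod_m_pos n l
      rw [← A.card_offs] at this
      exact_mod_cast this.ne'
    have e : ((S.μ (S.B n)).toReal : ℂ) * A.occ n l k = ∑ J ∈ A.offs n l, ∑ J' ∈ A.offs n l,
        (if (J' : ℤ) = J + k then ((S.μ (S.B (n + l))).toReal : ℂ) else 0) := by
      simp only [Params.occ]
      rw [S.measure_B_eq n l, Complex.ofReal_mul, Complex.ofReal_natCast, mul_assoc,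
        mul_div_assoc', mul_div_assoc', mul_div_cancel_left₀ _ hc, Finset.mul_sum]
      refine Finset.sum_congr rfl fun J _ => ?_
      rw [Finset.mul_sum]
      exact Finset.sum_congr rfl fun J' _ => by split_ifs <;> simp
    rw [e]
    exact S.corr_near n l k
  · have := (S.tendsto_measure_B.comp
      (tendsto_atTop_mono (fun l => Nat.le_add_left l n) tendsto_id)).const_mul |(k : ℝ)|
    simpa using this

/-- The coboundary vectors. -/
noncomputable def cell (n : ℕ) : S.X → ℂ := fun x => S.ind n x - S.ind n (S.T x)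

theorem tp_one (x : S.X) : tp S.T 1 x = S.T x := by simp [tp]

theorem memLp_cell (n : ℕ) : MemLp (S.cell n) 2 S.μ :=
  (S.memLp_ind n).sub ((S.memLp_ind n).comp_measurePreserving S.hT)

theorem integral_cell (n : ℕ) : ∫ x, S.cell n x ∂S.μ = 0 := by
  unfold cell
  rw [integral_sub ((S.memLp_ind n).integrable one_le_two)
    (show Integrable (fun x => S.ind n (S.T x)) S.μ from
      ((S.memLp_ind n).comp_measurePreserving S.hT).integrable one_le_two)]
  simp only [← tp_one]
  rw [integral_tp S.hT 1 (S.ind n) (S.measurable_ind n).aestronglyMeasurable, sub_self]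

theorem cell_refine (n : ℕ) (x : S.X) : S.cell n x = ∑ j ∈ range (A.m n),
    S.cell (n + 1) (tp S.T (-(pos (A.height n) (A.w n) j : ℤ)) x) := by
  simp only [cell]
  rw [Finset.sum_sub_distrib, ← S.ind_refine, sub_right_inj, S.ind_refine n (S.T x)]
  refine Finset.sum_congr rfl fun j _ => ?_
  rw [← tp_one, ← tp_one, ← tp_add, ← tp_add, add_comm (1 : ℤ)]

theorem conj_ind (n : ℕ) (x : S.X) : conj (S.ind n x) = S.ind n x := by
  unfold ind; by_cases h : x ∈ S.B n <;> simp [h]

theorem cell_corr (n : ℕ) (k : ℤ) :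
    ∫ x, conj (S.cell n x) * S.cell n (tp S.T k x) ∂S.μ
      = 2 * S.corr n k - S.corr n (k + 1) - S.corr n (k - 1) := by
  have hi : ∀ a b : ℤ, Integrable (fun x => S.ind n (tp S.T a x) * S.ind n (tp S.T b x)) S.μ := by
    intro a b
    refine Integrable.of_bound (((S.measurable_ind n).comp (tp_mp S.hT _).measurable).mul
      ((S.measurable_ind n).comp (tp_mp S.hT _).measurable)).aestronglyMeasurable 1
      (Eventually.of_forall fun x => ?_)
    rw [norm_mul]
    exact mul_le_one₀ (S.norm_ind_le _ _) (norm_nonneg _) (S.norm_ind_le _ _)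
  have hshift : ∀ a b : ℤ, ∫ x, S.ind n (tp S.T a x) * S.ind n (tp S.T b x) ∂S.μ
      = S.corr n (b - a) := by
    intro a b
    rw [corr, ← integral_tp S.hT a (fun x => S.ind n x * S.ind n (tp S.T (b - a) x))
      ((S.measurable_ind n).mul
        ((S.measurable_ind n).comp (tp_mp S.hT _).measurable)).aestronglyMeasurable]
    simp only [← tp_add, sub_add_cancel]
  have e : ∀ x, conj (S.cell n x) * S.cell n (tp S.T k x)
      = S.ind n (tp S.T 0 x) * S.ind n (tp S.T k x)
        + S.ind n (tp S.T 1 x) * S.ind n (tp S.T (1 + k) x)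
        - S.ind n (tp S.T 0 x) * S.ind n (tp S.T (1 + k) x)
        - S.ind n (tp S.T 1 x) * S.ind n (tp S.T k x) := by
    intro x
    have h0 : tp S.T 0 x = x := by simp [tp]
    simp only [cell, map_sub, conj_ind, tp_add, tp_one, h0]
    ring
  simp only [e]
  have h2 := fun a b c d => (hi a b).add (hi c d)
  have h3 := fun a b c d e f => (h2 a b c d).sub (hi e f)
  rw [integral_sub (h3 0 k 1 (1 + k) 0 (1 + k) : Integrable (fun x => _ + _ - _) _) (hi _ _),
    integral_sub (h2 0 k 1 (1 + k) : Integrable (fun x => _ + _) _) (hi _ _),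
    integral_add (hi _ _) (hi _ _),
    hshift, hshift, hshift, hshift]
  ring_nf

theorem tendsto_cell_corr (n : ℕ) (k : ℤ) :
    Tendsto (fun l => ((S.μ (S.B n)).toReal : ℂ) *
        ∫ θ in (0 : ℝ)..1, (A.weight n l θ : ℂ) * ee ((k : ℝ) * θ)) atTop
      (𝓝 (∫ x, conj (S.cell n x) * S.cell n (tp S.T k x) ∂S.μ)) := by
  rw [S.cell_corr]
  refine ((((S.tendsto_corr n k).const_mul 2).sub (S.tendsto_corr n (k + 1))).sub
    (S.tendsto_corr n (k - 1))).congr fun l => ?_
  rw [A.weight_coef]; ring

theorem level_subset_or_disjoint {n M i i' : ℕ} (hnM : n ≤ M) (hi : i < A.height n)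
    (hi' : i' < A.height M) :
    S.level M i' ⊆ S.level n i ∨ Disjoint (S.level M i') (S.level n i) := by
  induction M, hnM using Nat.le_induction generalizing i' with
  | base =>
    by_cases h : i' = i
    · exact Or.inl (h ▸ subset_rfl)
    · exact Or.inr (S.level_disjoint hi' hi h)
  | succ M hM ih =>
    by_cases h : ∃ i'' < A.height M, ∃ j < A.m M, i'' + pos (A.height M) (A.w M) j = i'
    · obtain ⟨i'', hi'', j, hj, rfl⟩ := h
      have hsub : S.level (M + 1) (i'' + pos (A.height M) (A.w M) j) ⊆ S.level M i'' := by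
        rw [S.level_split M i'']
        exact Set.subset_biUnion_of_mem (u := fun j => S.level (M + 1)
          (i'' + pos (A.height M) (A.w M) j)) (Finset.mem_coe.2 (Finset.mem_range.2 hj))
      rcases ih hi'' with h1 | h1
      · exact Or.inl (hsub.trans h1)
      · exact Or.inr (h1.mono_left hsub)
    · push Not at h
      refine Or.inr ?_
      obtain ⟨l, rfl⟩ := Nat.exists_eq_add_of_le hM
      rw [Set.disjoint_right]
      intro x hx hx'
      have hx2 : S.ind n (tp S.T (-(i : ℤ)) x) = 1 := by rw [ind_tp]; simp [hx]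
      rw [S.ind_expand n l] at hx2
      have : ∀ J ∈ A.offs n l, S.ind (n + l) (tp S.T (-(J : ℤ)) (tp S.T (-(i : ℤ)) x)) = 0 := by
        intro J hJ
        rw [← tp_add, show -(J : ℤ) + -(i : ℤ) = -((i + J : ℕ) : ℤ) by push_cast; ring, ind_tp,
          level_split]
        refine Set.indicator_of_notMem (fun hmem => ?_) _
        simp only [Set.mem_iUnion, Finset.mem_range] at hmem
        obtain ⟨j, hj, hm⟩ := hmem
        have hb : i + J < A.height (n + l) := (by have := A.offs_add_le n l J hJ; omega)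
        have hb' : i + J + pos (A.height (n + l)) (A.w (n + l)) j < A.height (n + l + 1) := by
          have := A.pos_lt_height hj; omega
        exact Set.disjoint_left.1 (S.level_disjoint hb' hi' (h _ hb j hj)) hm hx'
      rw [Finset.sum_eq_zero this] at hx2
      exact one_ne_zero hx2.symm

theorem level_integral_zero (g : S.X → ℂ) (hg : MemLp g 2 S.μ) (hg0 : ∫ x, g x ∂S.μ = 0)
    (horth : ∀ n (k : ℤ), ∫ x, conj (S.cell n (tp S.T k x)) * g x ∂S.μ = 0)
    {n i : ℕ} (hi : i < A.height n) : ∫ x in S.level n i, g x ∂S.μ = 0 := by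
  have hgi : Integrable g S.μ := hg.integrable one_le_two
  set u : ℕ → ℤ → ℂ := fun n k => ∫ x, S.ind n (tp S.T k x) * g x ∂S.μ
  have hind : ∀ n k, Integrable (fun x => S.ind n (tp S.T k x) * g x) S.μ := fun n k =>
    hgi.bdd_mul (c := 1) ((S.measurable_ind n).comp (tp_mp S.hT _).measurable).aestronglyMeasurable
      (Eventually.of_forall fun x => S.norm_ind_le _ _)
  have hstep : ∀ n k, u n k = u n (k + 1) := by
    intro n k
    have h := horth n k
    simp only [cell, map_sub, conj_ind, sub_mul] at h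
    simp only [← S.tp_one, ← tp_add, add_comm (1 : ℤ) k] at h
    rw [integral_sub (hind n k) (hind n (k + 1)), sub_eq_zero] at h
    exact h
  have hconst : ∀ n (k : ℤ), u n k = u n 0 := by
    intro n k
    induction k using Int.induction_on with
    | zero => rfl
    | succ j ih => rw [← hstep]; exact ih
    | pred j ih => rw [hstep n (-(j : ℤ) - 1), sub_add_cancel]; exact ih
  have hlev : ∀ n i, ∫ x in S.level n i, g x ∂S.μ = u n 0 := by
    intro n i
    rw [← hconst n (-(i : ℤ)), ← integral_indicator (S.measurableSet_level n i)]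
    refine integral_congr_ae (Eventually.of_forall fun x => ?_)
    show _ = S.ind n (tp S.T (-(i : ℤ)) x) * g x
    rw [ind_tp]
    by_cases h : x ∈ S.level n i <;> simp [h]
  have hu : ∀ n l, u n 0 = ((A.offs n l).card : ℂ) * u (n + l) 0 := by
    intro n l
    show ∫ x, _ ∂S.μ = _
    simp only [S.ind_expand n l, Finset.sum_mul, ← tp_add, add_zero]
    rw [integral_finsetSum _ fun J _ => hind _ _]
    show ∑ J ∈ A.offs n l, u (n + l) (-(J : ℤ)) = _
    simp [hconst]
  set tw : ℕ → Set S.X := fun M => ⋃ i ∈ range (A.height M), S.level M i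
  have htwm : ∀ M, MeasurableSet (tw M) :=
    fun M => Finset.measurableSet_biUnion _ fun i _ => S.measurableSet_level M i
  have hpd : ∀ M, ((range (A.height M) : Finset ℕ) : Set ℕ).PairwiseDisjoint (S.level M) :=
    fun M i hi j hj hij => S.level_disjoint (Finset.mem_range.1 hi) (Finset.mem_range.1 hj) hij
  have htw : ∀ M, ∫ x in tw M, g x ∂S.μ = (A.height M : ℂ) * u M 0 := by
    intro M
    rw [integral_biUnion_finset _ (fun i _ => S.measurableSet_level M i) (hpd M)
      fun i _ => hgi.integrableOn]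
    simp [hlev]
  have hmu : Tendsto (fun M => S.μ (tw M)ᶜ) atTop (𝓝 0) := by
    have e : ∀ M, S.μ (tw M)ᶜ = ENNReal.ofReal (1 - A.height M * (S.μ (S.B M)).toReal) := by
      intro M
      have h1 : S.μ (tw M) = (A.height M : ℝ≥0∞) * S.μ (S.B M) := by
        rw [measure_biUnion_finset (hpd M) fun i _ => S.measurableSet_level M i]
        simp [measure_level]
      rw [measure_compl (htwm M) (measure_ne_top _ _), measure_univ]
      rw [← ENNReal.ofReal_toReal (a := 1 - S.μ (tw M)) (by simp),
        ENNReal.toReal_sub_of_le prob_le_one ENNReal.one_ne_top, h1]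
      simp
    simp only [e]
    have := ENNReal.tendsto_ofReal (S.hcover.const_sub 1)
    simpa using this
  have hlim : Tendsto (fun M => (A.height M : ℂ) * u M 0) atTop (𝓝 0) := by
    have h1 := hgi.tendsto_setIntegral_nhds_zero hmu
    have h2 := (tendsto_const_nhds (x := ∫ x, g x ∂S.μ)).sub h1
    rw [hg0, sub_zero] at h2
    refine h2.congr fun M => ?_
    rw [← htw, ← hg0, ← integral_add_compl (htwm M) hgi]; ring
  rw [hlev]
  have key : ∀ l, u n 0 = (((S.μ (S.B n)).toReal : ℂ) /
      (((A.height (n + l) : ℝ) * (S.μ (S.B (n + l))).toReal : ℝ) : ℂ)) *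
      ((A.height (n + l) : ℂ) * u (n + l) 0) := by
    intro l
    have h1 : ((A.height (n + l) : ℝ) : ℂ) ≠ 0 := by
      exact_mod_cast (A.height_pos (n + l)).ne'
    have h2 : (((S.μ (S.B (n + l))).toReal : ℝ) : ℂ) ≠ 0 := by
      exact_mod_cast (S.measure_B_pos (n + l)).ne'
    rw [hu n l, S.measure_B_eq n l]
    push_cast at h1 ⊢
    field_simp
  have ht : Tendsto (fun l => n + l) atTop atTop :=
    tendsto_atTop_mono (fun l => Nat.le_add_left l n) tendsto_id
  have hf := ((tendsto_const_nhds (x := ((S.μ (S.B n)).toReal : ℂ))).div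
    ((Complex.continuous_ofReal.tendsto 1).comp (S.hcover.comp ht))
    (by simp)).mul (hlim.comp ht)
  rw [mul_zero] at hf
  exact tendsto_nhds_unique (tendsto_const_nhds.congr fun l => key l) hf

theorem total (g : S.X → ℂ) (hg : MemLp g 2 S.μ) (hg0 : ∫ x, g x ∂S.μ = 0)
    (horth : ∀ n (k : ℤ), ∫ x, conj (S.cell n (tp S.T k x)) * g x ∂S.μ = 0) :
    g =ᵐ[S.μ] 0 := by
  have hgi : Integrable g S.μ := hg.integrable one_le_two
  set P : Set (Set S.X) := insert ∅ {s | ∃ n i, i < A.height n ∧ s = S.level n i}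
  have hP : IsPiSystem P := by
    rintro s hs t ht hne
    rcases hs with rfl | ⟨n, i, hi, rfl⟩
    · simp at hne
    rcases ht with rfl | ⟨M, j, hj, rfl⟩
    · simp at hne
    rcases le_total n M with h | h
    · rcases S.level_subset_or_disjoint h hi hj with h1 | h1
      · exact Or.inr ⟨M, j, hj, Set.inter_eq_right.2 h1⟩
      · exact absurd (Set.disjoint_iff_inter_eq_empty.1 h1.symm) hne.ne_empty
    · rcases S.level_subset_or_disjoint h hj hi with h1 | h1
      · exact Or.inr ⟨n, i, hi, Set.inter_eq_left.2 h1⟩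
      · exact absurd (Set.disjoint_iff_inter_eq_empty.1 h1) hne.ne_empty
  have hgen : S.mX = MeasurableSpace.generateFrom P := by
    rw [MeasurableSpace.generateFrom_insert_empty]
    exact S.hgen
  refine hgi.ae_eq_zero_of_forall_setIntegral_eq_zero fun s hs _ => ?_
  induction s, hs using MeasurableSpace.induction_on_inter hgen hP with
  | empty => simp
  | basic t ht =>
    rcases ht with rfl | ⟨n, i, hi, rfl⟩
    · simp
    · exact S.level_integral_zero g hg hg0 horth hi
  | compl t htm ih => rw [setIntegral_compl htm hgi, hg0, ih (measure_lt_top _ _), sub_zero]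
  | iUnion f hd hm ih =>
    rw [integral_iUnion hm hd hgi.integrableOn]
    simp [fun i => ih i (measure_lt_top _ _)]

end RankOne

end Vale.Agent.P130.Simple
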