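import Vale.Agent.P130.Simple.Defs

/-! The modulus of a chirp tends to a box in mean. -/

namespace Vale.Agent.P130.Simple

open Finset MeasureTheory
open scoped ComplexConjugate
open Vale.Agent.P110.Flat (ee)

namespace ChirpAux

/-- A linear sweep of length `T` sweeping the width `s`. -/
noncomputable def sweep (T : ℕ) (s θ : ℝ) : ℂ :=
  ∑ i ∈ range T, ee (θ * i + s * (i : ℝ) ^ 2 / (2 * T))

/-- The periodogram of the sweep. -/
noncomputable def periodogram (T : ℕ) (s θ : ℝ) : ℝ := ‖sweep T s θ‖ ^ 2 / T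

/-- The normalised indicator of the swept band. -/
noncomputable def band (s θ : ℝ) : ℝ := if Int.fract (-θ) < s then 1 / s else 0

/-- A Fourier coefficient on the unit interval. -/
noncomputable def fcoef (f : ℝ → ℂ) (d : ℤ) : ℂ := ∫ θ in (0 : ℝ)..1, ee (-(d * θ)) * f θ

theorem norm_ee' (x : ℝ) : ‖ee x‖ = 1 := by
  rw [ee, Complex.norm_exp]
  simp

theorem continuous_ee' : Continuous ee := by
  unfold ee
  fun_prop

theorem ee_add' (x y : ℝ) : ee (x + y) = ee x * ee y := by
  rw [ee, ee, ee, ← Complex.exp_add]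
  congr 1
  push_cast
  ring

theorem ee_zero' : ee 0 = 1 := by simp [ee]

theorem ee_int' (n : ℤ) : ee n = 1 := by
  rw [ee]
  push_cast
  rw [show (2 : ℂ) * Real.pi * n * Complex.I = n * (2 * Real.pi * Complex.I) by ring]
  exact Complex.exp_int_mul_two_pi_mul_I n

theorem conj_ee' (x : ℝ) : conj (ee x) = ee (-x) := by
  rw [ee, ee, ← Complex.exp_conj]
  congr 1
  simp only [map_mul, map_ofNat, Complex.conj_ofReal, Complex.conj_I, Complex.ofReal_neg]
  ring

theorem norm_ee_sub_one (x : ℝ) : ‖ee x - 1‖ ≤ 2 * Real.pi * |x| := by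
  have h := Real.norm_exp_I_mul_ofReal_sub_one_le (x := 2 * Real.pi * x)
  rw [ee, show (2 : ℂ) * Real.pi * x * Complex.I = Complex.I * ((2 * Real.pi * x : ℝ) : ℂ) by
    push_cast; ring]
  refine h.trans (le_of_eq ?_)
  rw [Real.norm_eq_abs, abs_mul, abs_of_pos (by positivity : (0 : ℝ) < 2 * Real.pi)]

theorem norm_ee_sub_ee (x y : ℝ) : ‖ee x - ee y‖ ≤ 2 * Real.pi * |x - y| := by
  have e : ee x - ee y = (ee (x - y) - 1) * ee y := by
    rw [sub_mul, ← ee_add', sub_add_cancel, one_mul]
  rw [e, norm_mul, norm_ee', mul_one]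
  exact norm_ee_sub_one _

theorem norm_ee_sub_one_ge {x : ℝ} (h0 : 0 ≤ x) (h : x ≤ 1 / 2) : 4 * x ≤ ‖ee x - 1‖ := by
  rw [ee, show (2 : ℂ) * Real.pi * x * Complex.I = Complex.I * ((2 * Real.pi * x : ℝ) : ℂ) by
    push_cast; ring, Complex.norm_exp_I_mul_ofReal_sub_one, Real.norm_eq_abs]
  have hs := Real.mul_le_sin (x := Real.pi * x) (by positivity) (by nlinarith [Real.pi_pos])
  have e : 2 * Real.pi * x / 2 = Real.pi * x := by ring
  rw [e, abs_mul, abs_two]
  have : 2 / Real.pi * (Real.pi * x) = 2 * x := by field_simp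
  rw [this] at hs
  nlinarith [le_abs_self (Real.sin (Real.pi * x))]

theorem integral_ee {a : ℝ} (ha : a ≠ 0) (u v : ℝ) :
    ∫ x in u..v, ee (a * x) =
      (ee (a * v) - ee (a * u)) / (2 * Real.pi * a * Complex.I) := by
  have hc : (2 * Real.pi * a * Complex.I : ℂ) ≠ 0 := by
    simp [ha, Real.pi_ne_zero, Complex.I_ne_zero]
  have e : ∀ x : ℝ, ee (a * x) = Complex.exp ((2 * Real.pi * a * Complex.I : ℂ) * x) := fun x => by
    rw [ee]
    congr 1
    push_cast
    ring
  simp_rw [e]
  exact integral_exp_mul_complex hc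

theorem integral_ee_int (n : ℤ) : ∫ θ in (0 : ℝ)..1, ee (n * θ) = if n = 0 then 1 else 0 := by
  split_ifs with h
  · simp [h, ee_zero']
  · rw [integral_ee (by exact_mod_cast h)]
    simp [ee_int', ee_zero']

theorem norm_geom {x : ℝ} (h0 : 0 < x) (h : x ≤ 1 / 2) (M : ℕ) :
    ‖∑ j ∈ range M, ee (x * j)‖ ≤ 1 / (2 * x) := by
  have e : ∀ j : ℕ, ee (x * j) = ee x ^ j := fun j => by
    rw [ee, ee, ← Complex.exp_nat_mul]
    congr 1
    push_cast
    ring
  simp_rw [e]
  have hz : 4 * x ≤ ‖ee x - 1‖ := norm_ee_sub_one_ge h0.le h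
  have hne : ee x ≠ 1 := fun he => by simp [he] at hz; linarith
  rw [geom_sum_eq hne, norm_div, div_le_iff₀ (lt_of_lt_of_le (by positivity) hz)]
  have h2 : ‖ee x ^ M - 1‖ ≤ 2 := by
    refine (norm_sub_le _ _).trans ?_
    rw [norm_pow, norm_ee', one_pow, norm_one]
    norm_num
  refine h2.trans ?_
  rw [div_mul_eq_mul_div, one_mul, le_div_iff₀ (by positivity)]
  nlinarith

theorem fcoef_neg {g : ℝ → ℝ} (d : ℤ) :
    fcoef (fun θ => (g θ : ℂ)) (-d) = conj (fcoef (fun θ => (g θ : ℂ)) d) := by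
  rw [fcoef, fcoef, ← intervalIntegral.intervalIntegral_conj]
  refine intervalIntegral.integral_congr fun θ _ => ?_
  simp only [map_mul, Complex.conj_ofReal, conj_ee', Int.cast_neg]
  congr 2
  ring

/-- Parseval on the unit interval, for a bounded measurable real function. -/
theorem hasSum_fcoef_sq {g : ℝ → ℝ} {C : ℝ} (hm : Measurable g) (hb : ∀ x, |g x| ≤ C) :
    HasSum (fun d : ℤ => ‖fcoef (fun θ => (g θ : ℂ)) d‖ ^ 2) (∫ θ in (0 : ℝ)..1, g θ ^ 2) := by
  have hL2 : MemLp (fun θ => (g θ : ℂ)) 2 (volume.restrict (Set.Ioc (0 : ℝ) 1)) :=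
    MemLp.of_bound (Complex.measurable_ofReal.comp hm).aestronglyMeasurable C
      (Filter.Eventually.of_forall fun x => by simpa using hb x)
  have h := hasSum_sq_fourierCoeffOn (a := 0) (b := 1) one_pos hL2
  have e1 : ∀ d : ℤ, fourierCoeffOn one_pos (fun θ => (g θ : ℂ)) d =
      fcoef (fun θ => (g θ : ℂ)) d := fun d => by
    rw [fourierCoeffOn_eq_integral, fcoef, sub_zero, one_div_one, one_smul]
    refine intervalIntegral.integral_congr fun θ _ => ?_
    simp only [smul_eq_mul, fourier_coe_apply, ee]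
    congr 2
    push_cast
    ring
  simp only [e1, sub_zero, inv_one, one_smul, Complex.norm_real, Real.norm_eq_abs, sq_abs] at h
  exact h

theorem continuous_sweep (T : ℕ) (s : ℝ) : Continuous (sweep T s) := by
  unfold sweep
  exact continuous_finsetSum _ fun i _ => continuous_ee'.comp (by fun_prop)

theorem continuous_periodogram (T : ℕ) (s : ℝ) : Continuous (periodogram T s) := by
  unfold periodogram
  exact ((continuous_sweep T s).norm.pow 2).div_const _

theorem periodogram_nonneg (T : ℕ) (s θ : ℝ) : 0 ≤ periodogram T s θ := by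
  unfold periodogram
  positivity

theorem periodogram_le (T : ℕ) (s θ : ℝ) : periodogram T s θ ≤ T := by
  have h : ‖sweep T s θ‖ ≤ T := (norm_sum_le _ _).trans (by simp [norm_ee'])
  rcases Nat.eq_zero_or_pos T with hT | hT
  · simp [periodogram, hT]
  · rw [periodogram, div_le_iff₀ (by exact_mod_cast hT)]
    nlinarith [norm_nonneg (sweep T s θ)]

theorem band_nonneg {s : ℝ} (hs : 0 ≤ s) (θ : ℝ) : 0 ≤ band s θ := by
  unfold band
  split_ifs <;> positivity

theorem band_le {s : ℝ} (hs : 0 ≤ s) (θ : ℝ) : band s θ ≤ 1 / s := by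
  unfold band
  split_ifs
  · rfl
  · positivity

theorem measurable_band (s : ℝ) : Measurable (band s) :=
  Measurable.ite (measurableSet_lt (measurable_fract.comp measurable_neg) measurable_const)
    measurable_const measurable_const

theorem fcoef_periodogram (T : ℕ) (s : ℝ) (d : ℕ) :
    fcoef (fun θ => (periodogram T s θ : ℂ)) d =
      ee (s * (d : ℝ) ^ 2 / (2 * T)) *
        ((∑ j ∈ range (T - d), ee (s * d / T * j)) / T) := by
  have e : ∀ θ : ℝ, (periodogram T s θ : ℂ) =
      (∑ i ∈ range T, ∑ j ∈ range T, ee (s * (i : ℝ) ^ 2 / (2 * T) - s * (j : ℝ) ^ 2 / (2 * T)) *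
        ee (((i : ℤ) - j : ℤ) * θ)) / T := fun θ => by
    rw [periodogram, Complex.ofReal_div, Complex.ofReal_natCast, Complex.ofReal_pow]
    congr 1
    rw [← Complex.mul_conj', sweep, map_sum, sum_mul_sum]
    refine sum_congr rfl fun i _ => sum_congr rfl fun j _ => ?_
    rw [conj_ee', ← ee_add', ← ee_add']
    congr 1
    push_cast
    ring
  have e2 : ∀ θ : ℝ, ee (-((d : ℤ) * θ)) * (periodogram T s θ : ℂ) =
      (∑ i ∈ range T, ∑ j ∈ range T, ee (s * (i : ℝ) ^ 2 / (2 * T) - s * (j : ℝ) ^ 2 / (2 * T)) *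
        ee (((i : ℤ) - j - d : ℤ) * θ)) / T := fun θ => by
    rw [e, mul_div_assoc', mul_sum]
    congr 1
    refine sum_congr rfl fun i _ => ?_
    rw [mul_sum]
    refine sum_congr rfl fun j _ => ?_
    rw [mul_left_comm, ← ee_add']
    congr 2
    push_cast
    ring
  have hc : ∀ (c : ℂ) (n : ℤ), IntervalIntegrable (fun θ : ℝ => c * ee (n * θ)) volume 0 1 :=
    fun c n => (continuous_const.mul (continuous_ee'.comp (by fun_prop))).intervalIntegrable _ _
  rw [fcoef]
  simp_rw [e2]
  rw [intervalIntegral.integral_div,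
    intervalIntegral.integral_finsetSum (s := range T)
      (f := fun i θ => ∑ j ∈ range T, ee (s * (i : ℝ) ^ 2 / (2 * T) - s * (j : ℝ) ^ 2 / (2 * T)) *
        ee (((i : ℤ) - j - d : ℤ) * θ))
      (fun i _ => (continuous_finsetSum _ fun j _ => continuous_const.mul
        (continuous_ee'.comp (by fun_prop))).intervalIntegrable _ _),
    sum_congr rfl fun i (_ : i ∈ range T) => intervalIntegral.integral_finsetSum (s := range T)
      (f := fun j θ => ee (s * (i : ℝ) ^ 2 / (2 * T) - s * (j : ℝ) ^ 2 / (2 * T)) *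
        ee (((i : ℤ) - j - d : ℤ) * θ)) (fun j _ => hc _ _)]
  simp_rw [intervalIntegral.integral_const_mul, integral_ee_int]
  rw [mul_div_assoc', mul_sum, sum_comm]
  congr 1
  rw [← sum_subset (range_mono (Nat.sub_le T d)) (f := fun j => ∑ i ∈ range T, _)]
  · refine sum_congr rfl fun j hj => ?_
    rw [mem_range] at hj
    rw [sum_eq_single (j + d)]
    · rw [if_pos (by push_cast; ring), mul_one, ← ee_add']
      congr 1
      push_cast
      field_simp
      ring
    · intro i _ hi
      rw [if_neg (by omega), mul_zero]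
    · intro h
      rw [mem_range] at h
      omega
  · intro j _ hj
    refine sum_eq_zero fun i hi => ?_
    rw [mem_range] at hi hj
    rw [if_neg (by omega), mul_zero]

theorem fcoef_band {s : ℝ} (h0 : 0 < s) (h1 : s < 1) (d : ℤ) :
    fcoef (fun θ => (band s θ : ℂ)) d = ∫ x in (0 : ℝ)..1, ee (s * d * x) := by
  have e : ∀ᵐ θ : ℝ, θ ∈ Set.uIoc (0 : ℝ) 1 → ee (-(d * θ)) * (band s θ : ℂ) =
      (Set.Ioc (1 - s) 1).indicator (fun θ : ℝ => ee (-(d * θ)) * (1 / s : ℝ)) θ := by
    filter_upwards [Measure.ae_ne volume (1 : ℝ), Measure.ae_ne volume (1 - s)] with θ hθ1 hθ2 hθ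
    rw [Set.uIoc_of_le zero_le_one] at hθ
    have hlt : θ < 1 := lt_of_le_of_ne hθ.2 hθ1
    have hf : Int.fract (-θ) = 1 - θ := by
      rw [Int.fract_eq_iff]
      exact ⟨by linarith, by linarith [hθ.1], -1, by push_cast; ring⟩ 
    rw [band, hf]
    by_cases h : 1 - θ < s
    · have hm : θ ∈ Set.Ioc (1 - s) 1 := ⟨by linarith, hθ.2⟩
      rw [if_pos h, Set.indicator_of_mem hm]
    · rw [if_neg h, Set.indicator_of_notMem (fun hm => h (by linarith [hm.1]))]
      simp
  rw [fcoef, intervalIntegral.integral_congr_ae e, intervalIntegral.integral_of_le zero_le_one,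
    setIntegral_indicator measurableSet_Ioc,
    show Set.Ioc (0 : ℝ) 1 ∩ Set.Ioc (1 - s) 1 = Set.Ioc (1 - s) 1 from
      Set.inter_eq_right.2 (Set.Ioc_subset_Ioc_left (by linarith)),
    ← intervalIntegral.integral_of_le (by linarith), intervalIntegral.integral_mul_const]
  have h2 := intervalIntegral.integral_comp_mul_left (fun u : ℝ => ee (d * u)) h0.ne'
    (a := 0) (b := 1)
  have h3 := intervalIntegral.integral_comp_sub_left (fun u : ℝ => ee (d * u)) (1 : ℝ)
    (a := 1 - s) (b := 1)
  have h4 : ∀ θ : ℝ, ee (-(d * θ)) = ee (d * (1 - θ)) := fun θ => by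
    rw [show (d : ℝ) * (1 - θ) = -(d * θ) + ((d : ℤ) : ℝ) by ring, ee_add', ee_int', mul_one]
  simp_rw [h4, h3]
  simp only [mul_zero, mul_one, sub_self, sub_sub_cancel] at h2 ⊢
  rw [show (fun x : ℝ => ee (s * d * x)) = fun x : ℝ => ee (d * (s * x)) by
    funext x; congr 1; ring, h2, Complex.real_smul]
  push_cast
  ring

/-- The Riemann sum estimate for the coefficients. -/
theorem fcoef_near {T : ℕ} (hT : 0 < T) {s : ℝ} (h0 : 0 ≤ s) (h1 : s ≤ 1) (d : ℕ) (hd : d ≤ T) :
    ‖fcoef (fun θ => (periodogram T s θ : ℂ)) d - ∫ x in (0 : ℝ)..1, ee (s * d * x)‖ ≤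
      20 * (d : ℝ) ^ 2 / T := by
  have hT' : (0 : ℝ) < T := by exact_mod_cast hT
  rw [fcoef_periodogram]
  have hc : Continuous fun x : ℝ => ee (s * d * x) := continuous_ee'.comp (by fun_prop)
  have split : ∫ x in (0 : ℝ)..1, ee (s * d * x) =
      ∑ j ∈ range T, ∫ x in ((j : ℝ) / T)..((j + 1 : ℝ) / T), ee (s * d * x) := by
    have := intervalIntegral.sum_integral_adjacent_intervals (n := T)
      (a := fun j : ℕ => (j : ℝ) / T) (fun k _ => hc.intervalIntegrable (μ := volume) _ _)
    simp only [Nat.cast_zero, zero_div, div_self hT'.ne', Nat.cast_add, Nat.cast_one] at this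
    exact this.symm
  have riem : ‖(∑ j ∈ range T, ee (s * d / T * j)) / T - ∫ x in (0 : ℝ)..1, ee (s * d * x)‖ ≤
      2 * Real.pi * (s * d) / T := by
    rw [split, sum_div, ← sum_sub_distrib]
    refine (norm_sum_le _ _).trans ?_
    have : ∀ j ∈ range T, ‖ee (s * d / T * j) / T -
        ∫ x in ((j : ℝ) / T)..((j + 1 : ℝ) / T), ee (s * d * x)‖ ≤
        2 * Real.pi * (s * d) / T / T := by
      intro j _
      have hl : ((j + 1 : ℝ) / T) - (j : ℝ) / T = 1 / T := by ring
      have hle : (j : ℝ) / T ≤ (j + 1 : ℝ) / T :=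
        (div_le_div_iff_of_pos_right hT').2 (by linarith)
      have e : ee (s * d / T * j) / T -
          ∫ x in ((j : ℝ) / T)..((j + 1 : ℝ) / T), ee (s * d * x) =
          ∫ x in ((j : ℝ) / T)..((j + 1 : ℝ) / T), (ee (s * d / T * j) - ee (s * d * x)) := by
        rw [intervalIntegral.integral_sub intervalIntegrable_const (hc.intervalIntegrable _ _),
          intervalIntegral.integral_const, hl, Complex.real_smul]
        push_cast
        ring
      rw [e]
      refine (intervalIntegral.norm_integral_le_of_norm_le_const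
        (C := 2 * Real.pi * (s * d) / T) fun x hx => ?_).trans ?_
      · rw [Set.uIoc_of_le hle] at hx
        refine (norm_ee_sub_ee _ _).trans ?_
        rw [mul_div_assoc (2 * Real.pi)]
        refine mul_le_mul_of_nonneg_left ?_ (by positivity)
        rw [show s * d / T * j - s * d * x = -(s * d * (x - j / T)) by ring, abs_neg,
          abs_of_nonneg (mul_nonneg (by positivity) (by linarith [hx.1])),
          div_eq_mul_one_div (s * (d : ℝ)) (T : ℝ)]
        refine mul_le_mul_of_nonneg_left ?_ (by positivity)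
        linarith [hx.2, hl]
      · rw [hl, abs_of_pos (by positivity : (0 : ℝ) < 1 / T), mul_one_div]
    refine (sum_le_sum this).trans ?_
    rw [sum_const, card_range, nsmul_eq_mul, mul_div_cancel₀ _ hT'.ne']
  have drop : ‖(∑ j ∈ range (T - d), ee (s * d / T * j)) / (T : ℂ) -
      (∑ j ∈ range T, ee (s * d / T * j)) / T‖ ≤ d / T := by
    rw [← sub_div, norm_div, Complex.norm_natCast,
      ← sum_sdiff (range_mono (Nat.sub_le T d)), sub_add_cancel_right, norm_neg]
    refine div_le_div_of_nonneg_right ((norm_sum_le _ _).trans ?_) hT'.le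
    simp only [norm_ee', sum_const, nsmul_eq_mul, mul_one]
    rw [card_sdiff_of_subset (range_mono (Nat.sub_le T d)), card_range, card_range]
    exact_mod_cast (by omega : T - (T - d) ≤ d)
  have hnorm : ‖(∑ j ∈ range (T - d), ee (s * d / T * j)) / (T : ℂ)‖ ≤ 1 := by
    rw [norm_div, Complex.norm_natCast, div_le_one hT']
    refine (norm_sum_le _ _).trans ?_
    simp only [norm_ee', sum_const, nsmul_eq_mul, mul_one, card_range]
    exact_mod_cast Nat.sub_le T d
  set A := (∑ j ∈ range (T - d), ee (s * d / T * j)) / (T : ℂ)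
  set B := (∑ j ∈ range T, ee (s * d / T * j)) / (T : ℂ)
  set I := ∫ x in (0 : ℝ)..1, ee (s * d * x)
  have e : ee (s * (d : ℝ) ^ 2 / (2 * T)) * A - I =
      (ee (s * (d : ℝ) ^ 2 / (2 * T)) - 1) * A + (A - B) + (B - I) := by ring
  rw [e]
  refine (norm_add₃_le).trans (le_trans (add_le_add (add_le_add
    (b := ‖ee (s * (d : ℝ) ^ 2 / (2 * T)) - 1‖) ?_ drop) riem) ?_)
  · rw [norm_mul]
    exact mul_le_of_le_one_right (norm_nonneg _) hnorm
  · have h2 := norm_ee_sub_one (s * (d : ℝ) ^ 2 / (2 * T))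
    rw [abs_of_nonneg (by positivity)] at h2
    have hd2 : (d : ℝ) ≤ (d : ℝ) ^ 2 := by exact_mod_cast Nat.le_self_pow two_ne_zero d
    have hp := Real.pi_lt_four
    have hp0 := Real.pi_pos
    rw [show 2 * Real.pi * (s * (d : ℝ) ^ 2 / (2 * T)) = Real.pi * (s * (d : ℝ) ^ 2) / T by
      field_simp] at h2
    have h3 : Real.pi * (s * (d : ℝ) ^ 2) / T + d / T + 2 * Real.pi * (s * d) / T ≤
        20 * (d : ℝ) ^ 2 / T := by
      rw [← add_div, ← add_div]
      refine div_le_div_of_nonneg_right ?_ hT'.le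
      have a1 : s * (d : ℝ) ^ 2 ≤ (d : ℝ) ^ 2 := mul_le_of_le_one_left (by positivity) h1
      have a2 : s * (d : ℝ) ≤ (d : ℝ) ^ 2 :=
        (mul_le_of_le_one_left (by positivity) h1).trans hd2
      nlinarith [mul_le_mul_of_nonneg_left a1 hp0.le, mul_le_mul_of_nonneg_left a2 hp0.le,
        mul_le_mul_of_nonneg_right hp.le (sq_nonneg (d : ℝ))]
    linarith

/-- The tail estimate for the coefficients. -/
theorem fcoef_far {T : ℕ} {s : ℝ} (h0 : 0 < s) (h1 : s ≤ 1 / 2) (d : ℕ) (hd : 0 < d) :
    ‖fcoef (fun θ => (periodogram T s θ : ℂ)) d - ∫ x in (0 : ℝ)..1, ee (s * d * x)‖ ≤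
      1 / (s * d) := by
  have hd' : (0 : ℝ) < d := by exact_mod_cast hd
  refine (norm_sub_le _ _).trans (le_trans (add_le_add ?_ ?_)
    (le_of_eq (by ring : 1 / (2 * (s * d)) + 1 / (2 * (s * d)) = 1 / (s * d))))
  · rw [fcoef_periodogram, norm_mul, norm_ee', one_mul, norm_div, Complex.norm_natCast]
    rcases Nat.lt_or_ge d T with hdT | hdT
    · have hT' : (0 : ℝ) < T := by exact_mod_cast lt_trans hd hdT
      have hdT' : (d : ℝ) ≤ T := by exact_mod_cast hdT.le
      have hx : s * d / T ≤ 1 / 2 := by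
        rw [div_le_iff₀ hT']
        nlinarith
      refine (div_le_div_of_nonneg_right (norm_geom (by positivity) hx _) hT'.le).trans
        (le_of_eq ?_)
      field_simp
    · rw [Nat.sub_eq_zero_of_le hdT]
      simp only [sum_range_zero, norm_zero, zero_div]
      positivity
  · rw [integral_ee (by positivity : (s * (d : ℝ)) ≠ 0), norm_div]
    have e : ‖(2 * Real.pi * ((s * d : ℝ) : ℂ) * Complex.I)‖ = 2 * Real.pi * (s * d) := by
      simp [abs_of_pos Real.pi_pos, abs_of_pos h0]
    rw [e, div_le_iff₀ (by positivity)]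
    refine (norm_sub_le _ _).trans ?_
    rw [norm_ee', norm_ee', show 1 / (2 * (s * d)) * (2 * Real.pi * (s * d)) = Real.pi by
      field_simp]
    linarith [Real.pi_gt_three]

theorem fcoef_diff (T : ℕ) {s : ℝ} (h0 : 0 < s) (h1 : s < 1) (d : ℤ) :
    fcoef (fun θ => ((periodogram T s θ - band s θ : ℝ) : ℂ)) d =
      fcoef (fun θ => (periodogram T s θ : ℂ)) d - ∫ x in (0 : ℝ)..1, ee (s * d * x) := by
  rw [← fcoef_band h0 h1, fcoef, fcoef, fcoef, ← intervalIntegral.integral_sub]
  · refine intervalIntegral.integral_congr fun θ _ => ?_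
    push_cast
    ring
  · exact ((continuous_ee'.comp (by fun_prop)).mul
      (Complex.continuous_ofReal.comp (continuous_periodogram T s))).intervalIntegrable _ _
  · rw [intervalIntegrable_iff_integrableOn_Ioc_of_le zero_le_one]
    refine Integrable.of_bound ((continuous_ee'.comp (by fun_prop)).measurable.mul
      (Complex.measurable_ofReal.comp (measurable_band s))).aestronglyMeasurable (1 / s)
      (Filter.Eventually.of_forall fun θ => ?_)
    simp [norm_ee', abs_of_nonneg (band_nonneg h0.le θ)]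
    simpa using band_le h0.le θ

/-- As `T → ∞` the periodogram tends in `L²` to the band, uniformly in the width `s ≥ s₀`. -/
theorem periodogram_tendsto_band {s₀ ε : ℝ} (hs₀ : 0 < s₀) (hε : 0 < ε) :
    ∃ T₀ : ℕ, ∀ T, T₀ ≤ T → ∀ s, s₀ ≤ s → s ≤ 1 / 2 →
      ∫ θ in (0 : ℝ)..1, (periodogram T s θ - band s θ) ^ 2 ≤ ε := by
  set b : ℕ → ℝ := fun d => 1 / (s₀ * d) ^ 2 with hb
  have hbsum : Summable b := by
    refine ((Real.summable_one_div_nat_pow.2 (by norm_num : 1 < 2)).mul_left (1 / s₀ ^ 2)).congr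
      fun n => ?_
    simp only [hb]
    rw [mul_pow, div_mul_div_comm, one_mul]
  obtain ⟨K, hK⟩ := (Filter.Eventually.exists
    ((tendsto_sum_nat_add b).eventually (ge_mem_nhds (show (0 : ℝ) < ε / 8 by positivity))))
  obtain ⟨N, hN⟩ := exists_nat_gt (max 1 ((K : ℝ) * (20 * (K : ℝ) ^ 2) ^ 2 * 8 / ε))
  refine ⟨max N K, fun T hT s hs0 hs1 => ?_⟩
  rw [max_le_iff] at hT
  have hN1 : (1 : ℝ) < N := lt_of_le_of_lt (le_max_left _ _) hN
  have hT' : (N : ℝ) ≤ T := by exact_mod_cast hT.1
  have hTpos : 0 < T := by exact_mod_cast (show (0 : ℝ) < T by linarith)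
  have hsp : 0 < s := lt_of_lt_of_le hs₀ hs0
  set g : ℝ → ℝ := fun θ => periodogram T s θ - band s θ with hg
  have hP := hasSum_fcoef_sq (g := g) (C := T + 1 / s)
    ((continuous_periodogram T s).measurable.sub (measurable_band s)) fun x => by
      have := periodogram_nonneg T s x
      have := periodogram_le T s x
      have := band_nonneg hsp.le x
      have := band_le hsp.le x
      rw [abs_le]
      constructor <;> simp only [hg] <;> linarith
  set u : ℕ → ℝ := fun n => ‖fcoef (fun θ => (g θ : ℂ)) (n + 1 : ℕ)‖ ^ 2 with hu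
  have hu1 : ∀ n < K, u n ≤ (20 * (K : ℝ) ^ 2 / T) ^ 2 := fun n hn => by
    simp only [hu, hg]
    rw [fcoef_diff T hsp (by linarith)]
    refine pow_le_pow_left₀ (norm_nonneg _) ?_ 2
    have h := fcoef_near hTpos hsp.le (by linarith) (n + 1) (by omega)
    push_cast at h ⊢
    refine h.trans (div_le_div_of_nonneg_right ?_ (by positivity))
    have : ((n : ℝ) + 1) ≤ K := by exact_mod_cast hn
    nlinarith
  have hu2 : ∀ n, u n ≤ b (n + 1) := fun n => by
    simp only [hu, hg, hb]
    rw [fcoef_diff T hsp (by linarith), ← one_div_pow]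
    refine pow_le_pow_left₀ (norm_nonneg _) ?_ 2
    have h := fcoef_far (T := T) hsp hs1 (n + 1) (by omega)
    push_cast at h ⊢
    exact h.trans (one_div_le_one_div_of_le (by positivity)
      (mul_le_mul_of_nonneg_right hs0 (by positivity)))
  have husum : Summable u :=
    Summable.of_nonneg_of_le (fun n => by positivity) hu2 ((summable_nat_add_iff 1).2 hbsum)
  have hu_tot : ∑' n, u n ≤ ε / 4 := by
    rw [← husum.sum_add_tsum_nat_add K, show ε / 4 = ε / 8 + ε / 8 by ring]
    refine add_le_add ?_ ?_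
    · refine (sum_le_sum fun n hn => hu1 n (mem_range.1 hn)).trans ?_
      rw [sum_const, card_range, nsmul_eq_mul, div_pow, mul_div_assoc',
        div_le_iff₀ (by positivity)]
      have h := (div_lt_iff₀ hε).1 (lt_of_le_of_lt (le_max_right _ _) hN)
      have hT2 : (N : ℝ) ≤ (T : ℝ) ^ 2 := by nlinarith
      nlinarith
    · refine le_trans ?_ hK
      refine ((summable_nat_add_iff K).2 husum).tsum_le_tsum_of_inj (fun n => n + 1) ?_ ?_ ?_ ?_
      · exact fun a b h => by simpa using h
      · exact fun n _ => by positivity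
      · intro n
        refine (hu2 (n + K)).trans (le_of_eq ?_)
        congr 1
        ring
      · exact (summable_nat_add_iff K).2 hbsum
  have h0 : fcoef (fun θ => (g θ : ℂ)) 0 = 0 := by
    simp only [hg]
    rw [fcoef_diff T hsp (by linarith)]
    have := fcoef_periodogram T s 0
    simp only [Nat.cast_zero, mul_zero, zero_div, zero_mul, ne_eq, OfNat.ofNat_ne_zero,
      not_false_eq_true, zero_pow, ee_zero', Nat.sub_zero, sum_const, card_range, nsmul_eq_mul,
      mul_one, one_mul] at this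
    rw [this]
    simp [ee_zero', hTpos.ne']
  have hint : ∫ θ in (0 : ℝ)..1, g θ ^ 2 = ∑' n, u n + ∑' n, u n := by
    rw [← hP.tsum_eq, tsum_of_nat_of_neg_add_one ?_ ?_]
    · have hz : (fun n : ℕ => ‖fcoef (fun θ => (g θ : ℂ)) (n : ℤ)‖ ^ 2) 0 = 0 := by simp [h0]
      have hn : ∀ n : ℕ, ‖fcoef (fun θ => (g θ : ℂ)) (-(n + 1 : ℕ) : ℤ)‖ ^ 2 = u n := fun n => by
        rw [fcoef_neg, RCLike.norm_conj]
      simp only [Nat.cast_add, Nat.cast_one] at hn
      simp only [hn]
      rw [Summable.tsum_eq_zero_add (f := fun n : ℕ => ‖fcoef (fun θ => (g θ : ℂ)) (n : ℤ)‖ ^ 2)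
        (hP.summable.comp_injective Nat.cast_injective)]
      simp [h0, hu]
    · exact hP.summable.comp_injective Nat.cast_injective
    · exact hP.summable.comp_injective fun a b h => by simpa using h
  rw [hint]
  linarith

end ChirpAux

theorem norm_chirp (σ : ℝ) (T : ℕ) (y : ℝ) :
    ‖chirp σ T y‖ = ‖ChirpAux.sweep T σ y‖ / Real.sqrt T := by
  rw [chirp, ChirpAux.sweep, norm_mul, Complex.norm_real, Real.norm_of_nonneg (by positivity),
    inv_mul_eq_div]
  congr 2
  refine sum_congr rfl fun i _ => ?_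
  congr 1
  ring

theorem chirp_flat (σ η : ℝ) (hσ : 0 < σ) (hσ' : σ ≤ 1 / 2) (hη : 0 < η) :
    ∃ T₀ : ℕ, ∀ T, T₀ ≤ T →
      ∫ y in (0 : ℝ)..1, |‖chirp σ T y‖ - chirpModulus σ y| ≤ η := by
  obtain ⟨T₀, hT₀⟩ := ChirpAux.periodogram_tendsto_band hσ (pow_pos hη 4)
  refine ⟨T₀, fun T hT => ?_⟩
  have hP := hT₀ T hT σ le_rfl hσ'
  have sqP : ∀ y, ‖chirp σ T y‖ ^ 2 = ChirpAux.periodogram T σ y := fun y => by
    rw [norm_chirp, ChirpAux.periodogram, div_pow, Real.sq_sqrt (Nat.cast_nonneg T)]
  have sqB : ∀ y, chirpModulus σ y ^ 2 = ChirpAux.band σ y := fun y => by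
    unfold chirpModulus ChirpAux.band
    split_ifs
    · rw [inv_pow, Real.sq_sqrt hσ.le, one_div]
    · simp
  have hmod : ∀ y, 0 ≤ chirpModulus σ y := fun y => by
    unfold chirpModulus
    split_ifs <;> positivity
  set g : ℝ → ℝ := fun y => |‖chirp σ T y‖ - chirpModulus σ y| with hg
  have key : ∀ y, g y ^ 4 ≤ (ChirpAux.periodogram T σ y - ChirpAux.band σ y) ^ 2 := fun y => by
    rw [show g y ^ 4 = (g y ^ 2) ^ 2 by ring]
    refine (pow_le_pow_left₀ (sq_nonneg _) (?_ : g y ^ 2 ≤
      |ChirpAux.periodogram T σ y - ChirpAux.band σ y|) 2).trans_eq (sq_abs _)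
    rw [← sqP, ← sqB, sq, sq_sub_sq, abs_mul]
    refine mul_le_mul_of_nonneg_right ?_ (abs_nonneg _)
    rw [hg, abs_of_nonneg (add_nonneg (norm_nonneg _) (hmod y))]
    refine (abs_sub _ _).trans ?_
    rw [abs_of_nonneg (norm_nonneg _), abs_of_nonneg (hmod y)]
  -- `x ≤ 3/4 * η + x ^ 4 / (4 * η ^ 3)`
  have amgm : ∀ x : ℝ, 0 ≤ x → x ≤ 3 / 4 * η + x ^ 4 / (4 * η ^ 3) := fun x hx => by
    rw [← sub_le_iff_le_add', le_div_iff₀ (by positivity)]
    nlinarith [mul_nonneg (sq_nonneg (x - η)) (add_nonneg (add_nonneg (sq_nonneg x)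
      (mul_nonneg (mul_nonneg zero_le_two hx) hη.le)) (mul_nonneg zero_le_three (sq_nonneg η)))]
  have hgm : Measurable g := by
    refine ((continuous_norm.measurable.comp ?_).sub ?_).abs
    · exact (continuous_const.mul (continuous_finsetSum _ fun i _ =>
        ChirpAux.continuous_ee'.comp (by fun_prop))).measurable
    · exact Measurable.ite (measurableSet_lt (measurable_fract.comp measurable_neg) measurable_const)
        measurable_const measurable_const
  have hi2 : IntervalIntegrable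
      (fun y => (ChirpAux.periodogram T σ y - ChirpAux.band σ y) ^ 2) volume 0 1 := by
    rw [intervalIntegrable_iff_integrableOn_Ioc_of_le zero_le_one]
    exact Integrable.of_bound (((ChirpAux.continuous_periodogram T σ).measurable.sub
      (ChirpAux.measurable_band σ)).pow_const 2).aestronglyMeasurable ((T + 1 / σ) ^ 2)
      (Filter.Eventually.of_forall fun y => by
        have := ChirpAux.periodogram_nonneg T σ y
        have := ChirpAux.periodogram_le T σ y
        have := ChirpAux.band_nonneg hσ.le y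
        have := ChirpAux.band_le hσ.le y
        rw [Real.norm_eq_abs, abs_pow]
        refine pow_le_pow_left₀ (abs_nonneg _) (abs_le.2 ?_) 2
        constructor <;> linarith)
  have hle : ∀ y, g y ≤
      3 / 4 * η + (ChirpAux.periodogram T σ y - ChirpAux.band σ y) ^ 2 / (4 * η ^ 3) :=
    fun y => (amgm _ (abs_nonneg _)).trans
      (add_le_add_right (div_le_div_of_nonneg_right (key y) (by positivity)) _)
  have hir := intervalIntegrable_const.add (hi2.div_const (4 * η ^ 3)) (f := fun _ => 3 / 4 * η)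
  refine (intervalIntegral.integral_mono_on zero_le_one
    (hir.mono_fun hgm.aestronglyMeasurable.restrict (Filter.Eventually.of_forall fun y => by
      refine le_trans (le_of_eq (Real.norm_of_nonneg (abs_nonneg _))) ?_
      exact (hle y).trans (Real.le_norm_self _))) hir fun y _ => hle y).trans ?_
  rw [intervalIntegral.integral_add intervalIntegrable_const (hi2.div_const _),
    intervalIntegral.integral_div, intervalIntegral.integral_const, sub_zero, one_smul]
  have : (∫ y in (0 : ℝ)..1, (ChirpAux.periodogram T σ y - ChirpAux.band σ y) ^ 2) / (4 * η ^ 3)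
      ≤ η / 4 := by
    rw [div_le_iff₀ (by positivity)]
    linarith
  linarith

end Vale.Agent.P130.Simple
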