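import Vale.Agent.P110.Flat.Defs

/-!
P130, simple Lebesgue spectrum: shared definitions and the interfaces between the parts.
See `scratch/P130/FULL.md` on the branch of helper23 for the argument.
-/

namespace Vale.Agent.P130.Simple

open Finset MeasureTheory
open scoped BigOperators
open Vale.Agent.P110.Flat (ee dot)

/-- The unit cube. -/
def cube (d : ℕ) : Set (Fin d → ℝ) := Set.univ.pi fun _ => Set.Ico (0 : ℝ) 1

/-- The Fourier coefficient at `k` of `φ ↦ exp (2 π i θ D φ)`. -/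
noncomputable def coef {d : ℕ} (D : (Fin d → ℝ) → ℕ) (θ : ℝ) (k : Fin d → ℤ) : ℂ :=
  ∫ φ in cube d, ee (θ * (D φ : ℝ) - dot k φ)

/-- A bounded integer valued function on the torus whose exponentials have, off a neighbourhood of
`θ = 0`, Fourier coefficients of constant modulus on pairwise independent frequencies carrying almost
all the energy. -/
structure Wait (η : ℝ) where
  d : ℕ
  K : ℕ
  R : ℕ
  D : (Fin d → ℝ) → ℕ
  hmeas : Measurable D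
  hR : ∀ φ, D φ ≤ R
  hper : ∀ (φ : Fin d → ℝ) (z : Fin d → ℤ), D (fun l => φ l + (z l : ℝ)) = D φ
  hK : 2 ≤ K
  k : Fin K → Fin d → ℤ
  c : Fin K → ℝ
  hk : ∀ i, k i ≠ 0
  hpair : ∀ i j, i ≠ j → ∀ a b : ℤ, (∀ l, a * k i l + b * k j l = 0) → a = 0 ∧ b = 0
  hc : ∀ i, 0 < c i
  hlow : 1 - η ≤ 2 * ∑ i, c i ^ 2
  hupp : 2 * ∑ i, c i ^ 2 ≤ 1
  hflat : ∀ θ : ℝ, η ≤ θ → θ ≤ 1 - η → ∀ i,
    |‖coef D θ (k i)‖ - c i| ≤ η * c i ∧ |‖coef D θ (-k i)‖ - c i| ≤ η * c i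

/-- Pairwise disjoint frequency intervals for given frequencies and weights. -/
structure Pack {d K : ℕ} (k : Fin K → Fin d → ℤ) (c : Fin K → ℝ) (η : ℝ) where
  E : ℕ
  hE : 0 < E
  k' : Fin K → Fin d → ℤ
  hk' : ∀ i, k' i = k i ∨ k' i = -k i
  r : Fin d → ℚ
  q : Fin K → ℕ
  v : Fin d → ℝ
  β : Fin E → Fin d → ℝ
  hq : ∀ i, Odd (q i)
  hden : ∀ i, (∑ l, (k' i l : ℚ) * r l).den = q i
  hv : ∀ i, 0 < dot (k' i) v
  hclose : ∀ i, |(q i : ℝ) * dot (k' i) v - c i ^ 2| ≤ η * c i ^ 2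
  hhalf : ∀ i, dot (k' i) v / E ≤ 1 / 2
  hdisj : ∀ i i' e e' (b b' : ℕ) (σ σ' : Bool), b < q i → b' < q i' →
    (σ, i, e, b) ≠ (σ', i', e', b') →
    ∀ x ∈ Set.Ioo (0 : ℝ) (dot (k' i) v / E), ∀ x' ∈ Set.Ioo (0 : ℝ) (dot (k' i') v / E), ∀ z : ℤ,
      (if σ then (1 : ℝ) else -1) * ((b : ℝ) / q i + dot (k' i) (β e) + x) -
        (if σ' then (1 : ℝ) else -1) * ((b' : ℝ) / q i' + dot (k' i') (β e') + x') ≠ z

/-- The normalised chirp. -/
noncomputable def chirp (σ : ℝ) (T : ℕ) (y : ℝ) : ℂ :=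
  ((Real.sqrt T)⁻¹ : ℝ) * ∑ i ∈ range T, ee (σ * (i : ℝ) ^ 2 / (2 * T) + i * y)

/-- The limiting modulus of the chirp. -/
noncomputable def chirpModulus (σ : ℝ) (y : ℝ) : ℝ :=
  if Int.fract (-y) < σ then (Real.sqrt σ)⁻¹ else 0

/-- Position of piece `j` in the next tower, for height `h` and spacers `w`. -/
def pos (h : ℕ) (w : ℕ → ℕ) (j : ℕ) : ℕ := ∑ i ∈ range j, (h + w i)

/-- The polynomial of a cutting. -/
noncomputable def stagePoly (m h : ℕ) (w : ℕ → ℕ) (θ : ℝ) : ℂ :=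
  ((Real.sqrt m)⁻¹ : ℝ) * ∑ j ∈ range m, ee ((pos h w j : ℝ) * θ)

/-- A trigonometric polynomial of degree at most `D`. -/
noncomputable def tpoly (D : ℕ) (a : ℕ → ℂ) (θ : ℝ) : ℂ :=
  ∑ t ∈ range (D + 1), a t * ee ((t : ℝ) * θ)

/-- Flat stages exist against any `N` weights of degree below the height. -/
def FlatStage (ε : ℝ) (N : ℕ) : Prop :=
  ∃ R : ℕ, ∀ h Dg : ℕ, Dg < h → ∀ a : Fin N → ℕ → ℂ,
    (∀ i, ∫ θ in (0 : ℝ)..1, ‖tpoly Dg (a i) θ‖ ^ 2 ≤ 2) →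
    (∀ i, ∀ δ ∈ Set.Icc (0 : ℝ) (1 / 2),
      ∫ θ in (-δ)..δ, ‖tpoly Dg (a i) θ‖ ^ 2 ≤ 128 * δ ^ 2) →
    ∀ M₀ : ℕ, ∃ m, M₀ ≤ m ∧ 2 ≤ m ∧ ∃ w : ℕ → ℕ, (∀ j, w j ≤ 2 * R) ∧ w (m - 1) = 0 ∧
      ∀ i, ∫ θ in (0 : ℝ)..1, ‖tpoly Dg (a i) θ‖ ^ 2 * |‖stagePoly m h w θ‖ ^ 2 - 1| ≤ ε

/-- Cutting and stacking parameters. -/
structure Params where
  h₀ : ℕ
  hh₀ : 2 ≤ h₀
  m : ℕ → ℕ
  hm : ∀ n, 2 ≤ m n
  w : ℕ → ℕ → ℕ
  hlast : ∀ n, w n (m n - 1) = 0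

/-- The heights of the towers. -/
def Params.height (A : Params) : ℕ → ℕ
  | 0 => A.h₀
  | n + 1 => pos (A.height n) (A.w n) (A.m n)

/-- The proportion of spacers added is summable. -/
def Params.FiniteMeasure (A : Params) : Prop :=
  Summable fun n => ((∑ j ∈ range (A.m n), A.w n j : ℕ) : ℝ) / (A.height (n + 1) : ℝ)

/-- The polynomial of stage `n`. -/
noncomputable def Params.poly (A : Params) (n : ℕ) (θ : ℝ) : ℂ :=
  stagePoly (A.m n) (A.height n) (A.w n) θ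

/-- The weight of the stages `n, …, n + l - 1`, vanishing at zero. -/
noncomputable def Params.weight (A : Params) (n l : ℕ) (θ : ℝ) : ℝ :=
  ‖1 - ee θ‖ ^ 2 * ∏ j ∈ range l, ‖A.poly (n + j) θ‖ ^ 2

/-- All stages are flat against the earlier weights, with summable errors. -/
def Params.FlatAll (A : Params) : Prop :=
  ∃ ε : ℕ → ℝ, Summable ε ∧ ∀ n M, n ≤ M →
    ∫ θ in (0 : ℝ)..1, A.weight n (M - n) θ * |‖A.poly M θ‖ ^ 2 - 1| ≤ ε M

/-- The translate by `T^t` of an `L²` vector. -/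
noncomputable def shiftL2 {X : Type} [MeasurableSpace X] {μ : Measure X} (T : X ≃ᵐ X)
    (hT : MeasurePreserving T μ μ) : Lp ℂ 2 μ →ₗᵢ[ℂ] Lp ℂ 2 μ :=
  Lp.compMeasurePreservingₗᵢ ℂ T hT

/-- A measure preserving system realising the cutting and stacking. -/
structure RankOne (A : Params) where
  X : Type
  mX : MeasurableSpace X
  hstd : @StandardBorelSpace X mX
  μ : @MeasureTheory.Measure X mX
  hprob : @IsProbabilityMeasure X mX μ
  hna : @NoAtoms X mX μ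
  T : @MeasurableEquiv X X mX mX
  hT : @MeasurePreserving X X mX mX T μ μ
  B : ℕ → Set X
  hB : ∀ n, @MeasurableSet X mX (B n)
  hdisj : ∀ n i j, i < A.height n → j < A.height n → i ≠ j →
    Disjoint ((T : X → X)^[i] '' B n) ((T : X → X)^[j] '' B n)
  hsplit : ∀ n, B n = ⋃ j ∈ range (A.m n), (T : X → X)^[pos (A.height n) (A.w n) j] '' B (n + 1)
  hsize : ∀ n, μ (B n) = A.m n * μ (B (n + 1))
  hcover : Filter.Tendsto (fun n => (A.height n : ℝ) * (μ (B n)).toReal) Filter.atTop (nhds 1)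
  hgen : mX = MeasurableSpace.generateFrom
    {s | ∃ n i, i < A.height n ∧ s = (T : X → X)^[i] '' B n}

/-- Some system has simple Lebesgue spectrum: the orbit of a mean zero function is an orthonormal
basis of the mean zero functions. -/
def SimpleLebesgueExists : Prop :=
  ∃ (X : Type) (_ : MeasurableSpace X) (_ : StandardBorelSpace X) (μ : Measure X)
    (_ : IsProbabilityMeasure μ) (_ : NoAtoms μ) (T : X ≃ᵐ X), MeasurePreserving T μ μ ∧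
    ∃ f : X → ℂ, MemLp f 2 μ ∧ ∫ x, f x ∂μ = 0 ∧
      let orb : ℤ → X → ℂ := fun t x => f (if 0 ≤ t then (T : X → X)^[t.natAbs] x
        else (T.symm : X → X)^[t.natAbs] x)
      (∀ s t : ℤ, ∫ x, orb s x * starRingEnd ℂ (orb t x) ∂μ = if s = t then 1 else 0) ∧
      ∀ g : X → ℂ, MemLp g 2 μ → ∫ x, g x ∂μ = 0 →
        (∀ t : ℤ, ∫ x, g x * starRingEnd ℂ (orb t x) ∂μ = 0) → g =ᵐ[μ] 0

end Vale.Agent.P130.Simple
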