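import Vale.Agent.P130.Simple.Chirp
import Vale.Agent.P110.Flat.Gauss
import Vale.Agent.P110.Flat.Fresnel

/-! The main part of a flat stage: Gauss sums times chirps on disjoint intervals. -/

namespace Vale.Agent.P130.Simple

open Finset MeasureTheory
open scoped BigOperators
open Vale.Agent.P110.Flat (ee dot norm_ee continuous_ee ee_add gauss_expand)

variable {d K : ℕ} {k : Fin K → Fin d → ℤ} {c : Fin K → ℝ} {η : ℝ}

/-- The path of a packing over `E * T` pieces, without its base point. -/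
noncomputable def Pack.path (P : Pack k c η) (T : ℕ) (j : ℕ) : Fin d → ℝ := fun l =>
  (P.r l : ℝ) * ((j % T : ℕ) : ℝ) ^ 2 + P.β ⟨(j / T) % P.E, Nat.mod_lt _ P.hE⟩ l * ((j % T : ℕ) : ℝ)
    + P.v l * ((j % T : ℕ) : ℝ) ^ 2 / (2 * P.E * T)

/-- The wave with coefficient `a i σ` at the frequency `± k' i`. -/
noncomputable def Pack.wave (P : Pack k c η) (T : ℕ) (φ₀ : Fin d → ℝ) (a : Fin K → Bool → ℂ)
    (x : ℝ) : ℂ :=
  ((Real.sqrt (P.E * T : ℕ))⁻¹ : ℝ) * ∑ j ∈ range (P.E * T),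
    (∑ i, ∑ σ : Bool, a i σ *
      ee ((if σ then (1 : ℝ) else -1) * dot (P.k' i) (fun l => φ₀ l + P.path T j l))) * ee (j * x)

/-- The limiting modulus of the wave. -/
noncomputable def Pack.target (P : Pack k c η) (a : Fin K → Bool → ℂ) (x : ℝ) : ℝ :=
  ∑ i, ∑ σ : Bool, ∑ e, ∑ b ∈ range (P.q i), ‖a i σ‖ * (Real.sqrt (P.E * P.q i : ℕ))⁻¹ *
    chirpModulus (dot (P.k' i) P.v / P.E)
      ((if σ then (1 : ℝ) else -1) * x + (b : ℝ) / P.q i + dot (P.k' i) (P.β e))

namespace LinesAux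

theorem ee_intCast (z : ℤ) : ee (z : ℝ) = 1 := by
  rw [ee, ← Complex.exp_int_mul_two_pi_mul_I z]
  congr 1
  push_cast
  ring

theorem ee_conj' (x : ℝ) : starRingEnd ℂ (ee x) = ee (-x) := by
  rw [ee, ee, ← Complex.exp_conj]
  congr 1
  simp [Complex.conj_ofReal, Complex.conj_I, map_mul, map_ofNat]

/-- The Gauss expansion with positive frequencies. -/
theorem gauss_pos {q : ℕ} (hq : Odd q) {a : ℤ} (ha : IsCoprime a (q : ℤ)) :
    ∃ G : ℕ → ℂ, (∀ b, b < q → ‖G b‖ = (Real.sqrt q)⁻¹) ∧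
      ∀ n : ℕ, ee ((a : ℝ) * (n : ℝ) ^ 2 / q) = ∑ b ∈ range q, G b * ee ((b : ℝ) * n / q) := by
  obtain ⟨G, hG1, hG2⟩ := gauss_expand hq ha.neg_left
  have hq0 : (q : ℝ) ≠ 0 := by exact_mod_cast hq.pos.ne'
  refine ⟨fun b => G ((q - b) % q), fun b _ => hG1 _ (Nat.mod_lt _ hq.pos), fun n => ?_⟩
  have h := hG2 (n : ℤ)
  rw [Int.cast_natCast, Int.cast_neg, neg_mul, neg_div, neg_neg] at h
  rw [h]
  have hinv : ∀ b, b < q → (q - (q - b) % q) % q = b := by
    intro b hb
    rcases Nat.eq_zero_or_pos b with rfl | hb0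
    · simp
    · rw [Nat.mod_eq_of_lt (show q - b < q by omega), show q - (q - b) = b by omega,
        Nat.mod_eq_of_lt hb]
  refine sum_bij' (fun b _ => (q - b) % q) (fun b _ => (q - b) % q)
    (fun b _ => mem_range.2 (Nat.mod_lt _ hq.pos)) (fun b _ => mem_range.2 (Nat.mod_lt _ hq.pos))
    (fun b hb => hinv b (mem_range.1 hb)) (fun b hb => hinv b (mem_range.1 hb)) fun b hb => ?_
  show G b * _ = G ((q - (q - b) % q) % q) * _
  have hb' := mem_range.1 hb
  rw [hinv b hb']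
  congr 1
  rcases Nat.eq_zero_or_pos b with rfl | hb0
  · simp
  · rw [Nat.mod_eq_of_lt (show q - b < q by omega), Nat.cast_sub hb'.le,
      show ((q : ℝ) - (b : ℝ)) * n / q = -((b : ℝ) * n / q) + ((n : ℤ) : ℝ) by
        push_cast; field_simp; ring, ee_add, ee_intCast, mul_one]

theorem sum_range_mul {M : Type*} [AddCommMonoid M] (f : ℕ → M) (n T : ℕ) :
    ∑ j ∈ range (n * T), f j = ∑ e ∈ range n, ∑ t ∈ range T, f (e * T + t) := by
  induction n with
  | zero => simp
  | succ n ih => rw [Nat.succ_mul, sum_range_add, sum_range_succ, ih]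

/-- The modulus of a sum is close to the sum of the expected moduli when at most one is nonzero. -/
theorem abs_norm_sum_sub_le {ι : Type*} (s : Finset ι) (A : ι → ℂ) (u : ι → ℝ)
    (hone : ∀ j ∈ s, ∀ k ∈ s, j ≠ k → u j = 0 ∨ u k = 0) :
    |‖∑ j ∈ s, A j‖ - ∑ j ∈ s, u j| ≤ ∑ j ∈ s, |‖A j‖ - u j| := by
  classical
  rcases em (∀ j ∈ s, u j = 0) with h | h
  · rw [sum_eq_zero h, sub_zero, abs_of_nonneg (norm_nonneg _)]
    exact (norm_sum_le _ _).trans (sum_le_sum fun j hj => by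
      rw [h j hj, sub_zero]; exact le_abs_self _)
  · push Not at h
    obtain ⟨j₀, hj₀, hne⟩ := h
    have h0 : ∀ k ∈ s.erase j₀, u k = 0 := fun k hk => by
      rcases hone k (mem_of_mem_erase hk) j₀ hj₀ (ne_of_mem_erase hk) with h' | h'
      · exact h'
      · exact absurd h' hne
    rw [← add_sum_erase _ u hj₀, sum_eq_zero h0, add_zero, ← add_sum_erase _ A hj₀,
      ← add_sum_erase _ (fun j => |‖A j‖ - u j|) hj₀]
    have h1 : ‖∑ k ∈ s.erase j₀, A k‖ ≤ ∑ k ∈ s.erase j₀, |‖A k‖ - u k| :=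
      (norm_sum_le _ _).trans (sum_le_sum fun k hk => by
        rw [h0 k hk, sub_zero]; exact le_abs_self _)
    refine (abs_sub_le _ ‖A j₀‖ _).trans ?_
    have h2 := abs_norm_sub_norm_le (A j₀ + ∑ k ∈ s.erase j₀, A k) (A j₀)
    rw [add_sub_cancel_left] at h2
    linarith

theorem chirpModulus_nonneg (w x : ℝ) : 0 ≤ chirpModulus w x := by
  unfold chirpModulus; split_ifs <;> first | positivity | norm_num

theorem chirpModulus_le (w x : ℝ) : chirpModulus w x ≤ (Real.sqrt w)⁻¹ := by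
  unfold chirpModulus; split_ifs
  · exact le_refl _
  · exact inv_nonneg.2 (Real.sqrt_nonneg _)

theorem chirpModulus_periodic (w : ℝ) : Function.Periodic (chirpModulus w) 1 := fun x => by
  simp only [chirpModulus]
  rw [show -(x + 1) = -x - 1 by ring, Int.fract_sub_one]

theorem measurable_chirpModulus (w : ℝ) : Measurable (chirpModulus w) := by
  unfold chirpModulus
  exact Measurable.ite (measurableSet_lt (measurable_fract.comp measurable_neg) measurable_const)
    measurable_const measurable_const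

theorem continuous_chirp (w : ℝ) (T : ℕ) : Continuous (chirp w T) := by
  unfold chirp
  exact continuous_const.mul (continuous_finsetSum _ fun i _ => continuous_ee.comp (by fun_prop))

theorem chirp_periodic (w : ℝ) (T : ℕ) : Function.Periodic (chirp w T) 1 := fun y => by
  unfold chirp
  congr 1
  refine sum_congr rfl fun i _ => ?_
  rw [show w * (i : ℝ) ^ 2 / (2 * T) + i * (y + 1) =
    (w * (i : ℝ) ^ 2 / (2 * T) + i * y) + ((i : ℤ) : ℝ) by push_cast; ring, ee_add, ee_intCast,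
    mul_one]

/-- The sign of an orientation. -/
noncomputable def sgn (σ : Bool) : ℝ := if σ then 1 else -1

/-- The distance of one shifted, possibly reflected, chirp to its limit. -/
noncomputable def lineErr (w : ℝ) (T : ℕ) (σ : Bool) (c x : ℝ) : ℝ :=
  |‖chirp w T (sgn σ * x + c)‖ - chirpModulus w (sgn σ * x + c)|

theorem lineErr_periodic (w : ℝ) (T : ℕ) (σ : Bool) (c : ℝ) :
    Function.Periodic (lineErr w T σ c) 1 := fun x => by
  cases σ
  · simp only [lineErr, sgn, Bool.false_eq_true, if_false]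
    rw [show -1 * (x + 1) + c = (-1 * x + c) - 1 by ring, (chirp_periodic w T).sub_eq,
      (chirpModulus_periodic w).sub_eq]
  · simp only [lineErr, sgn, if_true]
    rw [show 1 * (x + 1) + c = (1 * x + c) + 1 by ring, chirp_periodic w T (1 * x + c),
      chirpModulus_periodic w (1 * x + c)]

theorem measurable_lineErr (w : ℝ) (T : ℕ) (σ : Bool) (c : ℝ) :
    Measurable (lineErr w T σ c) :=
  ((((continuous_chirp w T).norm.measurable).comp (by fun_prop)).sub
    ((measurable_chirpModulus w).comp (by fun_prop))).norm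

theorem lineErr_integrable (w : ℝ) (T : ℕ) (σ : Bool) (c a b : ℝ) :
    IntervalIntegrable (lineErr w T σ c) volume a b := by
  refine IntervalIntegrable.abs (IntervalIntegrable.sub ?_ ?_)
  · exact ((continuous_chirp w T).comp (by fun_prop)).norm.intervalIntegrable a b
  · refine (intervalIntegrable_const (c := (Real.sqrt w)⁻¹)).mono_fun
      ((measurable_chirpModulus w).comp (by fun_prop)).aestronglyMeasurable
      (Filter.Eventually.of_forall fun x => ?_)
    simp only [Real.norm_eq_abs, abs_of_nonneg (inv_nonneg.2 (Real.sqrt_nonneg w))]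
    exact (abs_of_nonneg (chirpModulus_nonneg _ _)).le.trans (chirpModulus_le _ _)

theorem integral_lineErr (w : ℝ) (T : ℕ) (σ : Bool) (c : ℝ) :
    ∫ x in (0 : ℝ)..1, lineErr w T σ c x =
      ∫ y in (0 : ℝ)..1, |‖chirp w T y‖ - chirpModulus w y| := by
  set g : ℝ → ℝ := fun y => |‖chirp w T y‖ - chirpModulus w y| with hg
  have hp : Function.Periodic g 1 := fun y => by
    simp only [hg]; rw [chirp_periodic w T y, chirpModulus_periodic w y]
  show ∫ x in (0 : ℝ)..1, g (sgn σ * x + c) = ∫ y in (0 : ℝ)..1, g y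
  cases σ
  · simp only [sgn, Bool.false_eq_true, if_false, neg_one_mul, neg_add_eq_sub]
    rw [intervalIntegral.integral_comp_sub_left g c, sub_zero]
    have h := hp.intervalIntegral_add_eq (c - 1) 0
    rw [sub_add_cancel, zero_add] at h
    exact h
  · simp only [sgn, if_true, one_mul]
    rw [intervalIntegral.integral_comp_add_right g c, zero_add, show (1 : ℝ) + c = c + 1 by ring,
      hp.intervalIntegral_add_eq c 0, zero_add]

/-- The index of a line: class, orientation, epoch, Gauss frequency. -/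
abbrev Idx (K E : ℕ) := Fin K × Bool × Fin E × ℕ

end LinesAux

open LinesAux

theorem wave_target (P : Pack k c η) (ε : ℝ) (hε : 0 < ε) :
    ∃ T₀ : ℕ, ∀ T, T₀ ≤ T → ∀ φ₀ : Fin d → ℝ, ∃ err : ℝ → ℝ,
      Measurable err ∧ Function.Periodic err 1 ∧ (∀ x, 0 ≤ err x) ∧
      IntervalIntegrable err volume 0 1 ∧ ∫ x in (0 : ℝ)..1, err x ≤ ε ∧
      ∀ a : Fin K → Bool → ℂ, (∀ i σ, ‖a i σ‖ ≤ 1) → ∀ x,
        |‖P.wave T φ₀ a x‖ - P.target a x| ≤ err x := by
  classical
  have hE : (0 : ℝ) < P.E := by exact_mod_cast P.hE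
  let w : Fin K → ℝ := fun i => dot (P.k' i) P.v / P.E
  have hw : ∀ i, 0 < w i := fun i => div_pos (P.hv i) hE
  let s : Finset (Idx K P.E) := (univ : Finset (Fin K)).biUnion fun i =>
    ({i} : Finset (Fin K)) ×ˢ (univ : Finset Bool) ×ˢ (univ : Finset (Fin P.E)) ×ˢ range (P.q i)
  have hmem : ∀ j : Idx K P.E, j ∈ s ↔ j.2.2.2 < P.q j.1 := fun j => by
    simp only [s, mem_biUnion, mem_univ, true_and, mem_product, mem_singleton, mem_range]
    exact ⟨fun ⟨i, h1, h2⟩ => h1 ▸ h2, fun h => ⟨j.1, rfl, h⟩⟩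
  let cst : Idx K P.E → ℝ := fun j =>
    (j.2.2.2 : ℝ) / P.q j.1 + dot (P.k' j.1) (P.β j.2.2.1)
  have hchirp : ∀ i, ∃ T₀ : ℕ, ∀ T, T₀ ≤ T →
      ∫ y in (0 : ℝ)..1, |‖chirp (w i) T y‖ - chirpModulus (w i) y| ≤ ε / ((s.card : ℝ) + 1) :=
    fun i => chirp_flat (w i) _ (hw i) (P.hhalf i) (by positivity)
  choose T₁ hT₁ using hchirp
  refine ⟨max 1 (univ.sup T₁), fun T hT φ₀ => ?_⟩
  have hT0 : 0 < T := le_trans (le_max_left _ _) hT
  have hTi : ∀ i, T₁ i ≤ T := fun i =>
    le_trans (le_trans (le_sup (mem_univ i)) (le_max_right _ _)) hT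
  -- the exceptional endpoints
  let bad : Set ℝ := {x | ∃ j ∈ s, Int.fract (-(sgn j.2.1 * x + cst j)) = 0}
  let M : ℝ := ∑ j ∈ s, (Real.sqrt (w j.1))⁻¹
  have hbad : bad.Countable := by
    refine Set.Countable.mono (s₂ := ⋃ j ∈ s, Set.range fun z : ℤ => sgn j.2.1 * (-(z : ℝ) - cst j))
      ?_ (Set.Countable.biUnion (Finset.countable_toSet s) fun j _ => Set.countable_range _)
    rintro x ⟨j, hj, hx⟩
    refine Set.mem_biUnion hj ⟨⌊-(sgn j.2.1 * x + cst j)⌋, ?_⟩
    rw [Int.fract, sub_eq_zero] at hx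
    simp only
    rw [← hx]
    unfold sgn; split_ifs <;> ring
  let e0 : ℝ → ℝ := fun x => bad.indicator (fun _ => M) x
  let err : ℝ → ℝ := fun x => (∑ j ∈ s, lineErr (w j.1) T j.2.1 (cst j) x) + e0 x
  have hM : 0 ≤ M := sum_nonneg fun j _ => inv_nonneg.2 (Real.sqrt_nonneg _)
  have he0 : e0 =ᵐ[volume] 0 := by
    have : ∀ᵐ x ∂(volume : Measure ℝ), x ∉ bad :=
      compl_mem_ae_iff.2 (hbad.measure_zero volume)
    filter_upwards [this] with x hx
    simp [e0, hx]
  have hbadper : ∀ x, x + 1 ∈ bad ↔ x ∈ bad := by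
    intro x
    refine exists_congr fun j => and_congr_right fun _ => ?_
    unfold sgn
    split_ifs
    · rw [show -(1 * (x + 1) + cst j) = -(1 * x + cst j) - 1 by ring, Int.fract_sub_one]
    · rw [show -(-1 * (x + 1) + cst j) = -(-1 * x + cst j) + 1 by ring, Int.fract_add_one]
  have he0I : IntervalIntegrable e0 volume 0 1 :=
    (intervalIntegrable_const (c := (0 : ℝ))).congr_ae (ae_restrict_of_ae he0.symm)
  have hsI : IntervalIntegrable (fun x => ∑ j ∈ s, lineErr (w j.1) T j.2.1 (cst j) x) volume 0 1 := by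
    have := IntervalIntegrable.sum s (μ := volume) (a := (0 : ℝ)) (b := 1)
      (f := fun j : Idx K P.E => lineErr (w j.1) T j.2.1 (cst j))
      fun j _ => lineErr_integrable _ _ _ _ _ _
    exact this.congr fun y _ => by simp [Finset.sum_apply]
  refine ⟨err, ?_, ?_, ?_, hsI.add he0I, ?_, ?_⟩
  · exact (Finset.measurable_sum _ fun j _ => measurable_lineErr _ _ _ _).add
      (measurable_const.indicator hbad.measurableSet)
  · intro x
    simp only [err, e0]
    congr 1
    · exact sum_congr rfl fun j _ => lineErr_periodic _ _ _ _ x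
    · by_cases h : x ∈ bad
      · rw [Set.indicator_of_mem ((hbadper x).2 h), Set.indicator_of_mem h]
      · rw [Set.indicator_of_notMem (fun h' => h ((hbadper x).1 h')), Set.indicator_of_notMem h]
  · exact fun x => add_nonneg (sum_nonneg fun j _ => abs_nonneg _)
      (Set.indicator_nonneg (fun _ _ => hM) x)
  · show ∫ x in (0 : ℝ)..1, ((∑ j ∈ s, lineErr (w j.1) T j.2.1 (cst j) x) + e0 x) ≤ ε
    rw [intervalIntegral.integral_add hsI he0I,
      intervalIntegral.integral_congr_ae (g := fun _ => (0 : ℝ))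
        (he0.mono fun x hx _ => hx), intervalIntegral.integral_zero, add_zero,
      intervalIntegral.integral_finsetSum fun j _ => lineErr_integrable _ _ _ _ _ _]
    simp only [integral_lineErr]
    refine (sum_le_sum fun j _ => hT₁ j.1 T (hTi j.1)).trans ?_
    rw [sum_const, nsmul_eq_mul]
    have h1 : 0 ≤ ε / ((s.card : ℝ) + 1) := by positivity
    have h2 : ε / ((s.card : ℝ) + 1) * ((s.card : ℝ) + 1) = ε := by field_simp
    linarith
  intro a ha x
  -- Gauss coefficients of every class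
  have hcop : ∀ i, IsCoprime (∑ l, (P.k' i l : ℚ) * P.r l).num (P.q i : ℤ) := fun i => by
    rw [← P.hden i]
    exact Int.isCoprime_iff_nat_coprime.2 (Rat.reduced _)
  have hg : ∀ i, ∃ G : ℕ → ℂ, (∀ b, b < P.q i → ‖G b‖ = (Real.sqrt (P.q i))⁻¹) ∧
      ∀ n : ℕ, ee (((∑ l, (P.k' i l : ℚ) * P.r l).num : ℝ) * (n : ℝ) ^ 2 / P.q i) =
        ∑ b ∈ range (P.q i), G b * ee ((b : ℝ) * n / P.q i) :=
    fun i => gauss_pos (P.hq i) (hcop i)
  choose G hGn hG using hg
  let cj : Bool → ℂ → ℂ := fun σ z => if σ then z else starRingEnd ℂ z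
  have hcj : ∀ σ z, ‖cj σ z‖ = ‖z‖ := fun σ z => by cases σ <;> simp [cj]
  have hcjee : ∀ σ y, cj σ (ee y) = ee (sgn σ * y) := fun σ y => by
    cases σ <;> simp [cj, sgn, ee_conj']
  have hcjmul : ∀ σ z z', cj σ (z * z') = cj σ z * cj σ z' := fun σ z z' => by
    cases σ <;> simp [cj]
  have hcjsum : ∀ σ (t : Finset ℕ) (f : ℕ → ℂ), cj σ (∑ b ∈ t, f b) = ∑ b ∈ t, cj σ (f b) :=
    fun σ t f => by cases σ <;> simp [cj]
  have hcjreal : ∀ σ (y : ℝ), cj σ (y : ℂ) = (y : ℂ) := fun σ y => by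
    cases σ <;> simp [cj]
  -- the summands
  let A : Idx K P.E → ℂ := fun j => a j.1 j.2.1 * ee (sgn j.2.1 * dot (P.k' j.1) φ₀) *
    cj j.2.1 (G j.1 j.2.2.2) * ((Real.sqrt P.E)⁻¹ : ℝ) * ee (((j.2.2.1.val * T : ℕ) : ℝ) * x) *
      cj j.2.1 (chirp (w j.1) T (sgn j.2.1 * x + cst j))
  let u : Idx K P.E → ℝ := fun j => ‖a j.1 j.2.1‖ * (Real.sqrt (P.E * P.q j.1 : ℕ))⁻¹ *
    chirpModulus (w j.1) (sgn j.2.1 * x + cst j)
  have hs : ∀ {M' : Type} [AddCommMonoid M'] (f : Idx K P.E → M'), ∑ j ∈ s, f j =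
      ∑ i, ∑ σ : Bool, ∑ e, ∑ b ∈ range (P.q i), f (i, σ, e, b) := by
    intro M' _ f
    rw [sum_biUnion]
    · refine sum_congr rfl fun i _ => ?_
      rw [sum_product, sum_singleton, sum_product]
      exact sum_congr rfl fun σ _ => sum_product _ _ _
    · intro i _ i' _ hii'
      simp only [Function.onFun, disjoint_left, mem_product, mem_singleton]
      rintro y ⟨h1, -⟩ ⟨h2, -⟩
      exact hii' (h1.symm.trans h2)
  have htarget : P.target a x = ∑ j ∈ s, u j := by
    rw [hs]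
    simp only [u, cst, w, Pack.target, sgn, add_assoc]
  have hwave : P.wave T φ₀ a x = ∑ j ∈ s, A j := by
    rw [hs, Pack.wave, sum_range_mul, ← Fin.sum_univ_eq_sum_range
      (fun e => ∑ t ∈ range T, (∑ i, ∑ σ : Bool, a i σ *
        ee ((if σ then (1 : ℝ) else -1) * dot (P.k' i) (fun l => φ₀ l + P.path T (e * T + t) l))) *
          ee (((e * T + t : ℕ) : ℝ) * x))]
    simp only [sum_mul, mul_sum]
    -- reorder
    rw [show (∑ e : Fin P.E, ∑ t ∈ range T, ∑ i, ∑ σ : Bool,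
        ((Real.sqrt (P.E * T : ℕ))⁻¹ : ℝ) * (a i σ *
          ee ((if σ then (1 : ℝ) else -1) *
            dot (P.k' i) (fun l => φ₀ l + P.path T (e.val * T + t) l)) *
          ee (((e.val * T + t : ℕ) : ℝ) * x))) =
      ∑ i, ∑ σ : Bool, ∑ e : Fin P.E, ∑ t ∈ range T,
        ((Real.sqrt (P.E * T : ℕ))⁻¹ : ℝ) * (a i σ *
          ee ((if σ then (1 : ℝ) else -1) *
            dot (P.k' i) (fun l => φ₀ l + P.path T (e.val * T + t) l)) *
          ee (((e.val * T + t : ℕ) : ℝ) * x)) by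
      rw [sum_congr rfl fun e _ => sum_comm, sum_comm]
      refine sum_congr rfl fun i _ => ?_
      rw [sum_congr rfl fun e _ => sum_comm, sum_comm]]
    refine sum_congr rfl fun i _ => sum_congr rfl fun σ _ => sum_congr rfl fun e _ => ?_
    simp only [A, chirp, hcjmul, hcjsum, hcjreal, hcjee, mul_sum]
    rw [sum_comm]
    refine sum_congr rfl fun t ht => ?_
    have ht' := mem_range.1 ht
    have hmod : (e.val * T + t) % T = t := by
      rw [Nat.add_comm, Nat.add_mul_mod_self_right, Nat.mod_eq_of_lt ht']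
    have hdiv : (e.val * T + t) / T = e.val := by
      rw [Nat.add_comm, Nat.add_mul_div_right _ _ hT0, Nat.div_eq_of_lt ht', zero_add]
    have hidx : (⟨(e.val * T + t) / T % P.E, Nat.mod_lt _ P.hE⟩ : Fin P.E) = e :=
      Fin.ext (show (e.val * T + t) / T % P.E = e.val by rw [hdiv, Nat.mod_eq_of_lt e.isLt])
    set Q : ℚ := ∑ l, (P.k' i l : ℚ) * P.r l with hQ
    have hQr : ∑ l, (P.k' i l : ℝ) * (P.r l : ℝ) = (Q.num : ℝ) / P.q i := by
      rw [← P.hden i, ← hQ, ← Rat.cast_def, hQ]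
      push_cast
      rfl
    have hdot : dot (P.k' i) (fun l => φ₀ l + P.path T (e.val * T + t) l) =
        dot (P.k' i) φ₀ + (Q.num : ℝ) * (t : ℝ) ^ 2 / P.q i +
          (dot (P.k' i) (P.β e) * t + w i * (t : ℝ) ^ 2 / (2 * T)) := by
      rw [mul_div_right_comm, ← hQr]
      simp only [Pack.path, hmod, hidx, w, dot, mul_add, sum_add_distrib, sum_mul, sum_div]
      rw [add_assoc, add_assoc]
      congr 1
      congr 1
      · exact sum_congr rfl fun l _ => by ring
      · congr 1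
        · exact sum_congr rfl fun l _ => by ring
        · exact sum_congr rfl fun l _ => by field_simp
    have hexp : ee (sgn σ * ((Q.num : ℝ) * (t : ℝ) ^ 2 / P.q i)) =
        ∑ b ∈ range (P.q i), cj σ (G i b) * ee (sgn σ * ((b : ℝ) * t / P.q i)) := by
      rw [← hcjee, hG i t, hcjsum]
      exact sum_congr rfl fun b _ => by rw [hcjmul, hcjee]
    rw [show (if σ then (1 : ℝ) else -1) = sgn σ from rfl, hdot, mul_add, mul_add, ee_add, ee_add,
      hexp]
    simp only [mul_sum, sum_mul]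
    refine sum_congr rfl fun b _ => ?_
    have e1 : ee (sgn σ * ((b : ℝ) * t / P.q i)) *
        ee (sgn σ * (dot (P.k' i) (P.β e) * t + w i * (t : ℝ) ^ 2 / (2 * T))) *
        ee (((e.val * T + t : ℕ) : ℝ) * x) =
        ee (((e.val * T : ℕ) : ℝ) * x) *
          ee (sgn σ * (w i * (t : ℝ) ^ 2 / (2 * T) + (t : ℝ) * (sgn σ * x + cst (i, σ, e, b)))) := by
      rw [← ee_add, ← ee_add, ← ee_add]
      congr 1
      simp only [cst, sgn]
      push_cast
      split_ifs <;> ring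
    rw [Nat.cast_mul P.E T, Real.sqrt_mul (Nat.cast_nonneg _), mul_inv, Complex.ofReal_mul]
    linear_combination ((Real.sqrt P.E)⁻¹ : ℝ) * ((Real.sqrt T)⁻¹ : ℝ) * a i σ *
      ee (sgn σ * dot (P.k' i) φ₀) * cj σ (G i b) * e1
  have hA : ∀ j ∈ s, |‖A j‖ - u j| ≤ lineErr (w j.1) T j.2.1 (cst j) x := by
    intro j hj
    have hq := (P.hq j.1).pos
    have en : ‖A j‖ = ‖a j.1 j.2.1‖ * (Real.sqrt (P.E * P.q j.1 : ℕ))⁻¹ *
        ‖chirp (w j.1) T (sgn j.2.1 * x + cst j)‖ := by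
      simp only [A, norm_mul, norm_ee, hcj, mul_one, hGn _ _ ((hmem j).1 hj), Complex.norm_real,
        Real.norm_eq_abs, abs_of_nonneg (inv_nonneg.2 (Real.sqrt_nonneg _))]
      rw [Nat.cast_mul, Real.sqrt_mul (Nat.cast_nonneg _), mul_inv]
      ring
    rw [en, ← mul_sub, abs_mul]
    refine mul_le_of_le_one_left (abs_nonneg _) ?_
    rw [abs_of_nonneg (by positivity)]
    refine mul_le_one₀ (ha _ _) (by positivity) (inv_le_one_of_one_le₀ ?_)
    rw [Real.one_le_sqrt]
    have h1 : 1 ≤ P.E * P.q j.1 := Nat.one_le_iff_ne_zero.2 (Nat.mul_ne_zero (by have := P.hE; omega)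
      (by omega))
    exact_mod_cast h1
  rw [hwave, htarget]
  by_cases hx : x ∈ bad
  · have h1 : ∑ j ∈ s, u j ≤ M := sum_le_sum fun j _ => by
      refine (mul_le_of_le_one_left (chirpModulus_nonneg _ _) ?_).trans (chirpModulus_le _ _)
      refine mul_le_one₀ (ha _ _) (by positivity) (inv_le_one_of_one_le₀ ?_)
      rw [Real.one_le_sqrt]
      have hq := (P.hq j.1).pos
      have h1 : 1 ≤ P.E * P.q j.1 := Nat.one_le_iff_ne_zero.2
        (Nat.mul_ne_zero (by have := P.hE; omega) (by omega))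
      exact_mod_cast h1
    have h2 : ‖∑ j ∈ s, A j‖ ≤ ∑ j ∈ s, u j + ∑ j ∈ s, lineErr (w j.1) T j.2.1 (cst j) x := by
      rw [← sum_add_distrib]
      exact (norm_sum_le _ _).trans (sum_le_sum fun j hj => by
        have := le_abs_self (‖A j‖ - u j)
        linarith [hA j hj])
    have h0 : 0 ≤ ∑ j ∈ s, u j := sum_nonneg fun j _ =>
      mul_nonneg (by positivity) (chirpModulus_nonneg _ _)
    have h3 : 0 ≤ ∑ j ∈ s, lineErr (w j.1) T j.2.1 (cst j) x := sum_nonneg fun j _ => abs_nonneg _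
    simp only [err, e0, Set.indicator_of_mem hx]
    rw [abs_le]
    constructor <;> linarith [norm_nonneg (∑ j ∈ s, A j)]
  · simp only [err, e0, Set.indicator_of_notMem hx, add_zero]
    refine (abs_norm_sum_sub_le s A u fun j hj l hl hjl => ?_).trans (sum_le_sum hA)
    by_contra hcon
    push Not at hcon
    obtain ⟨h1, h2⟩ := hcon
    have hf : ∀ i ∈ s, u i ≠ 0 → Int.fract (-(sgn i.2.1 * x + cst i)) ∈ Set.Ioo 0 (w i.1) := by
      intro i hi hu
      refine ⟨lt_of_le_of_ne (Int.fract_nonneg _) fun h => hx ⟨i, hi, h.symm⟩, ?_⟩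
      by_contra hlt
      exact hu (by simp only [u, chirpModulus, if_neg hlt, mul_zero])
    have g1 := hf j hj h1
    have g2 := hf l hl h2
    have hne : (j.2.1, j.1, j.2.2.1, j.2.2.2) ≠ (l.2.1, l.1, l.2.2.1, l.2.2.2) := fun h => by
      obtain ⟨e1, e2⟩ := Prod.ext_iff.1 h
      obtain ⟨e3, e4⟩ := Prod.ext_iff.1 e2
      obtain ⟨e5, e6⟩ := Prod.ext_iff.1 e4
      exact hjl (Prod.ext e3 (Prod.ext e1 (Prod.ext e5 e6)))
    obtain ⟨i₁, σ₁, e₁, b₁⟩ := j
    obtain ⟨i₂, σ₂, e₂, b₂⟩ := l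
    refine P.hdisj i₁ i₂ e₁ e₂ b₁ b₂ σ₁ σ₂ ((hmem _).1 hj) ((hmem _).1 hl) hne _ g1 _ g2
      ((if σ₁ then (-1 : ℤ) else 1) * ⌊-(sgn σ₁ * x + cst (i₁, σ₁, e₁, b₁))⌋ -
        (if σ₂ then (-1 : ℤ) else 1) * ⌊-(sgn σ₂ * x + cst (i₂, σ₂, e₂, b₂))⌋) ?_
    simp only [Int.fract, cst, sgn]
    cases σ₁ <;> cases σ₂ <;> simp only [Bool.false_eq_true, if_false, if_true] <;> push_cast <;>
      ring

end Vale.Agent.P130.Simple
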