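import Vale.Agent.P130.Simple.Defs
import Vale.Agent.P110.Flat.Zones
import Vale.Agent.P110.Flat.Nibble

/-!
Disjoint intervals for a waiting time profile, through the P110 matching: the arithmetic and packing
of P110 for arbitrary targets `c i ^ 2`.
-/

namespace Vale.Agent.P130.Simple

open Finset
open scoped BigOperators
open Vale.Agent.P110.Flat

/-- An integer point on which finitely many nonzero linear forms do not vanish. -/
private lemma exists_generic {d : ℕ} {ι : Type*} (s : Finset ι) (w : ι → Fin d → ℤ)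
    (hw : ∀ i ∈ s, w i ≠ 0) : ∃ u : Fin d → ℤ, ∀ i ∈ s, ∑ l, w i l * u l ≠ 0 := by
  classical
  let p : ι → Polynomial ℤ := fun i => ∑ l : Fin d, Polynomial.monomial (l : ℕ) (w i l)
  have hp : ∀ i ∈ s, p i ≠ 0 := by
    intro i hi h
    refine hw i hi (funext fun l => ?_)
    have := congrArg (fun q => Polynomial.coeff q (l : ℕ)) h
    simpa [p, Polynomial.finsetSum_coeff, Polynomial.coeff_monomial, Fin.val_inj] using this
  obtain ⟨t, ht⟩ := Infinite.exists_notMem_finset (s.biUnion fun i => (p i).roots.toFinset)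
  refine ⟨fun l => t ^ (l : ℕ), fun i hi h => ht ?_⟩
  refine mem_biUnion.2 ⟨i, hi, Multiset.mem_toFinset.2 ((Polynomial.mem_roots (hp i hi)).2 ?_)⟩
  simpa [p, Polynomial.IsRoot, Polynomial.eval_finsetSum] using h

/-- The basic vectors of a pairwise independent family. -/
private lemma exists_dirs {d K : ℕ} (k : Fin K → Fin d → ℤ) (hk : ∀ i, k i ≠ 0)
    (hpair : ∀ i j, i ≠ j → ∀ a b : ℤ, (∀ l, a * k i l + b * k j l = 0) → a = 0 ∧ b = 0) :
    ∃ (u : Fin d → ℤ) (w : Fin K → Fin d → ℤ), (∀ i, ∑ l, k i l * u l ≠ 0) ∧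
      ∀ i j, (∑ l, k j l * w i l = 0 ↔ j = i) := by
  classical
  let sq : Fin K → ℤ := fun i => ∑ l, k i l * k i l
  let ip : Fin K → Fin K → ℤ := fun i j => ∑ l, k i l * k j l
  have hsq : ∀ i, sq i ≠ 0 := by
    intro i h
    refine hk i (funext fun l => ?_)
    exact mul_self_eq_zero.1
      ((sum_eq_zero_iff_of_nonneg fun l _ => mul_self_nonneg (k i l)).1 h l (mem_univ l))
  let f : Fin K ⊕ Fin K × Fin K → Fin d → ℤ :=
    Sum.elim k fun p l => sq p.1 * k p.2 l - ip p.1 p.2 * k p.1 l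
  obtain ⟨u, hu⟩ := exists_generic (univ.filter fun x : Fin K ⊕ Fin K × Fin K => f x ≠ 0) f
    fun x hx => (mem_filter.1 hx).2
  refine ⟨u, fun i l => sq i * u l - (∑ l', k i l' * u l') * k i l, fun i => ?_, fun i j => ?_⟩
  · simpa [f] using hu (Sum.inl i) (mem_filter.2 ⟨mem_univ _, by simpa [f] using hk i⟩)
  have e : ∑ l, k j l * (sq i * u l - (∑ l', k i l' * u l') * k i l) =
      ∑ l, f (Sum.inr (i, j)) l * u l := by
    simp only [f, Sum.elim_inr, mul_sub, sub_mul, sum_sub_distrib, ip]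
    congr 1
    · exact sum_congr rfl fun l _ => by ring
    · calc ∑ l, k j l * ((∑ l', k i l' * u l') * k i l)
          = (∑ l, k i l * k j l) * ∑ l', k i l' * u l' := by
            rw [sum_mul]; exact sum_congr rfl fun l _ => by ring
        _ = _ := by rw [mul_sum]; exact sum_congr rfl fun l _ => by ring
  rw [e]
  constructor
  · intro h
    by_contra hji
    refine hu (Sum.inr (i, j)) (mem_filter.2 ⟨mem_univ _, fun h0 => ?_⟩) h
    exact hsq i (hpair j i hji (sq i) (-ip i j) fun l => by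
      have := congrFun h0 l
      simp only [f, Sum.elim_inr, Pi.zero_apply] at this
      linear_combination this).1
  · rintro rfl
    simp [f, sq, ip]

private lemma den_sum {K : ℕ} (z : Fin K → ℤ) (n : Fin K → ℕ) (i : Fin K) (hn : ∀ j, 0 < n j)
    (hz : z i = 0) (hunit : ∀ j, j ≠ i → IsCoprime (z j) (n j : ℤ))
    (hcop : ∀ a b, a ≠ b → Nat.Coprime (n a) (n b)) :
    (∑ j, (z j : ℚ) / n j).den = ∏ j ∈ univ.erase i, n j := by
  classical
  set s := univ.erase i
  set N : ℤ := ∑ j ∈ s, z j * ∏ a ∈ s.erase j, (n a : ℤ) with hN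
  have hQ : ((∏ j ∈ s, n j : ℕ) : ℤ) = ∏ j ∈ s, (n j : ℤ) := by push_cast; rfl
  have hpos : (0 : ℤ) < ∏ j ∈ s, (n j : ℤ) := prod_pos fun j _ => by exact_mod_cast hn j
  have hval : ∑ j, (z j : ℚ) / n j = (N : ℚ) / ((∏ j ∈ s, (n j : ℤ) : ℤ) : ℚ) := by
    rw [← add_sum_erase univ _ (mem_univ i), hz, Int.cast_zero, zero_div, zero_add, hN,
      Int.cast_sum, Finset.sum_div]
    refine sum_congr rfl fun j hj => ?_
    rw [← mul_prod_erase s (fun a => (n a : ℤ)) hj]
    push_cast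
    have : (n j : ℚ) ≠ 0 := by exact_mod_cast (hn j).ne'
    have h2 : (∏ a ∈ s.erase j, (n a : ℚ)) ≠ 0 :=
      prod_ne_zero_iff.2 fun a _ => by exact_mod_cast (hn a).ne'
    field_simp
  have hco : IsCoprime N (∏ j ∈ s, (n j : ℤ)) := by
    refine IsCoprime.prod_right fun j hj => ?_
    have hsplit : N = z j * ∏ a ∈ s.erase j, (n a : ℤ) + (n j : ℤ) *
        ∑ b ∈ s.erase j, z b * ∏ a ∈ (s.erase b).erase j, (n a : ℤ) := by
      rw [hN, ← add_sum_erase s _ hj, mul_sum]
      refine congrArg _ (sum_congr rfl fun b hb => ?_)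
      rw [← mul_prod_erase (s.erase b) (fun a => (n a : ℤ))
        (mem_erase.2 ⟨(mem_erase.1 hb).1.symm, hj⟩)]
      ring
    rw [hsplit, IsCoprime.add_mul_left_left_iff]
    refine (hunit j (mem_erase.1 hj).1).mul_left (IsCoprime.prod_left fun a ha => ?_)
    exact Int.isCoprime_iff_gcd_eq_one.2 (by simpa using hcop a j (mem_erase.1 ha).1)
  have := Rat.den_div_eq_of_coprime hpos (Int.isCoprime_iff_nat_coprime.1 hco)
  rw [← hval, ← hQ] at this
  exact_mod_cast this

private lemma hit_eq {η : ℝ} (A : Arith η) {G : ℕ} (hG : 0 < G) (j : Fin A.d → Fin (A.P * G))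
    (i : Fin A.K) :
    (hit A G j i : ℤ) = (∑ l, A.k i l * ((j l : ℕ) : ℤ)) % ((A.n i * G : ℕ) : ℤ) := by
  refine Int.toNat_of_nonneg (Int.emod_nonneg _ ?_)
  exact_mod_cast (Nat.mul_pos (lt_trans one_pos (A.hn i).2) hG).ne'

set_option maxHeartbeats 2000000 in
theorem exists_pack {d K : ℕ} (k₀ : Fin K → Fin d → ℤ) (c₀ : Fin K → ℝ) (η : ℝ) (hη : 0 < η)
    (hK : 2 ≤ K) (hk0 : ∀ i, k₀ i ≠ 0)
    (hpair0 : ∀ i j, i ≠ j → ∀ a b : ℤ, (∀ l, a * k₀ i l + b * k₀ j l = 0) → a = 0 ∧ b = 0)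
    (hc0 : ∀ i, 0 < c₀ i) (hupp0 : 2 * ∑ i, c₀ i ^ 2 ≤ 1) : Nonempty (Pack k₀ c₀ η) := by
  classical
  set ε := min η 1 / 4 with hε
  have hε0 : 0 < ε := by positivity
  obtain ⟨u, w, hu, hw⟩ := exists_dirs k₀ hk0 hpair0
  -- orientation
  let σ : Fin K → ℤ := fun i => Int.sign (∑ l, k₀ i l * u l)
  have hσ : ∀ i, σ i = 1 ∨ σ i = -1 := fun i => by
    rcases lt_or_gt_of_ne (hu i) with h | h
    · exact Or.inr (Int.sign_eq_neg_one_of_neg h)
    · exact Or.inl (Int.sign_eq_one_of_pos h)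
  let k : Fin K → Fin d → ℤ := fun i l => σ i * k₀ i l
  let s : Fin K → ℤ := fun i => ∑ l, k i l * u l
  have hkσ : ∀ (i : Fin K) (x : Fin d → ℤ), ∑ l, k i l * x l = σ i * ∑ l, k₀ i l * x l :=
    fun i x => by rw [mul_sum]; exact sum_congr rfl fun l _ => mul_assoc _ _ _
  have hs : ∀ i, 0 < s i := fun i => by
    simp only [s, hkσ, σ]
    rw [Int.sign_mul_self_eq_abs]
    exact abs_pos.2 (hu i)
  let z : Fin K → Fin K → ℤ := fun i j => ∑ l, k i l * w j l
  have hz : ∀ i j, z i j = 0 ↔ i = j := fun i j => by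
    simp only [z, hkσ]
    rcases hσ i with h | h <;> simp [h, hw j i]
  -- the moduli
  let t : Fin K → ℝ := fun i => (s i : ℝ) / c₀ i ^ 2
  have ht : ∀ i, 0 < t i := fun i =>
    div_pos (by exact_mod_cast hs i) (pow_two_pos_of_ne_zero ((fun i => (hc0 i).ne') i))
  obtain ⟨X, hX⟩ : ∃ X : ℕ, ∀ i, 3 / (t i * ε) ≤ (X : ℝ) :=
    ⟨⌈∑ i, 3 / (t i * ε)⌉₊, fun i => le_trans
      (single_le_sum (f := fun i => 3 / (t i * ε))
        (fun j _ => by have := ht j; positivity) (mem_univ i))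
      (Nat.le_ceil _)⟩
  let a : Fin K → ℕ := fun i => K * ⌈(X : ℝ) * t i⌉₊ + (i : ℕ) + 1
  have ha : ∀ i j, a i = a j → i = j := by
    intro i j h
    simp only [a] at h
    have := congrArg (· % K) (by omega : K * ⌈(X : ℝ) * t i⌉₊ + (i : ℕ) =
      K * ⌈(X : ℝ) * t j⌉₊ + (j : ℕ))
    simp only [Nat.mul_add_mod, Nat.mod_eq_of_lt i.2, Nat.mod_eq_of_lt j.2] at this
    exact Fin.ext this
  set B : ℕ := ∑ i, (a i + (s i).natAbs) + ∑ p : Fin K × Fin K, (z p.1 p.2).natAbs with hB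
  let D : ℕ := 2 * B.factorial
  let n : Fin K → ℕ := fun i => D * a i + 1
  have hn0 : ∀ i, 0 < n i := fun i => Nat.succ_pos _
  have small : ∀ (i : Fin K) (x : ℤ), x ≠ 0 → x.natAbs ≤ B → IsCoprime x (n i : ℤ) := by
    intro i x hx hxB
    have hd : x ∣ (D : ℤ) := by
      rw [← Int.natAbs_dvd_natAbs, Int.natAbs_natCast]
      exact (Nat.dvd_factorial (Int.natAbs_pos.2 hx) hxB).mul_left 2
    obtain ⟨q, hq⟩ := hd
    refine ⟨-(q * a i), 1, ?_⟩
    simp only [n]; push_cast; rw [hq]; ring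
  have hsB : ∀ i, (s i).natAbs ≤ B ∧ a i ≤ B := fun i => by
    have := single_le_sum (f := fun i => a i + (s i).natAbs) (fun j _ => Nat.zero_le _) (mem_univ i)
    constructor <;> omega
  have hzB : ∀ i j, (z i j).natAbs ≤ B := fun i j => by
    have := single_le_sum (f := fun p : Fin K × Fin K => (z p.1 p.2).natAbs)
      (fun q _ => Nat.zero_le _) (mem_univ (i, j))
    simp only at this; omega
  have hcop : ∀ i j, i ≠ j → Nat.Coprime (n i) (n j) := by
    intro i j hij
    suffices IsCoprime (n i : ℤ) (n j : ℤ) by simpa [Int.isCoprime_iff_nat_coprime] using this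
    have hx : ((a i : ℤ) - a j) ≠ 0 := sub_ne_zero.2 (by exact_mod_cast fun h => hij (ha i j h))
    have hxB : ((a i : ℤ) - a j).natAbs ≤ B := by
      have := (hsB i).2; have := (hsB j).2; omega
    have hD : IsCoprime (D : ℤ) (n j : ℤ) := ⟨-(a j : ℤ), 1, by simp only [n]; push_cast; ring⟩
    have hm := hD.mul_left (small j _ hx hxB)
    have hadd := hm.add_mul_left_left 1
    rw [mul_one] at hadd
    have e : (n i : ℤ) = (D : ℤ) * ((a i : ℤ) - a j) + (n j : ℤ) := by
      simp only [n]; push_cast; ring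
    rw [e]; exact hadd
  let Pn := ∏ i, n i
  let q : Fin K → ℕ := fun i => ∏ j ∈ univ.erase i, n j
  have hqP : ∀ i, q i * n i = Pn := fun i => by
    simp only [q, Pn]; rw [prod_erase_mul _ _ (mem_univ i)]
  -- the scale
  let r : Fin d → ℚ := fun l => ∑ j, (w j l : ℚ) / n j
  let ρ : Fin K → ℝ := fun i => (n i : ℝ) / ((D : ℝ) * K * X * t i)
  have hKpos : (0 : ℝ) < K := by exact_mod_cast (show 0 < K by omega)
  have hD1 : (1 : ℝ) ≤ D := by
    exact_mod_cast (show 1 ≤ D from Nat.mul_pos two_pos B.factorial_pos)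
  have hXt : ∀ i, 3 ≤ ε * ((X : ℝ) * t i) := fun i => by
    have := hX i; rw [div_le_iff₀ (by have := ht i; positivity)] at this; linarith
  have hXpos : (0 : ℝ) < X := lt_of_lt_of_le
    (by have := ht ⟨0, by omega⟩; positivity) (hX ⟨0, by omega⟩)
  have hρ : ∀ i, 1 ≤ ρ i ∧ ρ i ≤ 1 + ε := fun i => by
    have h0 := ht i
    have hden : 0 < (D : ℝ) * K * X * t i := by positivity
    have c1 := Nat.le_ceil ((X : ℝ) * t i)
    have c2 := (Nat.ceil_lt_add_one (by positivity : 0 ≤ (X : ℝ) * t i)).le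
    have hi : ((i : ℕ) : ℝ) + 1 ≤ K := by exact_mod_cast i.2
    have en : (n i : ℝ) = D * (K * (⌈(X : ℝ) * t i⌉₊ : ℝ) + (i : ℕ) + 1) + 1 := by
      simp only [n, a]; push_cast; ring
    have hK1 : (1 : ℝ) ≤ K := by exact_mod_cast (show 1 ≤ K by omega)
    constructor
    · rw [le_div_iff₀ hden, one_mul, en]
      nlinarith [mul_le_mul_of_nonneg_left c1 (by positivity : 0 ≤ (D : ℝ) * K)]
    · rw [div_le_iff₀ hden, en]
      nlinarith [mul_le_mul_of_nonneg_left c2 (by positivity : 0 ≤ (D : ℝ) * K),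
        mul_le_mul_of_nonneg_left hi (by positivity : 0 ≤ (D : ℝ)),
        mul_le_mul_of_nonneg_left (hXt i) (by positivity : 0 ≤ (D : ℝ) * K),
        mul_le_mul hD1 hK1 zero_le_one (by positivity)]
  let c : Fin K → ℝ := fun i => c₀ i / Real.sqrt (ρ i)
  have hc2 : ∀ i, c i ^ 2 = 1 * c₀ i ^ 2 / ρ i := fun i => by
    simp only [c]; rw [div_pow, Real.sq_sqrt (by linarith [(hρ i).1]), one_mul]
  let v₀ : Fin d → ℝ := fun l => (D * K * X : ℝ) / Pn * u l
  have hPn : (0 : ℝ) < (Pn : ℝ) := by exact_mod_cast prod_pos fun i _ => hn0 i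
  have hkv₀ : ∀ i, dot (k i) v₀ = (D * K * X : ℝ) / Pn * s i := fun i => by
    simp only [dot, v₀, s]; push_cast; rw [mul_sum]
    exact sum_congr rfl fun l _ => by ring
  set η₂ := 2 * ∑ i, |c i| + 1 with hη₂
  have hcs : 0 ≤ ∑ i, |c i| := sum_nonneg fun i _ => abs_nonneg _
  let A : Arith η₂ := {
    d := d
    K := K
    hK := hK
    k := k
    c := c
    n := n
    P := Pn
    q := q
    r := r
    v := v₀
    hpair := fun i j hij x y h => by
      have hp := hpair0 i j hij (x * σ i) (y * σ j) fun l => by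
        have := h l; simp only [k] at this; linear_combination this
      rcases hσ i with h1 | h1 <;> rcases hσ j with h2 | h2 <;>
        simp only [h1, h2, mul_one, mul_neg, neg_eq_zero] at hp <;> exact hp
    hn := fun i => ⟨⟨B.factorial * a i, by simp only [n, D]; ring⟩,
      Nat.lt_add_of_pos_left (Nat.mul_pos (Nat.mul_pos two_pos B.factorial_pos) (Nat.succ_pos _))⟩
    hcop := hcop
    hP := rfl
    hqP := hqP
    hsurj := fun i => by
      obtain ⟨x, y, hxy⟩ := small i (s i) (hs i).ne' (hsB i).1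
      refine ⟨fun l => x * u l, ?_⟩
      have e : ∑ l, k i l * (x * u l) = x * s i := by
        simp only [s]; rw [mul_sum]; exact sum_congr rfl fun l _ => by ring
      rw [e, show x * s i = 1 - y * (n i : ℤ) by linarith]
      push_cast; simp
    hden := fun i => by
      have e : ∑ l, (k i l : ℚ) * r l = ∑ j, ((z i j : ℤ) : ℚ) / n j := by
        simp only [r, z, mul_sum]
        rw [sum_comm]
        refine sum_congr rfl fun j _ => ?_
        push_cast; rw [sum_div]
        exact sum_congr rfl fun l _ => by ring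
      rw [e]
      exact den_sum (fun j => z i j) n i hn0 ((hz i i).2 rfl)
        (fun j hj => small j _ (fun h => hj ((hz i j).1 h).symm) (hzB i j)) hcop
    hv := fun i => by
      rw [hkv₀]
      have := hs i
      positivity
    hc := fun i => by
      have hqr : (q i : ℝ) * n i = Pn := by exact_mod_cast hqP i
      have hn' : (n i : ℝ) ≠ 0 := by exact_mod_cast (hn0 i).ne'
      have hs' : (s i : ℝ) ≠ 0 := by exact_mod_cast (hs i).ne'
      rw [hc2, hkv₀]
      simp only [ρ, t]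
      have := (hc0 i).ne'
      field_simp
      linear_combination -hqr
    hlow := by
      have : 0 ≤ 2 * ∑ i, c i ^ 2 := by positivity
      linarith
    hupp := by
      have h1 : ∑ i, c i ^ 2 ≤ ∑ i, c₀ i ^ 2 := sum_le_sum fun i _ => by
        rw [hc2]; simpa using div_le_self (sq_nonneg (c₀ i)) (hρ i).1
      linarith
    hsup := fun φ => by
      rw [abs_mul, abs_two]
      have h1 : |∑ i, c i * Real.cos (2 * Real.pi * dot (k i) φ)| ≤ ∑ i, |c i| :=
        (abs_sum_le_sum_abs _ _).trans (sum_le_sum fun i _ => by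
          rw [abs_mul]; exact mul_le_of_le_one_right (abs_nonneg _) (Real.abs_cos_le_one _))
      linarith }
  let ρold : Fin K → ℝ := ρ
  have hρold : ∀ i, 1 ≤ ρold i ∧ ρold i ≤ 1 + ε := hρ
  have hcρ : ∀ i, c i ^ 2 = c₀ i ^ 2 / ρold i := fun i => (hc2 i).trans (by rw [one_mul])
  clear_value ρold
  set γ := min (η / 8) (1 / 2) with hγdef
  have hγ : 0 < γ := lt_min (by positivity) (by norm_num)
  have hγ2 : γ ≤ 1 / 2 := min_le_right _ _
  obtain ⟨η', hη', D₀, hmatch⟩ := exists_matching A.K (by have := A.hK; omega) γ hγ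
  obtain ⟨Z⟩ := exists_zones A γ η' D₀ hγ hη'
  obtain ⟨M, hM, hcard⟩ := hmatch _ _ Z.num Z.D Z.hnum Z.hD Z.hreg
  have hnum : (0 : ℝ) < Z.num := by exact_mod_cast Z.hnum
  have hE : 0 < M.card := by
    have : (0 : ℝ) < M.card := lt_of_lt_of_le (by nlinarith) hcard
    exact_mod_cast this
  have hER : (0 : ℝ) < M.card := by exact_mod_cast hE
  let jj : Fin M.card → Fin A.d → Fin (A.P * Z.G) := fun e => ((M.equivFin.symm e).1).1
  have hjS : ∀ e i, hit A Z.G (jj e) i % Z.G ∈ Z.S i := fun e => ((M.equivFin.symm e).1).2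
  have hinj : ∀ e e' i, hit A Z.G (jj e) i = hit A Z.G (jj e') i → e = e' := by
    intro e e' i h
    by_contra hne
    refine hM _ (M.equivFin.symm e).2 _ (M.equivFin.symm e').2 ?_ i h
    exact fun h2 => hne (M.equivFin.symm.injective (Subtype.ext h2))
  have hn0 : ∀ i, 0 < A.n i := fun i => lt_trans one_pos (A.hn i).2
  have hP : 0 < A.P := A.hP ▸ prod_pos fun i _ => hn0 i
  have hG := Z.hG
  have hPG : (0 : ℝ) < (A.P : ℝ) * Z.G := by positivity
  set ρ := (1 - γ) ^ 2 with hρdef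
  have hρ0 : 0 < ρ := pow_pos (by linarith) 2
  have hρ1 : ρ ≤ 1 := by rw [hρdef]; nlinarith
  have hsρ : 0 ≤ Real.sqrt ρ ∧ Real.sqrt ρ ≤ 1 := ⟨Real.sqrt_nonneg _, Real.sqrt_le_one.2 hρ1⟩
  let J : Fin A.K → Fin M.card → ℤ := fun i e => ∑ l, A.k i l * ((jj e l : ℕ) : ℤ)
  let β : Fin M.card → Fin A.d → ℝ := fun e l => ((jj e l : ℕ) : ℝ) / ((A.P : ℝ) * Z.G)
  let v : Fin A.d → ℝ := fun l => ρ * A.v l
  have hkv : ∀ i, dot (A.k i) v = ρ * dot (A.k i) A.v := fun i => by
    simp only [dot, v, mul_sum]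
    exact sum_congr rfl fun l _ => by ring
  have hβ : ∀ i e, dot (A.k i) (β e) * ((A.P : ℝ) * Z.G) = (J i e : ℝ) := fun i e => by
    simp only [dot, β, J]
    push_cast
    rw [sum_mul]
    exact sum_congr rfl fun l _ => by field_simp
  -- a swept interval, in units, has length at most `L i`
  have hlen : ∀ i, dot (A.k i) v / M.card * ((A.P : ℝ) * Z.G) ≤ Z.L i := by
    intro i
    have h1 := Z.hlen i
    have hqn : (A.q i : ℝ) * A.n i = A.P := by exact_mod_cast A.hqP i
    have e : dot (A.k i) v * ((A.P : ℝ) * Z.G) =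
        ρ * (A.c i ^ 2 * (A.n i : ℝ) * Z.G) := by
      rw [hkv, A.hc i, ← hqn]; ring
    have hγ1 : 0 ≤ 1 - γ := by linarith
    rw [div_mul_eq_mul_div, div_le_iff₀ hER, e, hρdef, sq, mul_assoc]
    calc (1 - γ) * ((1 - γ) * (A.c i ^ 2 * (A.n i : ℝ) * Z.G))
        ≤ (1 - γ) * (Z.num * Z.L i) := mul_le_mul_of_nonneg_left h1 hγ1
      _ = Z.L i * ((1 - γ) * Z.num) := by ring
      _ ≤ _ := mul_le_mul_of_nonneg_left hcard (Nat.cast_nonneg _)
  -- the cell position of a line
  have hcell : ∀ i e, ((hit A Z.G (jj e) i % Z.G : ℕ) : ℤ) = J i e % (Z.G : ℤ) := fun i e => by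
    rw [Int.natCast_mod, hit_eq A hG, Int.emod_emod_of_dvd]
    exact ⟨A.n i, by push_cast; ring⟩
  let ρA : Fin A.K → ℝ := fun i => ρold i
  have hρA : ∀ i, 1 ≤ ρA i ∧ ρA i ≤ 1 + ε := hρold
  have hdisj' : ∀ i i' e e' (b b' : ℕ) (σ σ' : Bool), b < A.q i → b' < A.q i' →
      (σ, i, e, b) ≠ (σ', i', e', b') →
      ∀ x ∈ Set.Ioo (0 : ℝ) (dot (A.k i) v / M.card), ∀ x' ∈ Set.Ioo (0 : ℝ) (dot (A.k i') v / M.card),
      ∀ z : ℤ, (if σ then (1 : ℝ) else -1) * ((b : ℝ) / A.q i + dot (A.k i) (β e) + x) -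
        (if σ' then (1 : ℝ) else -1) * ((b' : ℝ) / A.q i' + dot (A.k i') (β e') + x') ≠ z := by
    intro i i' e e' b b' σ σ' hb hb' hne x hx x' hx' z hz
    set U := (A.P : ℝ) * Z.G with hU
    -- in units
    have hX : ∀ (i : Fin A.K) (x : ℝ), x ∈ Set.Ioo (0 : ℝ) (dot (A.k i) v / M.card) →
        x * U ∈ Set.Ioo (0 : ℝ) (Z.L i) := fun i x hx =>
      ⟨mul_pos hx.1 hPG, lt_of_lt_of_le (mul_lt_mul_of_pos_right hx.2 hPG) (hlen i)⟩
    have hpos : ∀ (i : Fin A.K) (e : Fin M.card) (b : ℕ) (x : ℝ),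
        ((b : ℝ) / A.q i + dot (A.k i) (β e) + x) * U =
          ((b * (A.n i * Z.G : ℤ) + J i e : ℤ) : ℝ) + x * U := fun i e b x => by
      rw [add_mul, add_mul, hβ]
      push_cast
      have hq : (A.q i : ℝ) ≠ 0 := by
        have : A.q i * A.n i ≠ 0 := by rw [A.hqP i]; omega
        exact_mod_cast left_ne_zero_of_mul this
      have hqn : (A.q i : ℝ) * A.n i = A.P := by exact_mod_cast A.hqP i
      rw [hU, ← hqn]
      field_simp
    have hmain : (if σ then (1 : ℝ) else -1) * (((b * (A.n i * Z.G : ℤ) + J i e : ℤ) : ℝ) + x * U) -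
        (if σ' then (1 : ℝ) else -1) * (((b' * (A.n i' * Z.G : ℤ) + J i' e' : ℤ) : ℝ) + x' * U) =
        (z : ℝ) * U := by
      rw [← hpos, ← hpos, ← hz]; ring
    -- reduce modulo the cell
    set W := (b * (A.n i * Z.G : ℤ) + J i e) / (Z.G : ℤ) with hW
    set W' := (b' * (A.n i' * Z.G : ℤ) + J i' e') / (Z.G : ℤ) with hW'
    set y := hit A Z.G (jj e) i % Z.G with hy
    set y' := hit A Z.G (jj e') i' % Z.G with hy'
    have hdec : ∀ (i : Fin A.K) (e : Fin M.card) (b : ℕ),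
        (b * (A.n i * Z.G : ℤ) + J i e) = ((hit A Z.G (jj e) i % Z.G : ℕ) : ℤ) +
          (Z.G : ℤ) * ((b * (A.n i * Z.G : ℤ) + J i e) / (Z.G : ℤ)) := fun i e b => by
      rw [hcell]
      have := Int.emod_add_mul_ediv (b * (A.n i * Z.G : ℤ) + J i e) (Z.G : ℤ)
      rw [show (b * (A.n i * Z.G : ℤ) + J i e) % (Z.G : ℤ) = J i e % (Z.G : ℤ) by
        rw [← mul_assoc, add_comm, Int.add_mul_emod_self_right]] at this
      exact this.symm
    rw [hdec i e b, hdec i' e' b', ← hW, ← hW', ← hy, ← hy'] at hmain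
    by_cases hsame : (σ, i, y) = (σ', i', y')
    swap
    · refine Z.hdisj i i' y (hjS e i) y' (hjS e' i') σ σ' hsame (x * U) (hX i x hx) (x' * U)
        (hX i' x' hx') (z * A.P - (if σ then 1 else -1) * W + (if σ' then 1 else -1) * W') ?_
      push_cast at hmain ⊢
      rw [hU] at hmain ⊢
      cases σ <;> cases σ' <;> simp only [Bool.false_eq_true, if_false, if_true] at hmain ⊢ <;>
        linarith
    simp only [Prod.mk.injEq] at hsame
    obtain ⟨rfl, rfl, hyy⟩ := hsame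
    rw [← hyy] at hmain
    obtain ⟨t, ht⟩ : ∃ t : ℤ, x * U - x' * U = (Z.G : ℝ) * (t : ℝ) ∧
        W - W' + t = (if σ then z else -z) * A.P := by
      refine ⟨(if σ then z else -z) * A.P - (W - W'), ?_, by ring⟩
      push_cast at hmain ⊢
      rw [hU] at hmain ⊢
      cases σ <;> simp only [Bool.false_eq_true, if_false, if_true] at hmain ⊢ <;>
        linarith
    have ht0 : t = 0 := by
      have h1 := hX i x hx
      have h2 := hX i x' hx'
      have hL : (Z.L i : ℝ) ≤ Z.G := by exact_mod_cast Z.hL i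
      have hGR : (0 : ℝ) < Z.G := by exact_mod_cast hG
      have a1 : (Z.G : ℝ) * t < Z.G * 1 := by rw [← ht.1]; linarith [h1.2, h2.1]
      have a2 : (Z.G : ℝ) * (-1) < Z.G * t := by rw [← ht.1]; linarith [h1.1, h2.2]
      have b1 : (t : ℝ) < 1 := lt_of_mul_lt_mul_left a1 hGR.le
      have b2 : (-1 : ℝ) < t := lt_of_mul_lt_mul_left a2 hGR.le
      have c1 : t < 1 := by exact_mod_cast b1
      have c2 : -1 < t := by exact_mod_cast b2
      omega
    have hdiff : (b * (A.n i * Z.G : ℤ) + J i e) - (b' * (A.n i * Z.G : ℤ) + J i e') =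
        (if σ then z else -z) * ((A.n i * Z.G : ℕ) : ℤ) * A.q i := by
      rw [hdec i e b, hdec i e' b', ← hW, ← hW', ← hy, ← hy', ← hyy]
      have hqn : ((A.q i : ℤ)) * A.n i = A.P := by exact_mod_cast A.hqP i
      have h := ht.2
      rw [ht0, add_zero, ← hqn] at h
      push_cast
      linear_combination (Z.G : ℤ) * h
    have hee : e = e' := by
      refine hinj e e' i (Int.natCast_inj.1 ?_)
      rw [hit_eq A hG, hit_eq A hG, Int.emod_eq_emod_iff_emod_sub_eq_zero]
      apply Int.emod_eq_zero_of_dvd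
      refine ⟨(if σ then z else -z) * A.q i - (b - b'), ?_⟩
      push_cast at hdiff ⊢
      linear_combination hdiff
    subst hee
    have hnG : ((A.n i * Z.G : ℕ) : ℤ) ≠ 0 := by exact_mod_cast (Nat.mul_pos (hn0 i) hG).ne'
    have hbb : (b : ℤ) - b' = (if σ then z else -z) * A.q i := by
      push_cast at hdiff hnG
      apply mul_left_cancel₀ hnG
      linear_combination hdiff
    have hbq : b = b' := by
      have h1 : ((b : ℤ) - b').natAbs < ((A.q i : ℤ)).natAbs := by omega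
      have := Int.eq_zero_of_dvd_of_natAbs_lt_natAbs ⟨_, hbb.trans (mul_comm _ _)⟩ h1
      omega
    exact hne (by rw [hbq])

  refine ⟨{
    E := M.card
    hE := hE
    k' := k
    hk' := fun i => by
      rcases hσ i with h | h
      · exact Or.inl (funext fun l => by simp [k, h])
      · exact Or.inr (funext fun l => by simp [k, h])
    r := r
    q := q
    v := v
    β := β
    hq := fun i => by
      have h : Odd (A.q i * A.n i) := by
        rw [A.hqP i, A.hP]
        exact Finset.prod_induction A.n Odd (fun a b => Odd.mul) odd_one (fun j _ => (A.hn j).1)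
      exact (Nat.odd_mul.1 h).1
    hden := A.hden
    hv := fun i => by
      show 0 < dot (A.k i) v
      rw [hkv]; exact mul_pos hρ0 (A.hv i)
    hclose := fun i => by
      show |(A.q i : ℝ) * dot (A.k i) v - c₀ i ^ 2| ≤ η * c₀ i ^ 2
      have e : (A.q i : ℝ) * dot (A.k i) v = (1 - γ) ^ 2 * (c₀ i ^ 2 / ρA i) := by
        rw [hkv, hρdef, show (A.q i : ℝ) * ((1 - γ) ^ 2 * dot (A.k i) A.v) =
          (1 - γ) ^ 2 * ((A.q i : ℝ) * dot (A.k i) A.v) by ring, ← A.hc i]
        exact congrArg _ (hcρ i)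
      rw [e]
      have hb := hρA i
      have hx : c₀ i ^ 2 / ρA i ≤ c₀ i ^ 2 := div_le_self (sq_nonneg _) hb.1
      have hy : c₀ i ^ 2 * (1 - ε) ≤ c₀ i ^ 2 / ρA i := by
        rw [le_div_iff₀ (by linarith [hb.1])]
        have hε4 : ε ≤ 1 / 4 := by rw [hε]; linarith [min_le_right η 1]
        nlinarith [mul_le_mul_of_nonneg_left hb.2
          (mul_nonneg (sq_nonneg (c₀ i)) (show (0 : ℝ) ≤ 1 - ε by linarith)), sq_nonneg (c₀ i * ε)]
      have hγ8 : γ ≤ η / 8 := min_le_left _ _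
      have hεη : ε ≤ η / 4 := by rw [hε]; linarith [min_le_left η 1]
      have hc := sq_nonneg (c₀ i)
      have h0 : 0 ≤ c₀ i ^ 2 / ρA i := div_nonneg hc (by linarith [hb.1])
      rw [abs_le]
      constructor
      · have hg : 1 - η ≤ (1 - γ) ^ 2 * (1 - ε) := by
          nlinarith [mul_nonneg (mul_nonneg hγ.le hγ.le) hε0.le, mul_pos hγ hε0]
        nlinarith [mul_le_mul_of_nonneg_left hy (sq_nonneg (1 - γ)),
          mul_le_mul_of_nonneg_right hg hc]
      · nlinarith
    hhalf := ?_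
    hdisj := hdisj' }⟩
  intro i
  by_contra hlt
  push Not at hlt
  have hq0 : 0 < q i := Nat.pos_of_ne_zero fun h0 => by
    have := hqP i
    rw [h0, zero_mul] at this
    exact hPn.ne' (by rw [← this]; simp)
  set sl := dot (k i) v / M.card with hsl
  set a := dot (k i) (β ⟨0, hE⟩) with ha'
  obtain ⟨z, hz1, hz2⟩ : ∃ z : ℤ, 2 * a < z ∧ (z : ℝ) < 2 * a + 2 * sl := by
    refine ⟨⌊2 * a⌋ + 1, ?_, ?_⟩
    · push_cast; linarith [Int.lt_floor_add_one (2 * a)]
    · push_cast; linarith [Int.floor_le (2 * a)]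
  refine hdisj' i i ⟨0, hE⟩ ⟨0, hE⟩ 0 0 true false hq0 hq0 (by simp) ((z : ℝ) / 2 - a)
    ⟨by linarith, by linarith⟩ ((z : ℝ) / 2 - a) ⟨by linarith, by linarith⟩ z ?_
  simp
  ring

end Vale.Agent.P130.Simple
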