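import Vale.Agent.P130.Simple.Defs
import Vale.Agent.P130.Simple.BasePoint

/-! Exact identities against weights of low degree, and the choice of the base point. -/

namespace Vale.Agent.P130.Simple

open Finset MeasureTheory
open scoped BigOperators
open Vale.Agent.P110.Flat (ee dot)

private lemma ee_add' (x y : ℝ) : ee (x + y) = ee x * ee y := by
  unfold Vale.Agent.P110.Flat.ee
  rw [← Complex.exp_add]
  congr 1
  push_cast
  ring

private lemma ee_norm' (x : ℝ) : ‖ee x‖ = 1 := by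
  rw [Vale.Agent.P110.Flat.ee, Complex.norm_exp]
  simp

private lemma ee_conj' (x : ℝ) : starRingEnd ℂ (ee x) = ee (-x) := by
  unfold Vale.Agent.P110.Flat.ee
  rw [← Complex.exp_conj]
  congr 1
  simp [Complex.conj_ofReal, Complex.conj_I, map_mul, map_ofNat]

private lemma ee_int' (k : ℤ) : ee k = 1 := by
  rw [Vale.Agent.P110.Flat.ee, ← Complex.exp_int_mul_two_pi_mul_I k]
  congr 1
  push_cast
  ring

private lemma ee_continuous' : Continuous ee := by
  unfold Vale.Agent.P110.Flat.ee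
  fun_prop

private lemma ee_ne_one {k : ℤ} {H : ℕ} (hk : k ≠ 0) (hkH : |k| < H) :
    ee ((k : ℝ) / H) ≠ 1 := by
  intro h
  rw [Vale.Agent.P110.Flat.ee, Complex.exp_eq_one_iff] at h
  obtain ⟨n, hn⟩ := h
  have h1 : ((k : ℝ) / H : ℂ) * (2 * Real.pi * Complex.I) = (n : ℂ) * (2 * Real.pi * Complex.I) := by
    rw [← hn]; push_cast; ring
  have h2 := mul_right_cancel₀ Complex.two_pi_I_ne_zero h1
  have hHpos : (H : ℤ) ≠ 0 := by
    have := abs_nonneg k
    omega
  have h3 : k = n * H := by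
    have : (k : ℂ) = ((n * H : ℤ) : ℂ) := by
      push_cast
      rw [← h2]
      push_cast
      have : (H : ℂ) ≠ 0 := by exact_mod_cast hHpos
      field_simp
    exact_mod_cast this
  have hn0 : n ≠ 0 := fun hn0 => hk (by rw [h3, hn0, zero_mul])
  have : (H : ℤ) ≤ |k| := by
    rw [h3, abs_mul, abs_of_nonneg (by positivity : (0 : ℤ) ≤ (H : ℤ))]
    exact le_mul_of_one_le_left (by positivity) (Int.one_le_abs hn0)
  omega

private lemma periodic_ee_mul {H : ℕ} (k : ℤ) (hkH : |k| < H) {u : ℝ → ℝ}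
    (hper : Function.Periodic u 1) (hu : IntervalIntegrable u volume 0 1) :
    IntervalIntegrable (fun θ : ℝ => ee (k * θ) * (u (H * θ) : ℂ)) volume 0 1 ∧
      ∫ θ in (0 : ℝ)..1, ee (k * θ) * (u (H * θ) : ℂ) =
        if k = 0 then ((∫ x in (0 : ℝ)..1, u x : ℝ) : ℂ) else 0 := by
  have hH0 : 0 < H := by
    have := abs_nonneg k
    omega
  have hH : (0 : ℝ) < H := by exact_mod_cast hH0
  have huH : IntervalIntegrable u volume 0 (H : ℝ) := hper.intervalIntegrable₀ one_ne_zero hu 0 H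
  have huI : IntervalIntegrable (fun θ => u (H * θ)) volume 0 1 := by
    have h := huH.comp_mul_left (c := (H : ℝ))
    simpa [hH.ne'] using h
  have hI : IntervalIntegrable (fun θ : ℝ => ee (k * θ) * (u (H * θ) : ℂ)) volume 0 1 :=
    IntervalIntegrable.continuousOn_mul (by
      refine ⟨huI.1.ofReal, huI.2.ofReal⟩)
      ((ee_continuous'.comp (continuous_const.mul continuous_id)).continuousOn)
  refine ⟨hI, ?_⟩
  split_ifs with hk
  · subst hk
    have e : ∀ θ : ℝ, ee (((0 : ℤ) : ℝ) * θ) = 1 := fun θ => by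
      simp [Vale.Agent.P110.Flat.ee]
    simp only [e, one_mul]
    rw [intervalIntegral.integral_ofReal, Complex.ofReal_inj,
      intervalIntegral.integral_comp_mul_left u hH.ne']
    have h1 := hper.intervalIntegral_add_zsmul_eq (H : ℤ) 0 (fun a b =>
      hper.intervalIntegrable₀ one_ne_zero hu a b)
    simp only [zero_add, Int.cast_natCast, zsmul_eq_mul, mul_one] at h1
    rw [mul_zero, mul_one, h1, smul_eq_mul, ← mul_assoc, inv_mul_cancel₀ hH.ne', one_mul]
  · set F : ℝ → ℂ := fun θ => ee (k * θ) * (u (H * θ) : ℂ) with hF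
    have hFper : Function.Periodic F 1 := fun θ => by
      have h1 : u ((H : ℝ) * (θ + 1)) = u ((H : ℝ) * θ) := by
        have := hper.nat_mul H ((H : ℝ) * θ)
        rw [mul_add, mul_one]
        simpa using this
      simp only [hF, h1]
      rw [mul_add, ee_add', mul_one, ee_int', mul_one]
    have hshift : ∀ θ, F (θ + 1 / H) = ee ((k : ℝ) / H) * F θ := fun θ => by
      have h1 : u ((H : ℝ) * (θ + 1 / H)) = u ((H : ℝ) * θ) := by
        rw [mul_add, mul_one_div_cancel hH.ne']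
        exact hper _
      simp only [hF, h1]
      rw [show (k : ℝ) * (θ + 1 / H) = k / H + k * θ by ring, ee_add', mul_assoc]
    have h2 : ∫ θ in (0 : ℝ)..1, F (θ + 1 / H) = ∫ θ in (0 : ℝ)..1, F θ := by
      rw [intervalIntegral.integral_comp_add_right]
      rw [show (1 : ℝ) + 1 / H = (0 + 1 / H) + 1 by ring, hFper.intervalIntegral_add_eq _ 0,
        zero_add]
    simp only [hshift, intervalIntegral.integral_const_mul] at h2
    have : (ee ((k : ℝ) / H) - 1) * ∫ θ in (0 : ℝ)..1, F θ = 0 := by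
      rw [sub_mul, one_mul, h2, sub_self]
    exact (mul_eq_zero.1 this).resolve_left (sub_ne_zero.2 (ee_ne_one hk hkH))

private lemma norm_sq_sum {ι : Type*} (s : Finset ι) (f : ι → ℂ) :
    ((‖∑ i ∈ s, f i‖ ^ 2 : ℝ) : ℂ) = ∑ i ∈ s, ∑ j ∈ s, f i * starRingEnd ℂ (f j) := by
  rw [← sum_mul_sum, ← map_sum, Complex.mul_conj']
  push_cast
  rfl

/-- Parseval against a periodic function of a faster variable. -/
theorem parseval_periodic {ι : Type*} [DecidableEq ι] (s : Finset ι) (c : ι → ℂ) (n : ι → ℤ) {H : ℕ}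
    (hn : Set.InjOn n s) (hd : ∀ i ∈ s, ∀ j ∈ s, |n i - n j| < H) {u : ℝ → ℝ}
    (hper : Function.Periodic u 1) (hu : IntervalIntegrable u volume 0 1) :
    ∫ θ in (0 : ℝ)..1, ‖∑ i ∈ s, c i * ee (n i * θ)‖ ^ 2 * u (H * θ) =
      (∑ i ∈ s, ‖c i‖ ^ 2) * ∫ x in (0 : ℝ)..1, u x := by
  apply Complex.ofReal_injective
  rw [← intervalIntegral.integral_ofReal]
  have e : ∀ θ : ℝ, ((‖∑ i ∈ s, c i * ee (n i * θ)‖ ^ 2 * u (H * θ) : ℝ) : ℂ) =
      ∑ i ∈ s, ∑ j ∈ s, c i * starRingEnd ℂ (c j) *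
        (ee (((n i - n j : ℤ) : ℝ) * θ) * (u (H * θ) : ℂ)) := fun θ => by
    rw [Complex.ofReal_mul, norm_sq_sum, sum_mul]
    refine sum_congr rfl fun i _ => ?_
    rw [sum_mul]
    refine sum_congr rfl fun j _ => ?_
    rw [map_mul, ee_conj', show (((n i - n j : ℤ) : ℝ) * θ) = n i * θ + -(n j * θ) by
      push_cast; ring, ee_add']
    ring
  simp only [e]
  have hterm : ∀ i ∈ s, IntervalIntegrable (fun θ : ℝ => ∑ j ∈ s, c i * starRingEnd ℂ (c j) *
      (ee (((n i - n j : ℤ) : ℝ) * θ) * (u (H * θ) : ℂ))) volume 0 1 := fun i hi => by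
    have h := IntervalIntegrable.sum s fun j hj =>
      ((periodic_ee_mul _ (hd i hi j hj) hper hu).1).const_mul (c i * starRingEnd ℂ (c j))
    simpa only [Finset.sum_fn] using h
  rw [intervalIntegral.integral_finsetSum hterm, Complex.ofReal_mul,
    Complex.ofReal_sum, sum_mul]
  · refine sum_congr rfl fun i hi => ?_
    rw [intervalIntegral.integral_finsetSum fun j hj =>
      ((periodic_ee_mul _ (hd i hi j hj) hper hu).1).const_mul _, sum_eq_single i]
    · rw [intervalIntegral.integral_const_mul, (periodic_ee_mul _ (hd i hi i hi) hper hu).2,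
        sub_self, if_pos rfl, Complex.mul_conj']
      push_cast
      rfl
    · intro j hj hji
      rw [intervalIntegral.integral_const_mul, (periodic_ee_mul _ (hd i hi j hj) hper hu).2,
        if_neg fun h => hji (hn hj hi (sub_eq_zero.1 h).symm), mul_zero]
    · exact fun h => absurd hi h

/-- Parseval for a finite exponential sum. -/
theorem parseval_sum {ι : Type*} [DecidableEq ι] (s : Finset ι) (c : ι → ℂ) (n : ι → ℤ)
    (hn : Set.InjOn n s) :
    ∫ θ in (0 : ℝ)..1, ‖∑ i ∈ s, c i * ee (n i * θ)‖ ^ 2 = ∑ i ∈ s, ‖c i‖ ^ 2 := by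
  have hd : ∀ i ∈ s, ∀ j ∈ s, |n i - n j| < (((2 * ∑ l ∈ s, (n l).natAbs) + 1 : ℕ) : ℤ) :=
    fun i hi j hj => by
    have h1 : (n i).natAbs ≤ ∑ l ∈ s, (n l).natAbs :=
      single_le_sum (f := fun l => (n l).natAbs) (fun _ _ => Nat.zero_le _) hi
    have h2 : (n j).natAbs ≤ ∑ l ∈ s, (n l).natAbs :=
      single_le_sum (f := fun l => (n l).natAbs) (fun _ _ => Nat.zero_le _) hj
    generalize (∑ l ∈ s, (n l).natAbs) = S at h1 h2 ⊢
    rw [abs_lt]
    constructor <;> push_cast <;> omega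
  have h := parseval_periodic s c n (u := fun _ => (1 : ℝ)) hn hd (fun _ => rfl)
    intervalIntegrable_const
  simpa using h

theorem weight_periodic {Dg H : ℕ} (hH : Dg < H) (a : ℕ → ℂ) {u : ℝ → ℝ}
    (hper : Function.Periodic u 1) (hu : IntervalIntegrable u volume 0 1) :
    ∫ θ in (0 : ℝ)..1, ‖tpoly Dg a θ‖ ^ 2 * u (H * θ) =
      (∫ θ in (0 : ℝ)..1, ‖tpoly Dg a θ‖ ^ 2) * ∫ x in (0 : ℝ)..1, u x := by
  have e : ∀ θ, tpoly Dg a θ = ∑ t ∈ range (Dg + 1), a t * ee (((t : ℤ) : ℝ) * θ) := fun θ => by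
    simp [tpoly]
  simp only [e]
  rw [parseval_periodic (range (Dg + 1)) a (fun t => (t : ℤ)) (fun x _ y _ h => by simpa using h)
    (fun i hi j hj => by
      rw [mem_range] at hi hj
      rw [abs_lt]
      constructor <;> omega) hper hu,
    parseval_sum (range (Dg + 1)) a (fun t => (t : ℤ)) fun x _ y _ h => by simpa using h]

theorem weight_stage {Dg h m : ℕ} (hh : Dg < h) (hm : 0 < m) (a : ℕ → ℂ) (w : ℕ → ℕ) :
    ∫ θ in (0 : ℝ)..1, ‖tpoly Dg a θ‖ ^ 2 * ‖stagePoly m h w θ‖ ^ 2 =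
      ∫ θ in (0 : ℝ)..1, ‖tpoly Dg a θ‖ ^ 2 := by
  have hmono : ∀ i j, i < j → pos h w i + h ≤ pos h w j := by
    intro i j hij
    have h1 : pos h w (i + 1) ≤ pos h w j :=
      sum_le_sum_of_subset (range_subset_range.2 (by omega))
    have h2 : pos h w (i + 1) = pos h w i + (h + w i) := sum_range_succ _ _
    omega
  have hinj : Set.InjOn (fun p : ℕ × ℕ => ((p.1 + pos h w p.2 : ℕ) : ℤ))
      ↑(range (Dg + 1) ×ˢ range m) := by
    intro p hp q hq hpq
    simp only [coe_product, Set.mem_prod, coe_range, Set.mem_Iio] at hp hq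
    simp only [Nat.cast_inj] at hpq
    rcases lt_trichotomy p.2 q.2 with hlt | heq | hlt
    · have := hmono _ _ hlt; omega
    · exact Prod.ext (by rw [heq] at hpq; omega) heq
    · have := hmono _ _ hlt; omega
  have e : ∀ θ, ‖tpoly Dg a θ‖ ^ 2 * ‖stagePoly m h w θ‖ ^ 2 =
      ‖∑ p ∈ range (Dg + 1) ×ˢ range m, (a p.1 * ((Real.sqrt m)⁻¹ : ℝ)) *
        ee ((((p.1 + pos h w p.2 : ℕ) : ℤ) : ℝ) * θ)‖ ^ 2 := fun θ => by
    rw [← mul_pow, ← norm_mul, tpoly, stagePoly, mul_left_comm, sum_mul_sum, mul_sum,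
      sum_product]
    refine congrArg (‖·‖ ^ 2) (sum_congr rfl fun t _ => ?_)
    rw [mul_sum]
    refine sum_congr rfl fun j _ => ?_
    push_cast
    rw [add_mul, ee_add']
    ring
  simp only [e]
  rw [parseval_sum _ _ _ hinj, sum_product]
  have e2 : ∀ θ, tpoly Dg a θ = ∑ t ∈ range (Dg + 1), a t * ee (((t : ℤ) : ℝ) * θ) := fun θ => by
    simp [tpoly]
  simp only [e2]
  rw [parseval_sum (range (Dg + 1)) a (fun t => (t : ℤ)) fun x _ y _ h => by simpa using h]
  refine sum_congr rfl fun t _ => ?_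
  have hm' : (0 : ℝ) < m := by exact_mod_cast hm
  simp only [norm_mul, mul_pow, Complex.norm_real, Real.norm_eq_abs, sq_abs, inv_pow,
    Real.sq_sqrt hm'.le, sum_const, card_range, nsmul_eq_mul]
  field_simp

theorem stagePoly_spacers {R h m : ℕ} (d : ℕ → ℕ) (hd : ∀ j, d j ≤ R) (θ : ℝ) :
    ‖stagePoly m h (fun j => if j + 1 < m then R + d (j + 1) - d j else 0) θ‖ =
      ‖((Real.sqrt m)⁻¹ : ℝ) *
        ∑ j ∈ range m, ee (θ * (d j : ℝ)) * ee ((j : ℝ) * (((h + R : ℕ) : ℝ) * θ))‖ := by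
  have hpos : ∀ j, j < m →
      (pos h (fun j => if j + 1 < m then R + d (j + 1) - d j else 0) j : ℝ) =
        (j : ℝ) * ((h + R : ℕ) : ℝ) + d j - d 0 := by
    intro j
    induction j with
    | zero => intro _; simp [pos]
    | succ j ih =>
      intro hj
      have h1 := hd j
      rw [show pos h (fun j => if j + 1 < m then R + d (j + 1) - d j else 0) (j + 1) =
        pos h (fun j => if j + 1 < m then R + d (j + 1) - d j else 0) j +
          (h + if j + 1 < m then R + d (j + 1) - d j else 0) from sum_range_succ _ _, if_pos hj]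
      push_cast [Nat.cast_sub (show d j ≤ R + d (j + 1) by omega)]
      rw [ih (by omega)]
      push_cast
      ring
  rw [stagePoly, norm_mul, norm_mul]
  congr 1
  rw [show ∑ j ∈ range m,
      ee ((pos h (fun j => if j + 1 < m then R + d (j + 1) - d j else 0) j : ℝ) * θ) =
      ee (-((d 0 : ℝ) * θ)) *
        ∑ j ∈ range m, ee (θ * (d j : ℝ)) * ee ((j : ℝ) * (((h + R : ℕ) : ℝ) * θ)) from ?_,
    norm_mul, ee_norm', one_mul]
  rw [mul_sum]
  refine sum_congr rfl fun j hj => ?_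
  rw [hpos j (mem_range.1 hj), ← ee_add', ← ee_add']
  congr 1
  ring

/-- The part of the stage outside the frequencies `F`. -/
noncomputable def tailPart {d : ℕ} (D : (Fin d → ℝ) → ℕ) (F : Finset (Fin d → ℤ)) (m H : ℕ)
    (ψ : ℕ → Fin d → ℝ) (φ₀ : Fin d → ℝ) (θ : ℝ) : ℂ :=
  ((Real.sqrt m)⁻¹ : ℝ) * ∑ j ∈ range m,
    (ee (θ * (D (fun l => φ₀ l + ψ j l) : ℝ)) -
      ∑ k ∈ F, coef D θ k * ee (dot k fun l => φ₀ l + ψ j l)) * ee ((j : ℝ) * ((H : ℝ) * θ))

/-- The energy outside the frequencies `F`. -/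
noncomputable def missing {d : ℕ} (D : (Fin d → ℝ) → ℕ) (F : Finset (Fin d → ℤ)) (θ : ℝ) : ℝ :=
  1 - ∑ k ∈ F, ‖coef D θ k‖ ^ 2

theorem missing_mem {d : ℕ} {D : (Fin d → ℝ) → ℕ} (hD : Measurable D) (F : Finset (Fin d → ℤ))
    (θ : ℝ) : 0 ≤ missing D F θ ∧ missing D F θ ≤ 1 := by
  exact Base.missing_nonneg hD F θ

theorem exists_base {d R m H Dg N : ℕ} {D : (Fin d → ℝ) → ℕ} (hD : Measurable D)
    (hR : ∀ φ, D φ ≤ R) (hper : ∀ (φ : Fin d → ℝ) (z : Fin d → ℤ), D (fun l => φ l + (z l : ℝ)) = D φ)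
    (F : Finset (Fin d → ℤ)) (hm : 0 < m) (hH : Dg + R < H) (a : Fin N → ℕ → ℂ)
    (ψ : ℕ → Fin d → ℝ) :
    ∃ φ₀ : Fin d → ℝ,
      ∑ i, ∫ θ in (0 : ℝ)..1, ‖tpoly Dg (a i) θ‖ ^ 2 * ‖tailPart D F m H ψ φ₀ θ‖ ^ 2 ≤
        ∑ i, ∫ θ in (0 : ℝ)..1, ‖tpoly Dg (a i) θ‖ ^ 2 * missing D F θ := by
  exact Base.exists_good hD hR hper F hm hH a ψ

end Vale.Agent.P130.Simple
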