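import Vale.Agent.P130.Simple.Waiting
import Vale.Agent.P130.Simple.Packing
import Vale.Agent.P130.Simple.Lines
import Vale.Agent.P130.Simple.Weights

/-! Flat stages against weights of low degree. -/

namespace Vale.Agent.P130.Simple

open Finset MeasureTheory
open scoped BigOperators
open Vale.Agent.P110.Flat (ee dot)

private lemma eeF_norm (x : ℝ) : ‖ee x‖ = 1 := by
  rw [Vale.Agent.P110.Flat.ee, Complex.norm_exp]
  simp

private lemma eeF_continuous : Continuous ee := by
  unfold Vale.Agent.P110.Flat.ee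
  fun_prop

private lemma eeF_int (k : ℤ) : ee k = 1 := by
  rw [Vale.Agent.P110.Flat.ee, ← Complex.exp_int_mul_two_pi_mul_I k]
  congr 1
  push_cast
  ring

private lemma volume_cube (d : ℕ) : volume (cube d) = 1 := by
  rw [cube, volume_pi_pi]
  simp

private lemma norm_coef_le {d : ℕ} (D : (Fin d → ℝ) → ℕ) (θ : ℝ) (k : Fin d → ℤ) :
    ‖coef D θ k‖ ≤ 1 := by
  refine (norm_setIntegral_le_of_norm_le_const (C := 1) (by rw [volume_cube]; simp)
    fun φ _ => (eeF_norm _).le).trans ?_
  simp [Measure.real, volume_cube]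

private lemma continuous_coef {d : ℕ} {D : (Fin d → ℝ) → ℕ} (hD : Measurable D) (k : Fin d → ℤ) :
    Continuous fun θ => coef D θ k := by
  have : IsFiniteMeasure (volume.restrict (cube d) : Measure (Fin d → ℝ)) :=
    ⟨by rw [Measure.restrict_apply_univ, volume_cube]; simp⟩
  have hd : Continuous (dot k) := by unfold Vale.Agent.P110.Flat.dot; fun_prop
  refine continuous_of_dominated (bound := fun _ => 1) (fun θ => ?_)
    (fun θ => Filter.Eventually.of_forall fun φ => (eeF_norm _).le) (integrable_const _)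
    (Filter.Eventually.of_forall fun φ => eeF_continuous.comp (by fun_prop))
  exact (eeF_continuous.measurable.comp
    ((measurable_const.mul ((measurable_of_countable _).comp hD)).sub hd.measurable)
    ).aestronglyMeasurable

private lemma continuous_tailPart {d : ℕ} {D : (Fin d → ℝ) → ℕ} (hD : Measurable D)
    (F : Finset (Fin d → ℤ)) (m H : ℕ) (ψ : ℕ → Fin d → ℝ) (φ₀ : Fin d → ℝ) :
    Continuous fun θ => tailPart D F m H ψ φ₀ θ := by
  unfold tailPart
  refine continuous_const.mul (continuous_finsetSum _ fun j _ => Continuous.mul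
    (Continuous.sub (eeF_continuous.comp (by fun_prop))
      (continuous_finsetSum _ fun k _ => (continuous_coef hD k).mul continuous_const))
    (eeF_continuous.comp (by fun_prop)))

private lemma continuous_tpoly (Dg : ℕ) (a : ℕ → ℂ) : Continuous fun θ => tpoly Dg a θ :=
  continuous_finsetSum _ fun _ _ => continuous_const.mul (eeF_continuous.comp (by fun_prop))

private lemma continuous_stagePoly (m h : ℕ) (w : ℕ → ℕ) :
    Continuous fun θ => stagePoly m h w θ :=
  continuous_const.mul (continuous_finsetSum _ fun _ _ => eeF_continuous.comp (by fun_prop))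

private lemma tpoly_periodic (Dg : ℕ) (a : ℕ → ℂ) : Function.Periodic (tpoly Dg a) 1 := fun θ =>
  sum_congr rfl fun t _ => by
    congr 1
    rw [mul_add, mul_one, Vale.Agent.P110.Flat.ee, Vale.Agent.P110.Flat.ee,
      Complex.exp_eq_exp_iff_exists_int]
    exact ⟨(t : ℤ), by push_cast; ring⟩

/-- The edge at `1` and the edge at `0` together are a symmetric interval around `0`. -/
private lemma edges_eq (Dg : ℕ) (a : ℕ → ℂ) (η : ℝ) :
    (∫ θ in (0 : ℝ)..η, ‖tpoly Dg a θ‖ ^ 2) + ∫ θ in (1 - η)..1, ‖tpoly Dg a θ‖ ^ 2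
      = ∫ θ in (-η)..η, ‖tpoly Dg a θ‖ ^ 2 := by
  have hc : Continuous fun θ => ‖tpoly Dg a θ‖ ^ 2 := (continuous_tpoly Dg a).norm.pow 2
  rw [← intervalIntegral.integral_add_adjacent_intervals (hc.intervalIntegrable (-η) 0)
    (hc.intervalIntegrable 0 η), add_comm]
  congr 1
  have := intervalIntegral.integral_comp_add_right (fun θ => ‖tpoly Dg a θ‖ ^ 2) (1 : ℝ)
    (a := -η) (b := 0)
  rw [zero_add, show -η + 1 = 1 - η by ring] at this
  rw [← this]
  simp only [tpoly_periodic Dg a _]

/-- An integral over the unit interval, bounded separately at the edges and in the middle. -/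
private lemma integral_edge_middle {f G g : ℝ → ℝ} {η : ℝ} (hη : 0 ≤ η) (hη' : η ≤ 1 / 2)
    (hf : Continuous f) (hG : Continuous G) (hg : IntervalIntegrable g volume 0 1)
    (hg0 : ∀ θ, 0 ≤ g θ) (hfG : ∀ θ, f θ ≤ G θ) (hfg : ∀ θ, η ≤ θ → θ ≤ 1 - η → f θ ≤ g θ) :
    ∫ θ in (0 : ℝ)..1, f θ
      ≤ (∫ θ in (0 : ℝ)..η, G θ) + (∫ θ in (1 - η)..1, G θ) + ∫ θ in (0 : ℝ)..1, g θ := by
  rw [← intervalIntegral.integral_add_adjacent_intervals (hf.intervalIntegrable 0 η)
      (hf.intervalIntegrable η 1),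
    ← intervalIntegral.integral_add_adjacent_intervals (hf.intervalIntegrable η (1 - η))
      (hf.intervalIntegrable (1 - η) 1)]
  have h1 : ∫ θ in (0 : ℝ)..η, f θ ≤ ∫ θ in (0 : ℝ)..η, G θ :=
    intervalIntegral.integral_mono hη (hf.intervalIntegrable _ _) (hG.intervalIntegrable _ _) hfG
  have h2 : ∫ θ in (1 - η)..1, f θ ≤ ∫ θ in (1 - η)..1, G θ :=
    intervalIntegral.integral_mono (by linarith) (hf.intervalIntegrable _ _)
      (hG.intervalIntegrable _ _) hfG
  have h3 : ∫ θ in η..(1 - η), f θ ≤ ∫ θ in η..(1 - η), g θ := by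
    refine intervalIntegral.integral_mono_on (by linarith) (hf.intervalIntegrable _ _)
      (hg.mono_set ?_) fun θ hθ => hfg θ hθ.1 hθ.2
    rw [Set.uIcc_of_le (by linarith), Set.uIcc_of_le zero_le_one]
    exact Set.Icc_subset_Icc hη (by linarith)
  have h4 : ∫ θ in η..(1 - η), g θ ≤ ∫ θ in (0 : ℝ)..1, g θ :=
    intervalIntegral.integral_mono_interval hη (by linarith) (by linarith)
      (Filter.Eventually.of_forall hg0) hg
  linarith

variable {d K : ℕ} {k : Fin K → Fin d → ℤ} {c : Fin K → ℝ} {η : ℝ}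

/-- The indicator of one line of a packing. -/
private noncomputable def lineInd (P : Pack k c η) (i : Fin K) (σ : Bool) (e : Fin P.E) (b : ℕ)
    (x : ℝ) : ℝ :=
  if Int.fract (-((if σ then (1 : ℝ) else -1) * x + (b : ℝ) / P.q i + dot (P.k' i) (P.β e)))
      < dot (P.k' i) P.v / P.E then 1 else 0

private lemma lineInd_integral (P : Pack k c η) (i : Fin K) (σ : Bool) (e : Fin P.E) (b : ℕ) :
    (Function.Periodic (lineInd P i σ e b) 1) ∧
    (∀ a a' : ℝ, IntervalIntegrable (lineInd P i σ e b) volume a a') ∧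
      ∫ x in (0 : ℝ)..1, lineInd P i σ e b x = dot (P.k' i) P.v / P.E := by
  set s := dot (P.k' i) P.v / P.E
  have hs0 : 0 < s := div_pos (P.hv i) (by exact_mod_cast P.hE)
  have hs1 : s ≤ 1 := (P.hhalf i).trans (by norm_num)
  set g : ℝ → ℝ := fun y => if Int.fract y < s then 1 else 0 with hg
  have hgm : Measurable g :=
    Measurable.ite (measurableSet_lt measurable_fract measurable_const) measurable_const
      measurable_const
  have hgper : Function.Periodic g 1 := fun y => by simp [hg, Int.fract_add_one]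
  have hgint : ∀ a a', IntervalIntegrable g volume a a' := fun a a' =>
    IntervalIntegrable.mono_fun' (g := fun _ => (1 : ℝ)) intervalIntegrable_const
      hgm.aestronglyMeasurable (Filter.Eventually.of_forall fun y => by
        simp only [hg]; split <;> simp)
  have hgval : ∫ y in (0 : ℝ)..1, g y = s := by
    rw [← intervalIntegral.integral_add_adjacent_intervals (hgint 0 s) (hgint s 1)]
    have e1 : ∫ y in (0 : ℝ)..s, g y = ∫ y in (0 : ℝ)..s, (1 : ℝ) := by
      refine intervalIntegral.integral_congr_ae ?_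
      filter_upwards [compl_mem_ae_iff.2 (measure_singleton (μ := volume) s)] with y hy hys
      rw [Set.uIoc_of_le hs0.le] at hys
      have hlt : y < s := lt_of_le_of_ne hys.2 hy
      simp only [hg]
      rw [Int.fract_eq_self.2 ⟨hys.1.le, by linarith⟩, if_pos hlt]
    have e2 : ∫ y in s..1, g y = ∫ y in s..1, (0 : ℝ) := by
      refine intervalIntegral.integral_congr_ae ?_
      filter_upwards [compl_mem_ae_iff.2 (measure_singleton (μ := volume) (1 : ℝ))] with y hy hys
      rw [Set.uIoc_of_le hs1] at hys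
      have hlt : y < 1 := lt_of_le_of_ne hys.2 hy
      simp only [hg]
      rw [Int.fract_eq_self.2 ⟨by linarith [hys.1], hlt⟩, if_neg (not_lt.2 hys.1.le)]
    rw [e1, e2]
    simp
  set τ := (b : ℝ) / P.q i + dot (P.k' i) (P.β e)
  have hrw : lineInd P i σ e b = fun x => g ((if σ then (-1 : ℝ) else 1) * x + -τ) := by
    funext x
    simp only [lineInd, hg, τ]
    cases σ <;> simp <;> ring_nf <;> simp [s, div_eq_mul_inv]
  have hsh : ∀ t, ∫ y in t..(t + 1), g y = s := fun t => by
    rw [hgper.intervalIntegral_add_eq t 0, zero_add, hgval]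
  refine ⟨?_, fun a a' => ?_, ?_⟩
  · intro x
    rw [hrw]
    cases σ
    · simp only [Bool.false_eq_true, if_false, one_mul]
      rw [show x + 1 + -τ = x + -τ + 1 by ring, hgper]
    · simp only [if_true]
      rw [show (-1 : ℝ) * (x + 1) + -τ = -1 * x + -τ - 1 by ring, hgper.sub_eq]
  · rw [hrw]
    refine IntervalIntegrable.mono_fun' (g := fun _ => (1 : ℝ)) intervalIntegrable_const
      (hgm.comp (by fun_prop)).aestronglyMeasurable (Filter.Eventually.of_forall fun y => by
        simp only [hg]; split_ifs <;> simp)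
  · rw [hrw]
    cases σ
    · simp only [Bool.false_eq_true, if_false, one_mul]
      rw [intervalIntegral.integral_comp_add_right g (-τ)]
      rw [zero_add, show (1 : ℝ) + -τ = -τ + 1 by ring, hsh]
    · simp only [if_true]
      have := intervalIntegral.integral_comp_sub_left g (-τ) (a := (0 : ℝ)) (b := 1)
      rw [show (fun x : ℝ => g (-1 * x + -τ)) = fun x => g (-τ - x) by funext x; ring_nf, this,
        sub_zero, show -τ - 1 = -τ + -1 by ring]
      have h := hsh (-τ + -1)
      rwa [show -τ + -1 + 1 = -τ by ring] at h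

/-- The lines of a packing cover all but the missing mass, and are almost surely disjoint. -/
private lemma exists_gap (P : Pack k c η) (hlow : 1 - η ≤ 2 * ∑ i, c i ^ 2) (hη : 0 ≤ η)
    (hupp : 2 * ∑ i, c i ^ 2 ≤ 1) :
    ∃ u : ℝ → ℝ, Function.Periodic u 1 ∧ IntervalIntegrable u volume 0 1 ∧ (∀ x, 0 ≤ u x) ∧
      ∫ x in (0 : ℝ)..1, u x ≤ 2 * η ∧
      ∀ x, u x < 1 → ∃ (i : Fin K) (σ : Bool) (e : Fin P.E) (b : ℕ),
        b < P.q i ∧ lineInd P i σ e b x = 1 := by
  classical
  set Lset : Finset ((i : Fin K) × Bool × Fin P.E × ℕ) := univ.sigma fun i =>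
    (univ : Finset Bool) ×ˢ ((univ : Finset (Fin P.E)) ×ˢ range (P.q i)) with hL
  set f : ((i : Fin K) × Bool × Fin P.E × ℕ) → ℝ → ℝ :=
    fun l => lineInd P l.1 l.2.1 l.2.2.1 l.2.2.2 with hf
  set cov : ℝ → ℝ := fun x => ∑ l ∈ Lset, f l x with hcov
  have hint : IntervalIntegrable cov volume 0 1 := by
    simpa [hcov, Finset.sum_fn] using
      IntervalIntegrable.sum Lset fun l _ => ((lineInd_integral P l.1 l.2.1 l.2.2.1 l.2.2.2).2.1 0 1)
  have htot : ∫ x in (0 : ℝ)..1, cov x = ∑ i, 2 * ((P.q i : ℝ) * dot (P.k' i) P.v) := by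
    rw [intervalIntegral.integral_finsetSum fun l _ =>
      (lineInd_integral P l.1 l.2.1 l.2.2.1 l.2.2.2).2.1 0 1]
    simp only [hf, (lineInd_integral P _ _ _ _).2.2]
    rw [hL, Finset.sum_sigma]
    refine sum_congr rfl fun i _ => ?_
    have : (P.E : ℝ) ≠ 0 := by exact_mod_cast P.hE.ne'
    simp only [Finset.sum_const, card_product, card_univ, Fintype.card_bool, Fintype.card_fin,
      card_range, nsmul_eq_mul]
    push_cast
    field_simp
  -- almost sure disjointness
  set bad : Set ℝ := ⋃ l ∈ Lset, Set.range fun z : ℤ => (if l.2.1 then (1 : ℝ) else -1) *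
    ((z : ℝ) - ((l.2.2.2 : ℝ) / P.q l.1 + dot (P.k' l.1) (P.β l.2.2.1))) with hbad
  have hbad0 : volume bad = 0 := by
    refine Set.Countable.measure_zero ?_ _
    exact Set.Countable.biUnion Lset.countable_toSet fun l _ => Set.countable_range _
  have hle : ∀ x, x ∉ bad → cov x ≤ 1 := by
    intro x hx
    have h01 : ∀ l, f l x = 0 ∨ f l x = 1 := fun l => by
      simp only [hf, lineInd]; exact (ite_eq_or_eq _ _ _).symm
    by_contra hgt
    push_neg at hgt
    obtain ⟨l, hl, l', hl', hne, h1, h2⟩ : ∃ l ∈ Lset, ∃ l' ∈ Lset, l ≠ l' ∧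
        f l x = 1 ∧ f l' x = 1 := by
      by_contra hno
      push_neg at hno
      rcases (Lset.filter fun l => f l x = 1).eq_empty_or_nonempty with h | ⟨l, hl⟩
      · have : cov x = 0 := sum_eq_zero fun l hl => (h01 l).resolve_right fun h1 => by
          have := Finset.eq_empty_iff_forall_notMem.1 h l
          exact this (mem_filter.2 ⟨hl, h1⟩)
        linarith
      · have : cov x = f l x := sum_eq_single_of_mem l (mem_filter.1 hl).1 fun l' hl' hne =>
          (h01 l').resolve_right (hno l (mem_filter.1 hl).1 l' hl' hne.symm (mem_filter.1 hl).2)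
        rcases h01 l with h | h <;> linarith
    obtain ⟨i, σ, e, b⟩ := l
    obtain ⟨i', σ', e', b'⟩ := l'
    simp only [hL, mem_sigma, mem_univ, mem_product, mem_range, true_and] at hl hl'
    have key : ∀ (i : Fin K) (σ : Bool) (e : Fin P.E) (b : ℕ), b < P.q i →
        lineInd P i σ e b x = 1 → ∃ (z : ℤ) (ξ : ℝ), ξ ∈ Set.Ioo (0 : ℝ) (dot (P.k' i) P.v / P.E) ∧
          (if σ then (1 : ℝ) else -1) * ((b : ℝ) / P.q i + dot (P.k' i) (P.β e) + ξ) = -x + z := by
      intro i σ e b hb h
      simp only [lineInd, ite_eq_left_iff, zero_ne_one, imp_false, not_not] at h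
      set sg : ℝ := if σ then (1 : ℝ) else -1
      set y := -(sg * x + (b : ℝ) / P.q i + dot (P.k' i) (P.β e)) with hy
      have hsg : sg * sg = 1 := by simp only [sg]; cases σ <;> simp
      have hne : Int.fract y ≠ 0 := by
        intro h0
        refine hx ?_
        have hfl : y = (⌊y⌋ : ℝ) := by linarith [Int.self_sub_floor y]
        simp only [hbad, Set.mem_iUnion, Set.mem_range]
        refine ⟨⟨i, σ, e, b⟩, by simp [hL, hb], -⌊y⌋, ?_⟩
        show sg * (((-⌊y⌋ : ℤ) : ℝ) - ((b : ℝ) / P.q i + dot (P.k' i) (P.β e))) = x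
        push_cast
        rw [← hfl, hy, show sg * (- -(sg * x + (b : ℝ) / P.q i + dot (P.k' i) (P.β e)) -
          ((b : ℝ) / P.q i + dot (P.k' i) (P.β e))) = sg * sg * x by ring, hsg, one_mul]
      obtain ⟨zs, hzs⟩ : ∃ zs : ℤ, (zs : ℝ) = -(sg * ⌊y⌋) := by
        cases σ
        · exact ⟨⌊y⌋, by simp [sg]⟩
        · exact ⟨-⌊y⌋, by simp [sg]⟩
      refine ⟨zs, Int.fract y, ⟨lt_of_le_of_ne (Int.fract_nonneg y) (Ne.symm hne), h⟩, ?_⟩
      rw [hzs, show Int.fract y = y - ⌊y⌋ from rfl, hy,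
        show sg * ((b : ℝ) / P.q i + dot (P.k' i) (P.β e) +
          (-(sg * x + (b : ℝ) / P.q i + dot (P.k' i) (P.β e)) - ⌊y⌋))
          = -(sg * sg * x) + -(sg * ⌊y⌋) by rw [hy]; ring, hsg, one_mul, ← hy]
    obtain ⟨z, ξ, hξ, he⟩ := key i σ e b hl h1
    obtain ⟨z', ξ', hξ', he'⟩ := key i' σ' e' b' hl' h2
    refine P.hdisj i i' e e' b b' σ σ' hl hl' (fun h => hne ?_) ξ hξ ξ' hξ' (z - z') ?_
    · simp only [Prod.mk.injEq] at h
      obtain ⟨rfl, rfl, rfl, rfl⟩ := h
      rfl
    · rw [he, he']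
      push_cast
      ring
  refine ⟨fun x => max (1 - cov x) 0, ?_, ?_, fun x => le_max_right _ _, ?_, ?_⟩
  · intro x
    simp only [hcov, hf, fun l : (i : Fin K) × Bool × Fin P.E × ℕ =>
      (lineInd_integral P l.1 l.2.1 l.2.2.1 l.2.2.2).1 x]
  · have h1 : IntervalIntegrable (fun x => 1 - cov x) volume 0 1 := intervalIntegrable_const.sub hint
    refine ((h1.add h1.abs).div_const 2).congr fun x _ => ?_
    show (1 - cov x + |1 - cov x|) / 2 = max (1 - cov x) 0
    rcases le_total 0 (1 - cov x) with h | h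
    · rw [abs_of_nonneg h, max_eq_left h]; ring
    · rw [abs_of_nonpos h, max_eq_right h]; ring
  · have hae : ∀ᵐ x ∂(volume : Measure ℝ), max (1 - cov x) 0 = 1 - cov x := by
      filter_upwards [compl_mem_ae_iff.2 hbad0] with x hx
      exact max_eq_left (by linarith [hle x hx])
    rw [intervalIntegral.integral_congr_ae (hae.mono fun x h _ => h),
      intervalIntegral.integral_sub intervalIntegrable_const hint, htot]
    have : ∀ i, 2 * c i ^ 2 * (1 - η) ≤ 2 * ((P.q i : ℝ) * dot (P.k' i) P.v) := fun i => by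
      have := (abs_le.1 (P.hclose i)).1
      linarith
    have h2 : (1 - η) * (2 * ∑ i, c i ^ 2) ≤ ∑ i, 2 * ((P.q i : ℝ) * dot (P.k' i) P.v) := by
      rw [mul_sum, mul_sum]
      exact sum_le_sum fun i _ => by linarith [this i]
    simp only [intervalIntegral.integral_const, sub_zero, one_smul]
    nlinarith
  · intro x hx
    have : cov x ≠ 0 := fun h => by
      simp only [h, sub_zero] at hx
      linarith [le_max_left (1 : ℝ) 0]
    obtain ⟨⟨i, σ, e, b⟩, hl, hne⟩ := Finset.exists_ne_zero_of_sum_ne_zero this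
    simp only [hL, mem_sigma, mem_univ, mem_product, mem_range, true_and] at hl
    refine ⟨i, σ, e, b, hl, ?_⟩
    simp only [hf, lineInd] at hne ⊢
    exact (ite_eq_or_eq _ _ _).resolve_right hne

/-- On the lines the limiting modulus is close to one. -/
private lemma target_ge (P : Pack k c η) (hη : 0 ≤ η) (hη' : η ≤ 1 / 4) (hc : ∀ i, 0 < c i)
    (a : Fin K → Bool → ℂ) (ha : ∀ i σ, |‖a i σ‖ - c i| ≤ η * c i) (x : ℝ) {i : Fin K} {σ : Bool}
    {e : Fin P.E} {b : ℕ} (hb : b < P.q i) (h : lineInd P i σ e b x = 1) :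
    1 - 3 * η ≤ P.target a x := by
  classical
  have hterm : ∀ (i : Fin K) (σ : Bool) (e : Fin P.E) (b : ℕ), 0 ≤
      ‖a i σ‖ * (Real.sqrt (P.E * P.q i : ℕ))⁻¹ * chirpModulus (dot (P.k' i) P.v / P.E)
        ((if σ then (1 : ℝ) else -1) * x + (b : ℝ) / P.q i + dot (P.k' i) (P.β e)) := by
    intro i σ e b
    refine mul_nonneg (by positivity) ?_
    unfold chirpModulus
    split <;> positivity
  set term : Fin K → Bool → Fin P.E → ℕ → ℝ := fun i σ e b =>
    ‖a i σ‖ * (Real.sqrt (P.E * P.q i : ℕ))⁻¹ * chirpModulus (dot (P.k' i) P.v / P.E)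
      ((if σ then (1 : ℝ) else -1) * x + (b : ℝ) / P.q i + dot (P.k' i) (P.β e)) with hterm'
  have hle : term i σ e b ≤ P.target a x :=
    calc term i σ e b ≤ ∑ b ∈ range (P.q i), term i σ e b :=
          single_le_sum (fun b _ => hterm i σ e b) (mem_range.2 hb)
      _ ≤ ∑ e, ∑ b ∈ range (P.q i), term i σ e b :=
          single_le_sum (f := fun e => ∑ b ∈ range (P.q i), term i σ e b)
            (fun e _ => sum_nonneg fun b _ => hterm i σ e b) (mem_univ e)
      _ ≤ ∑ σ : Bool, ∑ e, ∑ b ∈ range (P.q i), term i σ e b :=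
          single_le_sum (f := fun σ => ∑ e, ∑ b ∈ range (P.q i), term i σ e b)
            (fun σ _ => sum_nonneg fun e _ => sum_nonneg fun b _ => hterm i σ e b) (mem_univ σ)
      _ ≤ ∑ i, ∑ σ : Bool, ∑ e, ∑ b ∈ range (P.q i), term i σ e b :=
          single_le_sum (f := fun i => ∑ σ : Bool, ∑ e, ∑ b ∈ range (P.q i), term i σ e b)
            (fun i _ => sum_nonneg fun σ _ => sum_nonneg fun e _ => sum_nonneg fun b _ =>
              hterm i σ e b) (mem_univ i)
      _ = P.target a x := rfl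
  refine le_trans ?_ hle
  simp only [hterm']
  simp only [lineInd, ite_eq_left_iff, zero_ne_one, imp_false, not_not] at h
  simp only [chirpModulus, if_pos h]
  have hE : (0 : ℝ) < P.E := by exact_mod_cast P.hE
  have hq : (0 : ℝ) < P.q i := by exact_mod_cast (P.hq i).pos
  have hv := P.hv i
  rw [mul_assoc, ← mul_inv, ← Real.sqrt_mul (by positivity), Nat.cast_mul,
    show (P.E : ℝ) * P.q i * (dot (P.k' i) P.v / P.E) = P.q i * dot (P.k' i) P.v by field_simp]
  set s := (P.q i : ℝ) * dot (P.k' i) P.v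
  have hs : 0 < s := mul_pos hq hv
  have hclose := (abs_le.1 (P.hclose i)).2
  have ha1 := (abs_le.1 (ha i σ)).1
  have hci := hc i
  rw [← div_eq_mul_inv, le_div_iff₀ (Real.sqrt_pos.2 hs)]
  have h2 : Real.sqrt s ≤ (1 + η) * c i := by
    rw [Real.sqrt_le_left (by positivity)]
    nlinarith [sq_nonneg (η * c i), mul_nonneg hη (sq_nonneg (c i))]
  nlinarith [mul_le_mul_of_nonneg_left h2 (by linarith : (0 : ℝ) ≤ 1 - 3 * η),
    mul_nonneg hη hci.le, mul_nonneg (mul_nonneg hη hη) hci.le]

/-- The frequencies of a packing, with both signs. -/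
private def freqs (P : Pack k c η) : Finset (Fin d → ℤ) :=
  (univ : Finset (Fin K × Bool)).image fun p => if p.2 then P.k' p.1 else -P.k' p.1

private lemma sum_freqs {M : Type} [AddCommMonoid M] (P : Pack k c η) (hk : ∀ i, k i ≠ 0)
    (hpair : ∀ i j, i ≠ j → ∀ a b : ℤ, (∀ l, a * k i l + b * k j l = 0) → a = 0 ∧ b = 0)
    (g : (Fin d → ℤ) → M) :
    ∑ x ∈ freqs P, g x = ∑ i, ∑ σ : Bool, g (if σ then P.k' i else -P.k' i) := by
  rw [freqs, Finset.sum_image, ← Fintype.sum_prod_type' (f := fun i (σ : Bool) =>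
    g (if σ then P.k' i else -P.k' i))]
  rintro ⟨i, σ⟩ - ⟨j, τ⟩ - h
  simp only at h
  have hs : ∀ (i : Fin K) (σ : Bool), ∃ s : ℤ, (s = 1 ∨ s = -1) ∧
      ∀ l, (if σ then P.k' i else -P.k' i) l = s * k i l := by
    intro i σ
    rcases P.hk' i with h | h <;> cases σ
    · exact ⟨-1, Or.inr rfl, fun l => by simp [h]⟩
    · exact ⟨1, Or.inl rfl, fun l => by simp [h]⟩
    · exact ⟨1, Or.inl rfl, fun l => by simp [h]⟩
    · exact ⟨-1, Or.inr rfl, fun l => by simp [h]⟩
  have hij : i = j := by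
    by_contra hne
    obtain ⟨s, hs1, hs2⟩ := hs i σ
    obtain ⟨t, -, ht2⟩ := hs j τ
    have := (hpair i j hne s (-t) fun l => by
      have := congrFun h l
      rw [hs2, ht2] at this
      linarith).1
    omega
  subst hij
  have hk' : P.k' i ≠ 0 := by
    rcases P.hk' i with h | h <;> rw [h] <;> simp [hk i]
  have : σ = τ := by
    by_contra hne
    refine hk' ?_
    funext l
    have := congrFun h l
    cases σ <;> cases τ
    · exact absurd rfl hne
    · simp only [Bool.false_eq_true, if_false, if_true, Pi.neg_apply] at this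
      show P.k' i l = 0
      omega
    · simp only [Bool.false_eq_true, if_false, if_true, Pi.neg_apply] at this
      show P.k' i l = 0
      omega
    · exact absurd rfl hne
  rw [this]

private lemma coef_close {D : (Fin d → ℝ) → ℕ} {θ : ℝ} (P : Pack k c η) (i : Fin K) (σ : Bool)
    (h1 : |‖coef D θ (k i)‖ - c i| ≤ η * c i) (h2 : |‖coef D θ (-k i)‖ - c i| ≤ η * c i) :
    |‖coef D θ (if σ then P.k' i else -P.k' i)‖ - c i| ≤ η * c i := by
  rcases P.hk' i with h | h <;> cases σ <;> simp [h, h1, h2]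

theorem flatStage (ε : ℝ) (hε : 0 < ε) (N : ℕ) : FlatStage ε N := by
  classical
  obtain ⟨η, hη, hη4, hηε⟩ : ∃ η : ℝ, 0 < η ∧ η ≤ 1 / 4 ∧
      1000 * (N + 1) * Real.sqrt η ≤ ε := by
    refine ⟨min (1 / 4) ((ε / (1000 * (N + 1))) ^ 2), by positivity, min_le_left _ _, ?_⟩
    calc 1000 * ((N : ℝ) + 1) * Real.sqrt (min (1 / 4) ((ε / (1000 * (N + 1))) ^ 2))
        ≤ 1000 * ((N : ℝ) + 1) * Real.sqrt ((ε / (1000 * (N + 1))) ^ 2) := by
          gcongr
          exact min_le_right _ _
      _ = ε := by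
          rw [Real.sqrt_sq (by positivity)]
          field_simp
  obtain ⟨W⟩ := exists_wait η hη
  obtain ⟨P⟩ := exists_pack W.k W.c η hη W.hK W.hk W.hpair W.hc W.hupp
  refine ⟨W.R, fun h Dg hDg a ha1 ha2 M₀ => ?_⟩
  obtain ⟨T₀, hT₀⟩ := wave_target P η hη
  set T := T₀ + M₀ + 2 with hT
  set m := P.E * T with hm
  have hTm : T ≤ m := Nat.le_mul_of_pos_left T P.hE
  have hm0 : 0 < m := by omega
  set H := h + W.R with hH
  set ψ : ℕ → Fin W.d → ℝ := fun j => P.path T j with hψ
  set F := freqs P with hF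
  obtain ⟨φ₀, hφ₀⟩ := exists_base (m := m) (H := H) W.hmeas W.hR W.hper F hm0
    (show Dg + W.R < H by omega) a ψ
  set dd : ℕ → ℕ := fun j => W.D (fun l => φ₀ l + ψ j l) with hdd
  set w : ℕ → ℕ := fun j => if j + 1 < m then W.R + dd (j + 1) - dd j else 0 with hw
  refine ⟨m, by omega, by omega, w, ?_, ?_, ?_⟩
  · intro j
    have := W.hR (fun l => φ₀ l + ψ (j + 1) l)
    simp only [hw, hdd]
    split <;> omega
  · simp only [hw]
    rw [if_neg (by omega)]
  intro i
  obtain ⟨err, herrm, herrper, herr0, herri, herrint, herr⟩ := hT₀ T (by omega) φ₀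
  obtain ⟨u, huper, hui, hu0, huint, hucov⟩ := exists_gap P W.hlow hη.le W.hupp
  set G : Fin N → ℝ → ℝ := fun i θ => ‖tpoly Dg (a i) θ‖ ^ 2 with hG
  set S : ℝ → ℝ := fun θ => ‖stagePoly m h w θ‖ with hS
  set tl : ℝ → ℝ := fun θ => ‖tailPart W.D F m H ψ φ₀ θ‖ with htl
  have hGc : ∀ i, Continuous (G i) := fun i => (continuous_tpoly _ _).norm.pow 2
  have hG0 : ∀ i θ, 0 ≤ G i θ := fun i θ => sq_nonneg _
  have hSc : Continuous S := (continuous_stagePoly _ _ _).norm
  have htlc : Continuous tl := (continuous_tailPart W.hmeas _ _ _ _ _).norm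
  have hflat : ∀ θ, η ≤ θ → θ ≤ 1 - η → ∀ (i : Fin W.K) (σ : Bool),
      |‖coef W.D θ (if σ then P.k' i else -P.k' i)‖ - W.c i| ≤ η * W.c i := fun θ h1 h2 i σ =>
    coef_close P i σ (W.hflat θ h1 h2 i).1 (W.hflat θ h1 h2 i).2
  -- the pointwise lower bound in the middle
  have hlow : ∀ θ, η ≤ θ → θ ≤ 1 - η →
      1 - S θ ≤ 3 * η + (u (H * θ) + err (H * θ)) + tl θ := by
    intro θ h1 h2
    set A : Fin W.K → Bool → ℂ := fun i σ => coef W.D θ (if σ then P.k' i else -P.k' i)
    set x := (H : ℝ) * θ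
    have hdec : S θ = ‖P.wave T φ₀ A x + tailPart W.D F m H ψ φ₀ θ‖ := by
      simp only [hS, hw]
      rw [stagePoly_spacers dd (fun j => W.hR _)]
      congr 1
      rw [Pack.wave, tailPart, ← hm, ← mul_add, ← sum_add_distrib]
      refine congrArg _ (sum_congr rfl fun j _ => ?_)
      rw [← add_mul]
      congr 1
      · rw [hF, sum_freqs P W.hk W.hpair]
        have hdot : ∀ (i : Fin W.K) (σ : Bool) (φ : Fin W.d → ℝ),
            dot (if σ then P.k' i else -P.k' i) φ
              = (if σ then (1 : ℝ) else -1) * dot (P.k' i) φ := by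
          intro i σ φ
          cases σ <;> simp [Vale.Agent.P110.Flat.dot]
        simp only [A, hdd, hψ, hdot]
        ring
    have hA1 : ∀ i σ, ‖A i σ‖ ≤ 1 := fun i σ => norm_coef_le _ _ _
    have h3 := (abs_le.1 (herr A hA1 x)).1
    have h4 : P.target A x - err x - tl θ ≤ S θ := by
      rw [hdec]
      have := norm_sub_norm_le (P.wave T φ₀ A x) (-(tailPart W.D F m H ψ φ₀ θ))
      rw [sub_neg_eq_add, norm_neg] at this
      simp only [htl]
      linarith
    by_cases hux : u x < 1
    · obtain ⟨i, σ, e, b, hb, hl⟩ := hucov x hux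
      have := target_ge P hη.le hη4 W.hc A (hflat θ h1 h2) x hb hl
      linarith [hu0 x]
    · push_neg at hux
      have : (0 : ℝ) ≤ S θ := norm_nonneg _
      have : (0 : ℝ) ≤ tl θ := norm_nonneg _
      linarith [herr0 x]
  -- the missing energy
  have hedge : ∀ i, (∫ θ in (0 : ℝ)..η, G i θ) + ∫ θ in (1 - η)..1, G i θ ≤ 128 * η ^ 2 := fun i => by
    rw [edges_eq]
    exact ha2 i η ⟨hη.le, by linarith⟩
  have hGint : ∀ i, ∫ θ in (0 : ℝ)..1, G i θ ≤ 2 := ha1
  have hmisc : Continuous fun θ => missing W.D F θ :=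
    continuous_const.sub (continuous_finsetSum _ fun k _ => (continuous_coef W.hmeas k).norm.pow 2)
  have hmissing : ∀ i, ∫ θ in (0 : ℝ)..1, G i θ * missing W.D F θ ≤ 128 * η ^ 2 + 8 * η := by
    intro i
    refine (integral_edge_middle hη.le (by linarith) ((hGc i).mul hmisc) (hGc i)
      (g := fun θ => 4 * η * G i θ) (((hGc i).const_smul (4 * η)).intervalIntegrable 0 1)
      (fun θ => mul_nonneg (by linarith) (hG0 i θ))
      (fun θ => mul_le_of_le_one_right (hG0 i θ) (missing_mem W.hmeas F θ).2) ?_).trans ?_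
    · intro θ h1 h2
      show G i θ * missing W.D F θ ≤ 4 * η * G i θ
      rw [mul_comm]
      refine mul_le_mul_of_nonneg_right ?_ (hG0 i θ)
      rw [missing, hF, sum_freqs P W.hk W.hpair]
      have : (1 - η) ^ 2 * (2 * ∑ i, W.c i ^ 2)
          ≤ ∑ i, ∑ σ : Bool, ‖coef W.D θ (if σ then P.k' i else -P.k' i)‖ ^ 2 := by
        rw [mul_sum, mul_sum]
        refine sum_le_sum fun i _ => ?_
        rw [Fintype.sum_bool]
        have hx : ∀ σ : Bool, (1 - η) ^ 2 * W.c i ^ 2
            ≤ ‖coef W.D θ (if σ then P.k' i else -P.k' i)‖ ^ 2 := fun σ => by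
          rw [← mul_pow]
          refine pow_le_pow_left₀ (mul_nonneg (by linarith) (W.hc i).le) ?_ 2
          have := (abs_le.1 (hflat θ h1 h2 i σ)).1
          linarith
        linarith [hx true, hx false]
      have h4 : 1 - 4 * η ≤ (1 - η) ^ 2 * (1 - η) := by nlinarith [hη, sq_nonneg η]
      nlinarith [mul_le_mul_of_nonneg_left W.hlow (sq_nonneg (1 - η))]
    · rw [intervalIntegral.integral_const_mul]
      nlinarith [hedge i, hGint i]
  have htail : ∫ θ in (0 : ℝ)..1, G i θ * tl θ ^ 2 ≤ N * (128 * η ^ 2 + 8 * η) := by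
    calc ∫ θ in (0 : ℝ)..1, G i θ * tl θ ^ 2
        ≤ ∑ i, ∫ θ in (0 : ℝ)..1, G i θ * tl θ ^ 2 :=
          single_le_sum (f := fun i => ∫ θ in (0 : ℝ)..1, G i θ * tl θ ^ 2)
            (fun i _ => intervalIntegral.integral_nonneg zero_le_one fun θ _ =>
              mul_nonneg (hG0 i θ) (sq_nonneg _)) (mem_univ i)
      _ ≤ ∑ i, ∫ θ in (0 : ℝ)..1, G i θ * missing W.D F θ := hφ₀
      _ ≤ ∑ _i : Fin N, (128 * η ^ 2 + 8 * η) := sum_le_sum fun i _ => hmissing i
      _ = N * (128 * η ^ 2 + 8 * η) := by simp [mul_add]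
  -- exact mass identity
  have hmass : ∫ θ in (0 : ℝ)..1, G i θ * |S θ ^ 2 - 1|
      = 2 * ∫ θ in (0 : ℝ)..1, G i θ * max (1 - S θ ^ 2) 0 := by
    have hst := weight_stage (m := m) hDg hm0 (a i) w
    have e : ∀ θ, G i θ * |S θ ^ 2 - 1|
        = (G i θ * S θ ^ 2 - G i θ) + 2 * (G i θ * max (1 - S θ ^ 2) 0) := fun θ => by
      rcases le_total 1 (S θ ^ 2) with h | h
      · rw [abs_of_nonneg (by linarith), max_eq_right (by linarith)]; ring
      · rw [abs_of_nonpos (by linarith), max_eq_left (by linarith)]; ring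
    simp only [e]
    have c1 : Continuous fun θ => G i θ * S θ ^ 2 := (hGc i).mul (hSc.pow 2)
    have c2 : Continuous fun θ => G i θ * S θ ^ 2 - G i θ := c1.sub (hGc i)
    have c3 : Continuous fun θ => 2 * (G i θ * max (1 - S θ ^ 2) 0) := by fun_prop
    rw [intervalIntegral.integral_add (c2.intervalIntegrable _ _) (c3.intervalIntegrable _ _),
      intervalIntegral.integral_sub (c1.intervalIntegrable _ _) ((hGc i).intervalIntegrable _ _),
      intervalIntegral.integral_const_mul, hst]
    simp [hG]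
  set r := Real.sqrt η with hr
  have hr0 : 0 < r := Real.sqrt_pos.2 hη
  have hrη : η = r ^ 2 := (Real.sq_sqrt hη.le).symm
  have hr1 : r ≤ 1 := Real.sqrt_le_one.2 (by linarith)
  set v : ℝ → ℝ := fun x => u x + err x with hv
  have hvper : Function.Periodic v 1 := huper.add herrper
  have hvi : IntervalIntegrable v volume 0 1 := hui.add herri
  have hvH : IntervalIntegrable (fun θ => G i θ * (2 * v (H * θ))) volume 0 1 := by
    have h1 : IntervalIntegrable v volume 0 (H : ℝ) := hvper.intervalIntegrable₀ one_ne_zero hvi 0 H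
    have hH0 : (H : ℝ) ≠ 0 := by
      have : 0 < H := by omega
      positivity
    have h2 : IntervalIntegrable (fun θ => v (H * θ)) volume 0 1 := by
      simpa [hH0] using h1.comp_mul_left (c := (H : ℝ))
    exact (h2.const_mul 2).continuousOn_mul (hGc i).continuousOn
  have hgi : IntervalIntegrable
      (fun θ => (6 * η + r) * G i θ + G i θ * (2 * v (H * θ)) + 1 / r * (G i θ * tl θ ^ 2))
      volume 0 1 :=
    (((continuous_const.mul (hGc i)).intervalIntegrable _ _).add hvH).add
      ((continuous_const.mul ((hGc i).mul (htlc.pow 2))).intervalIntegrable _ _)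
  have hmain : ∫ θ in (0 : ℝ)..1, G i θ * max (1 - S θ ^ 2) 0 ≤
      128 * η ^ 2 + ((6 * η + r) * 2 + 2 * (2 * (3 * η)) + 1 / r * (N * (128 * η ^ 2 + 8 * η))) := by
    refine (integral_edge_middle hη.le (by linarith)
      ((hGc i).mul ((continuous_const.sub (hSc.pow 2)).max continuous_const)) (hGc i) hgi
      (fun θ => ?_) (fun θ => ?_) ?_).trans ?_
    · have := hG0 i θ
      have h1 : 0 ≤ v (H * θ) := add_nonneg (hu0 _) (herr0 _)
      positivity
    · refine mul_le_of_le_one_right (hG0 i θ) (max_le ?_ zero_le_one)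
      show 1 - S θ ^ 2 ≤ 1
      linarith [sq_nonneg (S θ)]
    · intro θ h1 h2
      have hb := hlow θ h1 h2
      have hS0 : 0 ≤ S θ := norm_nonneg _
      have ht0 : 0 ≤ tl θ := norm_nonneg _
      have hv0 : 0 ≤ v (H * θ) := add_nonneg (hu0 _) (herr0 _)
      have : max (1 - S θ ^ 2) 0 ≤ 6 * η + 2 * v (H * θ) + 2 * tl θ := by
        refine max_le ?_ (by positivity)
        simp only [hv]
        nlinarith [sq_nonneg (1 - S θ)]
      have h3 : 2 * tl θ ≤ r + 1 / r * tl θ ^ 2 := by
        rw [one_div, ← div_eq_inv_mul, ← sub_le_iff_le_add', le_div_iff₀ hr0]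
        nlinarith [sq_nonneg (tl θ - r)]
      calc G i θ * max (1 - S θ ^ 2) 0
          ≤ G i θ * (6 * η + r + 2 * v (H * θ) + 1 / r * tl θ ^ 2) :=
            mul_le_mul_of_nonneg_left (by linarith) (hG0 i θ)
        _ = _ := by ring
    · have c1 : Continuous fun θ => (6 * η + r) * G i θ := continuous_const.mul (hGc i)
      have c2 : Continuous fun θ => 1 / r * (G i θ * tl θ ^ 2) :=
        continuous_const.mul ((hGc i).mul (htlc.pow 2))
      rw [intervalIntegral.integral_add ((c1.intervalIntegrable 0 1).add hvH)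
          (c2.intervalIntegrable _ _),
        intervalIntegral.integral_add (c1.intervalIntegrable 0 1) hvH,
        intervalIntegral.integral_const_mul, intervalIntegral.integral_const_mul]
      have hvv : ∫ θ in (0 : ℝ)..1, G i θ * (2 * v (H * θ)) ≤ 2 * (2 * (3 * η)) := by
        have e : ∀ θ, G i θ * (2 * v (H * θ)) = 2 * (‖tpoly Dg (a i) θ‖ ^ 2 * v (H * θ)) :=
          fun θ => by simp only [hG]; ring
        simp only [e]
        rw [intervalIntegral.integral_const_mul, weight_periodic (show Dg < H by omega) (a i) hvper hvi,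
          hv, intervalIntegral.integral_add hui herri]
        gcongr
        · exact add_nonneg (intervalIntegral.integral_nonneg zero_le_one fun x _ => hu0 x)
            (intervalIntegral.integral_nonneg zero_le_one fun x _ => herr0 x)
        · exact ha1 i
        · linarith
      have := mul_le_mul_of_nonneg_left (hGint i) (show (0 : ℝ) ≤ 6 * η + r by linarith)
      have := mul_le_mul_of_nonneg_left htail (show (0 : ℝ) ≤ 1 / r by positivity)
      linarith [hedge i]
  have hfin : ∫ θ in (0 : ℝ)..1, G i θ * |S θ ^ 2 - 1| ≤ ε := by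
    rw [hmass]
    have h1 : 1 / r * ((N : ℝ) * (128 * η ^ 2 + 8 * η)) ≤ 136 * N * r := by
      rw [hrη, one_div, inv_mul_le_iff₀ hr0]
      nlinarith [mul_le_mul_of_nonneg_left (pow_le_one₀ (n := 2) hr0.le hr1)
        (mul_nonneg (Nat.cast_nonneg N) (sq_nonneg r))]
    have h2 : η ≤ r := by rw [hrη]; nlinarith
    nlinarith [mul_le_mul_of_nonneg_left (hη4) hη.le]
  exact hfin

end Vale.Agent.P130.Simple
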