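import Vale.Agent.P130.Simple.Defs

/-!
The choice of the stages: the weights of the earlier stages are squares of trigonometric polynomials
of degree below the current height, so a flat stage against all of them can be chosen recursively.
-/

namespace Vale.Agent.P130.Simple

open Finset MeasureTheory
open scoped BigOperators
open Vale.Agent.P110.Flat (ee dot)

namespace Schedule

theorem ee_add (x y : ℝ) : ee (x + y) = ee x * ee y := by
  simp only [ee, ← Complex.exp_add]
  congr 1
  push_cast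
  ring

theorem ee_zero : ee 0 = 1 := by simp [ee]

theorem norm_ee (x : ℝ) : ‖ee x‖ = 1 := by
  have h : (2 * Real.pi * x * Complex.I : ℂ) = ((2 * Real.pi * x : ℝ) : ℂ) * Complex.I := by
    push_cast; ring
  rw [ee, h, Complex.norm_exp_ofReal_mul_I]

theorem continuous_ee : Continuous ee := by
  unfold ee
  fun_prop

theorem ee_int (k : ℤ) : ee k = 1 := by
  have h : (2 * Real.pi * ((k : ℝ) : ℂ) * Complex.I : ℂ) = k * (2 * Real.pi * Complex.I) := by
    push_cast; ring
  rw [ee, h, Complex.exp_int_mul_two_pi_mul_I]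

theorem integral_ee {k : ℤ} (hk : k ≠ 0) (a : ℝ) :
    ∫ θ in a..a + 1, ee ((k : ℝ) * θ) = 0 := by
  set c : ℂ := 2 * Real.pi * k * Complex.I with hc
  have hfun : (fun θ : ℝ => ee ((k : ℝ) * θ)) = fun θ : ℝ => Complex.exp (c * θ) := by
    funext θ
    rw [ee, hc]
    congr 1
    push_cast
    ring
  have hc0 : c ≠ 0 := by
    simp [hc, Real.pi_ne_zero, Complex.I_ne_zero, hk]
  rw [hfun, integral_exp_mul_complex hc0]
  have e : c * ((a + 1 : ℝ) : ℂ) = c * (a : ℂ) + k * (2 * Real.pi * Complex.I) := by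
    rw [hc]; push_cast; ring
  rw [e, Complex.exp_add, Complex.exp_int_mul_two_pi_mul_I, mul_one, sub_self, zero_div]

theorem continuous_tpoly (D : ℕ) (a : ℕ → ℂ) : Continuous (tpoly D a) :=
  continuous_finsetSum _ fun _t _ => continuous_const.mul
    (continuous_ee.comp (continuous_const.mul continuous_id))

/-- Parseval for trigonometric polynomials. -/
theorem parseval (D : ℕ) (c : ℕ → ℂ) (a : ℝ) :
    ∫ θ in a..a + 1, ‖tpoly D c θ‖ ^ 2 = ∑ t ∈ range (D + 1), ‖c t‖ ^ 2 := by
  have hterm : ∀ s t : ℕ, ∫ θ in a..a + 1,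
      (c s * starRingEnd ℂ (c t)) * ee (((s : ℤ) - t : ℤ) * θ) = if s = t then (‖c s‖ : ℂ) ^ 2 else 0 := by
    intro s t
    rw [intervalIntegral.integral_const_mul]
    split_ifs with h
    · subst h
      simp [ee_zero, Complex.mul_conj']
    · rw [integral_ee (by omega) a, mul_zero]
  have hexp : ∀ θ : ℝ, ((‖tpoly D c θ‖ ^ 2 : ℝ) : ℂ) = ∑ s ∈ range (D + 1), ∑ t ∈ range (D + 1),
      (c s * starRingEnd ℂ (c t)) * ee (((s : ℤ) - t : ℤ) * θ) := by
    intro θ
    rw [Complex.ofReal_pow, ← Complex.mul_conj', tpoly, map_sum, Finset.sum_mul_sum]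
    refine Finset.sum_congr rfl fun s _ => Finset.sum_congr rfl fun t _ => ?_
    have he : ee (((s : ℤ) - t : ℤ) * θ) = ee ((s : ℝ) * θ) * starRingEnd ℂ (ee ((t : ℝ) * θ)) := by
      have h1 : starRingEnd ℂ (ee ((t : ℝ) * θ)) = ee (-((t : ℝ) * θ)) := by
        simp only [ee, ← Complex.exp_conj]
        congr 1
        simp [map_mul, map_ofNat, Complex.conj_ofReal, Complex.conj_I]
      rw [h1, ← ee_add]
      congr 1
      push_cast
      ring
    rw [map_mul, he]
    ring
  have hi : ∀ s t : ℕ, IntervalIntegrable (fun θ : ℝ =>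
      (c s * starRingEnd ℂ (c t)) * ee (((s : ℤ) - t : ℤ) * θ)) volume a (a + 1) := fun s t =>
    (continuous_const.mul (continuous_ee.comp (continuous_const.mul continuous_id))).intervalIntegrable _ _
  have h : ((∫ θ in a..a + 1, ‖tpoly D c θ‖ ^ 2 : ℝ) : ℂ)
      = ((∑ t ∈ range (D + 1), ‖c t‖ ^ 2 : ℝ) : ℂ) := by
    rw [← intervalIntegral.integral_ofReal]
    simp only [hexp]
    have hi' : ∀ s ∈ range (D + 1), IntervalIntegrable (fun θ : ℝ => ∑ t ∈ range (D + 1),
        (c s * starRingEnd ℂ (c t)) * ee (((s : ℤ) - t : ℤ) * θ)) volume a (a + 1) := fun s _ =>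
      Continuous.intervalIntegrable (continuous_finsetSum _ fun t _ => continuous_const.mul
        (continuous_ee.comp (continuous_const.mul continuous_id))) _ _
    rw [intervalIntegral.integral_finsetSum hi', Complex.ofReal_sum]
    refine Finset.sum_congr rfl fun s hs => ?_
    rw [intervalIntegral.integral_finsetSum fun t _ => hi s t]
    simp only [hterm]
    simp [Finset.mem_range.1 hs, Complex.ofReal_pow]
  exact_mod_cast h

theorem pos_succ (h : ℕ) (w : ℕ → ℕ) (j : ℕ) : pos h w (j + 1) = pos h w j + (h + w j) :=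
  Finset.sum_range_succ _ _

theorem pos_gap (h : ℕ) (w : ℕ → ℕ) {j j' : ℕ} (hjj : j < j') : pos h w j + h ≤ pos h w j' := by
  have h1 : pos h w (j + 1) ≤ pos h w j' :=
    Finset.sum_le_sum_of_subset (Finset.range_subset_range.2 hjj)
  rw [pos_succ] at h1
  omega

/-- Multiplying by a stage of height above the degree keeps the energy. -/
theorem exists_mul_stage {D h : ℕ} (hD : D < h) (m : ℕ) (hm : 0 < m) (w : ℕ → ℕ) (c : ℕ → ℂ) :
    ∃ b : ℕ → ℂ, (∀ θ, tpoly (pos h w (m - 1) + D) b θ = tpoly D c θ * stagePoly m h w θ) ∧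
      ∑ t ∈ range (pos h w (m - 1) + D + 1), ‖b t‖ ^ 2 = ∑ t ∈ range (D + 1), ‖c t‖ ^ 2 := by
  classical
  set S := range m ×ˢ range (D + 1) with hS
  set φ : ℕ × ℕ → ℕ := fun x => pos h w x.1 + x.2 with hφ
  set u : ℕ × ℕ → ℂ := fun x => ((Real.sqrt m)⁻¹ : ℝ) * c x.2 with hu
  have hinj : Set.InjOn φ S := by
    rintro ⟨j, r⟩ hx ⟨j', r'⟩ hy e
    simp only [hS, Finset.coe_product, Set.mem_prod, Finset.coe_range, Set.mem_Iio] at hx hy
    simp only [hφ] at e
    rcases lt_trichotomy j j' with hlt | rfl | hlt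
    · have := pos_gap h w hlt; omega
    · simp only [add_right_inj] at e; simp [e]
    · have := pos_gap h w hlt; omega
  have hmaps : ∀ x ∈ S, φ x ∈ range (pos h w (m - 1) + D + 1) := by
    rintro ⟨j, r⟩ hx
    simp only [hS, Finset.mem_product, Finset.mem_range] at hx
    simp only [hφ, Finset.mem_range]
    rcases Nat.lt_or_ge j (m - 1) with hlt | hge
    · have := pos_gap h w hlt; omega
    · rw [show j = m - 1 by omega]; omega
  refine ⟨fun t => ∑ x ∈ S with φ x = t, u x, fun θ => ?_, ?_⟩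
  · simp only [tpoly]
    have e : ∀ t ∈ range (pos h w (m - 1) + D + 1),
        (∑ x ∈ S with φ x = t, u x) * ee ((t : ℝ) * θ)
          = ∑ x ∈ S with φ x = t, u x * ee (((φ x : ℕ) : ℝ) * θ) := by
      intro t _
      rw [Finset.sum_mul]
      exact Finset.sum_congr rfl fun x hx => by rw [(Finset.mem_filter.1 hx).2]
    rw [Finset.sum_congr rfl e, Finset.sum_fiberwise_of_maps_to hmaps, hS, Finset.sum_product,
      Finset.sum_comm, stagePoly, Finset.mul_sum, Finset.sum_mul_sum]
    refine Finset.sum_congr rfl fun r _ => Finset.sum_congr rfl fun j _ => ?_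
    simp only [hu, hφ]
    push_cast
    rw [add_mul, ee_add]
    ring
  · have e : ∀ t ∈ range (pos h w (m - 1) + D + 1),
        ‖∑ x ∈ S with φ x = t, u x‖ ^ 2 = ∑ x ∈ S with φ x = t, ‖u x‖ ^ 2 := by
      intro t _
      rcases (S.filter fun x => φ x = t).eq_empty_or_nonempty with h0 | ⟨x₀, hx₀⟩
      · rw [h0]; simp
      · have hone : S.filter (fun x => φ x = t) = {x₀} := by
          refine Finset.eq_singleton_iff_unique_mem.2 ⟨hx₀, fun y hy => ?_⟩
          obtain ⟨h1, h2⟩ := Finset.mem_filter.1 hx₀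
          obtain ⟨h3, h4⟩ := Finset.mem_filter.1 hy
          exact hinj h3 h1 (h4.trans h2.symm)
        rw [hone, Finset.sum_singleton, Finset.sum_singleton]
    rw [Finset.sum_congr rfl e, Finset.sum_fiberwise_of_maps_to hmaps, hS, Finset.sum_product,
      Finset.sum_comm]
    refine Finset.sum_congr rfl fun r _ => ?_
    simp only [hu, norm_mul, mul_pow, Finset.sum_const, Finset.card_range, nsmul_eq_mul,
      Complex.norm_real, Real.norm_eq_abs, sq_abs, inv_pow, Real.sq_sqrt (Nat.cast_nonneg m)]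
    rw [← mul_assoc, mul_inv_cancel₀ (Nat.cast_ne_zero.2 hm.ne'), one_mul]

theorem height_succ (A : Params) (n : ℕ) :
    A.height (n + 1) = pos (A.height n) (A.w n) (A.m n - 1) + A.height n := by
  have hm := A.hm n
  show pos (A.height n) (A.w n) (A.m n) = _
  conv_lhs => rw [show A.m n = A.m n - 1 + 1 by omega]
  rw [pos_succ, A.hlast, add_zero]

theorem height_le_succ (A : Params) (n : ℕ) : A.height n ≤ A.height (n + 1) := by
  rw [height_succ]; omega

theorem two_le_height (A : Params) (n : ℕ) : 2 ≤ A.height n := by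
  induction n with
  | zero => exact A.hh₀
  | succ n ih => exact ih.trans (height_le_succ A n)

theorem height_succ_ge (A : Params) (n : ℕ) : A.m n * A.height n ≤ A.height (n + 1) := by
  show A.m n * A.height n ≤ pos (A.height n) (A.w n) (A.m n)
  rw [pos, Finset.sum_add_distrib, Finset.sum_const, Finset.card_range, smul_eq_mul]
  exact Nat.le_add_right _ _

/-- A product of consecutive stages times a short polynomial. -/
theorem exists_prod_stage (A : Params) (n : ℕ) {D₀ : ℕ} (c₀ : ℕ → ℂ) (hD : D₀ < A.height n)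
    (l : ℕ) : ∃ D : ℕ, D < A.height (n + l) ∧ ∃ b : ℕ → ℂ,
      (∀ θ, tpoly D b θ = tpoly D₀ c₀ θ * ∏ j ∈ range l, A.poly (n + j) θ) ∧
      ∑ t ∈ range (D + 1), ‖b t‖ ^ 2 = ∑ t ∈ range (D₀ + 1), ‖c₀ t‖ ^ 2 := by
  induction l with
  | zero => exact ⟨D₀, hD, c₀, fun θ => by simp, rfl⟩
  | succ l ih =>
    obtain ⟨D, hDh, b, hb, hsum⟩ := ih
    obtain ⟨b', hb', hsum'⟩ := exists_mul_stage hDh (A.m (n + l))
      (lt_of_lt_of_le two_pos (A.hm _)) (A.w (n + l)) b
    refine ⟨_, ?_, b', fun θ => ?_, hsum'.trans hsum⟩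
    · rw [show n + (l + 1) = n + l + 1 by omega, height_succ]; omega
    · rw [hb', hb, Finset.prod_range_succ, mul_assoc]
      rfl

/-- The weights are admissible. -/
theorem weight_admissible (A : Params) (n l : ℕ) :
    ∃ a : ℕ → ℂ, (∀ θ, ‖tpoly (A.height (n + l) - 1) a θ‖ ^ 2 = A.weight n l θ) ∧
      (∫ θ in (0 : ℝ)..1, ‖tpoly (A.height (n + l) - 1) a θ‖ ^ 2 ≤ 2) ∧
      ∀ δ ∈ Set.Icc (0 : ℝ) (1 / 2),
        ∫ θ in (-δ)..δ, ‖tpoly (A.height (n + l) - 1) a θ‖ ^ 2 ≤ 128 * δ ^ 2 := by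
  classical
  have hh := two_le_height A n
  obtain ⟨D, hD, b, hb, hbsum⟩ := exists_prod_stage A n (D₀ := 1)
    (fun t => if t = 0 then 1 else -1) (by omega) l
  obtain ⟨D', hD', b', hb', hbsum'⟩ := exists_prod_stage A n (D₀ := 0) (fun _ => 1) (by omega) l
  set N := A.height (n + l) - 1 with hN
  set a : ℕ → ℂ := fun t => if t ≤ D then b t else 0 with ha
  have hsub : range (D + 1) ⊆ range (N + 1) := Finset.range_subset_range.2 (by omega)
  have htp : ∀ θ, tpoly N a θ = tpoly D b θ := by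
    intro θ
    simp only [tpoly]
    rw [← Finset.sum_subset hsub (fun t _ ht => by
      rw [ha]; simp only; rw [if_neg (by simpa [Finset.mem_range, Nat.lt_succ_iff] using ht), zero_mul])]
    refine Finset.sum_congr rfl fun t ht => ?_
    rw [ha]; simp only; rw [if_pos (by simpa [Finset.mem_range, Nat.lt_succ_iff] using ht)]
  have hbase : ∀ θ : ℝ, tpoly 1 (fun t => if t = 0 then 1 else -1) θ = 1 - ee θ := by
    intro θ
    simp [tpoly, Finset.sum_range_succ, ee_zero, sub_eq_add_neg]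
  have hone : ∀ θ : ℝ, tpoly 0 (fun _ => 1) θ = 1 := by
    intro θ
    simp [tpoly, ee_zero]
  have hweight : ∀ θ, ‖tpoly N a θ‖ ^ 2 = A.weight n l θ := by
    intro θ
    rw [htp, hb, hbase, norm_mul, mul_pow, norm_prod, ← Finset.prod_pow]
    rfl
  refine ⟨a, hweight, ?_, fun δ hδ => ?_⟩
  · have := parseval D b 0
    rw [zero_add] at this
    simp only [htp]
    rw [this, hbsum]
    norm_num [Finset.sum_range_succ]
  · have hle : ∀ θ ∈ Set.Icc (-δ) δ,
        ‖tpoly N a θ‖ ^ 2 ≤ (2 * Real.pi * δ) ^ 2 * ‖tpoly D' b' θ‖ ^ 2 := by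
      intro θ hθ
      rw [htp, hb, hbase, hb', hone, one_mul, norm_mul, mul_pow]
      refine mul_le_mul_of_nonneg_right (pow_le_pow_left₀ (norm_nonneg _) ?_ 2) (sq_nonneg _)
      rw [norm_sub_rev]
      have h1 : ee θ = Complex.exp (Complex.I * ((2 * Real.pi * θ : ℝ) : ℂ)) := by
        rw [ee]; congr 1; push_cast; ring
      rw [h1]
      refine (Real.norm_exp_I_mul_ofReal_sub_one_le).trans ?_
      rw [Real.norm_eq_abs, abs_mul, abs_of_pos (by positivity : (0 : ℝ) < 2 * Real.pi)]
      exact mul_le_mul_of_nonneg_left (abs_le.2 hθ) (by positivity)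
    have hi : ∀ (K : ℕ) (e : ℕ → ℂ) (x y : ℝ),
        IntervalIntegrable (fun θ => ‖tpoly K e θ‖ ^ 2) volume x y := fun K e x y =>
      ((continuous_tpoly K e).norm.pow 2).intervalIntegrable _ _
    refine (intervalIntegral.integral_mono_on (by linarith [hδ.1]) (hi _ _ _ _)
      ((hi _ _ _ _).const_mul _) hle).trans ?_
    rw [intervalIntegral.integral_const_mul]
    have hint : ∫ θ in (-δ)..δ, ‖tpoly D' b' θ‖ ^ 2 ≤ 1 := by
      have h := parseval D' b' (-(1 / 2))
      rw [hbsum', show -(1 / 2 : ℝ) + 1 = 1 / 2 by norm_num] at h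
      simp only [Finset.sum_range_succ, Finset.sum_range_zero, norm_one, one_pow, zero_add] at h
      rw [← h]
      exact intervalIntegral.integral_mono_interval (by linarith [hδ.2]) (by linarith [hδ.1])
        (hδ.2) (Filter.Eventually.of_forall fun θ => sq_nonneg _) (hi _ _ _ _)
    refine (mul_le_mul_of_nonneg_left hint (sq_nonneg _)).trans ?_
    rw [mul_one, mul_pow]
    have hpi : (2 * Real.pi) ^ 2 ≤ 128 := by nlinarith [Real.pi_le_four, Real.pi_pos]
    exact mul_le_mul_of_nonneg_right hpi (sq_nonneg _)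

theorem height_congr (A B : Params) (h0 : A.h₀ = B.h₀) : ∀ n,
    (∀ j < n, A.m j = B.m j ∧ A.w j = B.w j) → A.height n = B.height n := by
  intro n
  induction n with
  | zero => exact fun _ => h0
  | succ n ih =>
    intro h
    show pos (A.height n) (A.w n) (A.m n) = pos (B.height n) (B.w n) (B.m n)
    rw [ih fun j hj => h j (by omega), (h n (by omega)).1, (h n (by omega)).2]

theorem weight_congr (A B : Params) (h0 : A.h₀ = B.h₀) (n l : ℕ)
    (h : ∀ j < n + l, A.m j = B.m j ∧ A.w j = B.w j) (θ : ℝ) :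
    A.weight n l θ = B.weight n l θ := by
  unfold Params.weight
  congr 1
  refine Finset.prod_congr rfl fun j hj => ?_
  have hj' := Finset.mem_range.1 hj
  unfold Params.poly
  rw [height_congr A B h0 (n + j) fun i hi => h i (by omega), (h _ (by omega)).1,
    (h _ (by omega)).2]

/-- What is asked of stage `M` after the stages given by `A`. -/
def Good (R : ℕ → ℕ) (A : Params) (M m : ℕ) (w : ℕ → ℕ) : Prop :=
  2 ≤ m ∧ 2 ^ M * (2 * R (M + 1) + 1) ≤ m ∧ (∀ j, w j ≤ 2 * R M) ∧ w (m - 1) = 0 ∧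
    ∀ n ≤ M, ∫ θ in (0 : ℝ)..1,
      A.weight n (M - n) θ * |‖stagePoly m (A.height M) w θ‖ ^ 2 - 1| ≤ (1 / 2 : ℝ) ^ M

theorem exists_good (R : ℕ → ℕ) (hR : ∀ M h Dg : ℕ, Dg < h → ∀ a : Fin (M + 1) → ℕ → ℂ,
      (∀ i, ∫ θ in (0 : ℝ)..1, ‖tpoly Dg (a i) θ‖ ^ 2 ≤ 2) →
      (∀ i, ∀ δ ∈ Set.Icc (0 : ℝ) (1 / 2),
        ∫ θ in (-δ)..δ, ‖tpoly Dg (a i) θ‖ ^ 2 ≤ 128 * δ ^ 2) →
      ∀ M₀ : ℕ, ∃ m, M₀ ≤ m ∧ 2 ≤ m ∧ ∃ w : ℕ → ℕ, (∀ j, w j ≤ 2 * R M) ∧ w (m - 1) = 0 ∧
        ∀ i, ∫ θ in (0 : ℝ)..1,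
          ‖tpoly Dg (a i) θ‖ ^ 2 * |‖stagePoly m h w θ‖ ^ 2 - 1| ≤ (1 / 2 : ℝ) ^ M)
    (A : Params) (M : ℕ) : ∃ m w, Good R A M m w := by
  have hh := two_le_height A M
  choose a ha using fun i : Fin (M + 1) => weight_admissible A i.val (M - i.val)
  have e : ∀ i : Fin (M + 1), i.val + (M - i.val) = M := fun i => by omega
  simp only [e] at ha
  obtain ⟨m, hm0, hm2, w, hw, hlast, hint⟩ := hR M (A.height M) (A.height M - 1) (by omega) a
    (fun i => (ha i).2.1) (fun i => (ha i).2.2) (2 ^ M * (2 * R (M + 1) + 1))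
  refine ⟨m, w, hm2, hm0, hw, hlast, fun n hn => ?_⟩
  have := hint ⟨n, by omega⟩
  simp only [(ha ⟨n, by omega⟩).1] at this
  exact this

variable (R : ℕ → ℕ) (H : ∀ A M, ∃ m w, Good R A M m w)

/-- Choosing stage `n`. -/
noncomputable def stepP (P : Params) (n : ℕ) : Params where
  h₀ := P.h₀
  hh₀ := P.hh₀
  m := Function.update P.m n (H P n).choose
  hm j := by
    rcases eq_or_ne j n with rfl | hj
    · rw [Function.update_self]; exact (H P j).choose_spec.choose_spec.1
    · rw [Function.update_of_ne hj]; exact P.hm j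
  w := Function.update P.w n (H P n).choose_spec.choose
  hlast j := by
    rcases eq_or_ne j n with rfl | hj
    · rw [Function.update_self, Function.update_self]
      exact (H P j).choose_spec.choose_spec.2.2.2.1
    · rw [Function.update_of_ne hj, Function.update_of_ne hj]; exact P.hlast j

/-- The parameters with the first `n` stages chosen. -/
noncomputable def pre : ℕ → Params
  | 0 => ⟨2 * R 0 + 2, by omega, fun _ => 2, fun _ => le_rfl, fun _ _ => 0, fun _ => rfl⟩
  | n + 1 => stepP R H (pre n) n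

/-- All stages. -/
noncomputable def lim : Params where
  h₀ := (pre R H 0).h₀
  hh₀ := (pre R H 0).hh₀
  m n := (pre R H (n + 1)).m n
  hm n := (pre R H (n + 1)).hm n
  w n := (pre R H (n + 1)).w n
  hlast n := (pre R H (n + 1)).hlast n

theorem pre_h₀ : ∀ n, (pre R H n).h₀ = (pre R H 0).h₀
  | 0 => rfl
  | n + 1 => pre_h₀ n

theorem pre_agree : ∀ n j, j < n →
    (lim R H).m j = (pre R H n).m j ∧ (lim R H).w j = (pre R H n).w j
  | n + 1, j, h => by
    rcases eq_or_ne j n with rfl | hj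
    · exact ⟨rfl, rfl⟩
    · obtain ⟨h1, h2⟩ := pre_agree n j (by omega)
      refine ⟨h1.trans ?_, h2.trans ?_⟩
      · exact (Function.update_of_ne hj _ (pre R H n).m).symm
      · exact (Function.update_of_ne hj _ (pre R H n).w).symm

theorem lim_good (M : ℕ) : Good R (lim R H) M ((lim R H).m M) ((lim R H).w M) := by
  have hag := pre_agree R H M
  have h0 : (lim R H).h₀ = (pre R H M).h₀ := (pre_h₀ R H M).symm
  have hm : (lim R H).m M = (H (pre R H M) M).choose := by
    show Function.update (pre R H M).m M _ M = _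
    rw [Function.update_self]
  have hw : (lim R H).w M = (H (pre R H M) M).choose_spec.choose := by
    show Function.update (pre R H M).w M _ M = _
    rw [Function.update_self]
  obtain ⟨g1, g2, g3, g4, g5⟩ := (H (pre R H M) M).choose_spec.choose_spec
  rw [hm, hw]
  refine ⟨g1, g2, g3, g4, fun n hn => ?_⟩
  have hwt : (lim R H).weight n (M - n) = (pre R H M).weight n (M - n) :=
    funext (weight_congr _ _ h0 n (M - n) fun j hj => hag j (by omega))
  rw [hwt, height_congr _ _ h0 M hag]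
  exact g5 n hn

theorem lim_finiteMeasure : (lim R H).FiniteMeasure := by
  set A := lim R H with hA
  have hgood := lim_good R H
  have hheight : ∀ n, (2 * R n + 1) * 2 ^ n ≤ 2 * A.height n := by
    intro n
    cases n with
    | zero =>
      show (2 * R 0 + 1) * 2 ^ 0 ≤ 2 * (2 * R 0 + 2)
      omega
    | succ n =>
      have h1 := (hgood n).2.1
      have h2 := height_succ_ge A n
      have h3 : A.m n ≤ A.m n * A.height n :=
        Nat.le_mul_of_pos_right _ (by linarith [two_le_height A n])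
      calc (2 * R (n + 1) + 1) * 2 ^ (n + 1) = 2 * (2 ^ n * (2 * R (n + 1) + 1)) := by ring
        _ ≤ 2 * A.height (n + 1) := by linarith
  refine Summable.of_nonneg_of_le (fun n => by positivity) (fun n => ?_)
    (summable_geometric_two.mul_left (2 : ℝ))
  have hm : (0 : ℝ) < A.m n := by exact_mod_cast lt_of_lt_of_le two_pos (A.hm n)
  have hh : (0 : ℝ) < A.height n := by exact_mod_cast lt_of_lt_of_le two_pos (two_le_height A n)
  have hw : ((∑ j ∈ range (A.m n), A.w n j : ℕ) : ℝ) ≤ (A.m n : ℝ) * (2 * R n) := by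
    have : ∑ j ∈ range (A.m n), A.w n j ≤ A.m n * (2 * R n) := by
      refine (Finset.sum_le_sum fun j _ => (hgood n).2.2.1 j).trans ?_
      simp
    exact_mod_cast this
  have hge : (A.m n : ℝ) * A.height n ≤ A.height (n + 1) := by exact_mod_cast height_succ_ge A n
  have hn' : (2 * (R n : ℝ) + 1) * 2 ^ n ≤ 2 * A.height n := by exact_mod_cast hheight n
  calc ((∑ j ∈ range (A.m n), A.w n j : ℕ) : ℝ) / A.height (n + 1)
      ≤ (A.m n : ℝ) * (2 * R n) / ((A.m n : ℝ) * A.height n) :=
        div_le_div₀ (by positivity) hw (by positivity) hge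
    _ = 2 * R n / A.height n := mul_div_mul_left _ _ hm.ne'
    _ ≤ 2 * (1 / 2 : ℝ) ^ n := by
        rw [div_pow, one_pow, mul_one_div, div_le_div_iff₀ hh (by positivity)]
        nlinarith [pow_pos (two_pos : (0 : ℝ) < 2) n]

end Schedule

open Schedule in
theorem exists_params (h : ∀ ε : ℝ, 0 < ε → ∀ N, FlatStage ε N) :
    ∃ A : Params, A.FiniteMeasure ∧ A.FlatAll := by
  choose R hR using fun M : ℕ => h ((1 / 2 : ℝ) ^ M) (by positivity) (M + 1)
  have H := exists_good R hR
  refine ⟨lim R H, lim_finiteMeasure R H, fun M => (1 / 2 : ℝ) ^ M, summable_geometric_two,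
    fun n M hnM => (lim_good R H M).2.2.2.2 n hnM⟩

end Vale.Agent.P130.Simple
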