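import Vale.Agent.P130.Simple.Cells

/-! The limit density of the weights on the circle (helper25's argument). -/

open Finset MeasureTheory Filter
open scoped Topology ComplexConjugate
open Vale.Agent.P110.Flat (ee)
open P130Indep (Circ cm)

namespace Vale.Agent.P130.Simple

/-- The unnormalised polynomial of stage `n` on the circle. -/
noncomputable def rawPoly (A : Params) (n : ℕ) (t : Circ) : ℂ :=
  ∑ j ∈ range (A.m n), fourier (pos (A.height n) (A.w n) j : ℤ) t

variable {A : Params}

/-! ## The limit density -/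

/-- The normalised factor of stage `n` on the circle. -/
noncomputable def factor (A : Params) (n : ℕ) (t : Circ) : ℝ :=
  ‖rawPoly A n t‖ ^ 2 / A.m n

/-- The weight on the circle. -/
noncomputable def wgt (A : Params) (n l : ℕ) (t : Circ) : ℝ :=
  ‖1 - (fourier 1 t : ℂ)‖ ^ 2 * ∏ j ∈ range l, factor A (n + j) t

theorem continuous_factor (A : Params) (n : ℕ) : Continuous (factor A n) := by
  unfold factor rawPoly; fun_prop

theorem continuous_wgt (A : Params) (n l : ℕ) : Continuous (wgt A n l) :=
  ((continuous_const.sub (map_continuous (fourier 1))).norm.pow 2).mul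
    (continuous_finsetProd _ fun j _ => continuous_factor A (n + j))

theorem factor_coe (A : Params) (n : ℕ) (θ : ℝ) : factor A n (θ : Circ) = ‖A.poly n θ‖ ^ 2 := by
  rw [factor, rawPoly, Params.poly, stagePoly, norm_mul, Complex.norm_real, mul_pow,
    Real.norm_of_nonneg (by positivity), inv_pow, Real.sq_sqrt (Nat.cast_nonneg _), div_eq_inv_mul]
  congr 3
  exact sum_congr rfl fun j _ => by rw [fourier_eq_ee, Int.cast_natCast]

theorem wgt_coe (A : Params) (n l : ℕ) (θ : ℝ) : wgt A n l (θ : Circ) = A.weight n l θ := by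
  rw [wgt, Params.weight, fourier_eq_ee, Int.cast_one, one_mul]
  simp only [factor_coe]

theorem integral_circ (f : Circ → ℝ) : ∫ t, f t ∂cm = ∫ θ in (0 : ℝ)..1, f (θ : Circ) := by
  have e : cm = (volume : Measure Circ) := by
    simpa using (AddCircle.volume_eq_smul_haarAddCircle (T := (1 : ℝ))).symm
  have := AddCircle.intervalIntegral_preimage (1 : ℝ) 0 f
  rw [zero_add] at this
  rw [this, e]

theorem wgt_nonneg (A : Params) (n l : ℕ) (t : Circ) : 0 ≤ wgt A n l t :=
  mul_nonneg (sq_nonneg _) (prod_nonneg fun j _ => div_nonneg (sq_nonneg _) (Nat.cast_nonneg _))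

theorem integrable_circ {f : Circ → ℝ} (hf : Continuous f) : Integrable f cm :=
  hf.integrable_of_hasCompactSupport (HasCompactSupport.of_compactSpace _)

theorem ae_summable_of_integral {g : ℕ → Circ → ℝ} (hg : ∀ l, Continuous (g l))
    (h0 : ∀ l t, 0 ≤ g l t) (hs : Summable fun l => ∫ t, g l t ∂cm) :
    (∀ᵐ t ∂cm, Summable fun l => g l t) ∧
      Integrable (fun t => ∑' l, g l t) cm := by
  have hm : ∀ l, Measurable fun t => ENNReal.ofReal (g l t) :=
    fun l => (hg l).measurable.ennreal_ofReal
  have hfin : ∫⁻ t, ∑' l, ENNReal.ofReal (g l t) ∂cm ≠ ⊤ := by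
    rw [lintegral_tsum fun l => (hm l).aemeasurable]
    have e : ∀ l, ∫⁻ t, ENNReal.ofReal (g l t) ∂cm = ENNReal.ofReal (∫ t, g l t ∂cm) := fun l =>
      (ofReal_integral_eq_lintegral_ofReal (integrable_circ (hg l))
        (Eventually.of_forall (h0 l))).symm
    simp only [e]
    rw [← ENNReal.ofReal_tsum_of_nonneg (fun l => integral_nonneg (h0 l)) hs]
    exact ENNReal.ofReal_ne_top
  have hae := ae_lt_top (Measurable.tsum hm) hfin
  have hsum : ∀ᵐ t ∂cm, Summable fun l => g l t := by
    filter_upwards [hae] with t ht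
    refine (ENNReal.summable_toReal ht.ne).congr fun l => ENNReal.toReal_ofReal (h0 l t)
  refine ⟨hsum, (integrable_toReal_of_lintegral_ne_top (Measurable.tsum hm).aemeasurable hfin).congr
    ?_⟩
  filter_upwards [hsum] with t ht
  rw [← ENNReal.ofReal_tsum_of_nonneg (fun l => h0 l t) ht,
    ENNReal.toReal_ofReal (tsum_nonneg fun l => h0 l t)]

theorem exists_density (hA : A.FlatAll) (n : ℕ) :
    ∃ ρ : Circ → ℝ, Integrable ρ cm ∧ (∀ᵐ t ∂cm, 0 < ρ t) ∧ ∀ k : ℤ,
      Tendsto (fun l => ∫ t, fourier k t * (wgt A n l t : ℂ) ∂cm) atTop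
        (𝓝 (∫ t, fourier k t * (ρ t : ℂ) ∂cm)) := by
  obtain ⟨ε, hε, hflat⟩ := hA
  have hεn : Summable fun l => ε (n + l) := by
    simpa [add_comm n] using (summable_nat_add_iff n).2 hε
  set d : ℕ → Circ → ℝ := fun l t => wgt A n (l + 1) t - wgt A n l t with hd
  have hdeq : ∀ l t, d l t = wgt A n l t * (factor A (n + l) t - 1) := fun l t => by
    simp only [hd, wgt, prod_range_succ]; ring
  have hdc : ∀ l, Continuous fun t => |d l t| := fun l =>
    ((continuous_wgt A n (l + 1)).sub (continuous_wgt A n l)).abs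
  have hsd : Summable fun l => ∫ t, |d l t| ∂cm := by
    refine Summable.of_nonneg_of_le (fun l => integral_nonneg fun t => abs_nonneg _)
      (fun l => ?_) hεn
    refine le_of_eq_of_le ?_ (hflat n (n + l) (Nat.le_add_right _ _))
    rw [integral_circ]
    refine intervalIntegral.integral_congr fun θ _ => ?_
    rw [hdeq, abs_mul, abs_of_nonneg (wgt_nonneg A n l _), wgt_coe, factor_coe,
      Nat.add_sub_cancel_left]
  obtain ⟨hds, hdi⟩ := ae_summable_of_integral hdc (fun l t => abs_nonneg _) hsd
  have hfc : ∀ l, Continuous fun t => wgt A (n + l) 0 t * |factor A (n + l) t - 1| := fun l =>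
    (continuous_wgt A (n + l) 0).mul ((continuous_factor A (n + l)).sub continuous_const).abs
  have hsf : Summable fun l => ∫ t, wgt A (n + l) 0 t * |factor A (n + l) t - 1| ∂cm := by
    refine Summable.of_nonneg_of_le
      (fun l => integral_nonneg fun t => mul_nonneg (wgt_nonneg A _ _ _) (abs_nonneg _))
      (fun l => ?_) hεn
    refine le_of_eq_of_le ?_ (hflat (n + l) (n + l) le_rfl)
    rw [integral_circ]
    simp only [wgt_coe, factor_coe, Nat.sub_self]
  obtain ⟨hfs, -⟩ := ae_summable_of_integral hfc
    (fun l t => mul_nonneg (wgt_nonneg A _ _ _) (abs_nonneg _)) hsf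
  have hzero : ∀ᵐ t ∂cm, t ≠ (0 : Circ) := by simp [ae_iff, P130Simple.cm_singleton]
  have hposF : ∀ᵐ t ∂cm, ∀ l, 0 < factor A (n + l) t := by
    refine ae_all_iff.2 fun l => ?_
    have hm : 0 < A.m (n + l) := lt_of_lt_of_le two_pos (A.hm _)
    filter_upwards [P130Simple.ae_charSum_ne_zero hm
      (pos (A.height (n + l)) (A.w (n + l))) fun i _ j _ e => by
        by_contra hne
        rcases lt_or_gt_of_ne hne with h | h
        · have := pos_gap (A.height (n + l)) (A.w (n + l)) h
          have := A.two_le_height (n + l); omega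
        · have := pos_gap (A.height (n + l)) (A.w (n + l)) h
          have := A.two_le_height (n + l); omega] with t ht
    exact div_pos (pow_pos (norm_pos_iff.2 ht) 2) (by exact_mod_cast hm)
  set ρ : Circ → ℝ := fun t => wgt A n 0 t + ∑' l, d l t with hρ
  have hconv : ∀ᵐ t ∂cm, Tendsto (fun l => wgt A n l t) atTop (𝓝 (ρ t)) := by
    filter_upwards [hds] with t ht
    refine ((Summable.of_abs ht).hasSum.tendsto_sum_nat.const_add (wgt A n 0 t)).congr fun l => ?_
    simp only [hd]
    rw [sum_range_sub (fun i => wgt A n i t)]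
    ring
  have hbound : ∀ l, ∀ᵐ t ∂cm, |wgt A n l t| ≤ |wgt A n 0 t| + ∑' i, |d i t| := fun l => by
    filter_upwards [hds] with t ht
    have e : wgt A n l t = wgt A n 0 t + ∑ i ∈ range l, d i t := by
      simp only [hd]; rw [sum_range_sub (fun i => wgt A n i t)]; ring
    rw [e]
    refine (abs_add_le _ _).trans (add_le_add le_rfl ((abs_sum_le_sum_abs _ _).trans ?_))
    exact ht.sum_le_tsum _ fun i _ => abs_nonneg _
  have hG : Integrable (fun t => |wgt A n 0 t| + ∑' i, |d i t|) cm :=
    (integrable_circ (continuous_wgt A n 0).abs).add hdi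
  have hρm : AEStronglyMeasurable ρ cm := aestronglyMeasurable_of_tendsto_ae atTop
    (fun l => (continuous_wgt A n l).aestronglyMeasurable) hconv
  have hρi : Integrable ρ cm := by
    refine hG.mono' hρm ?_
    filter_upwards [hconv, ae_all_iff.2 hbound] with t ht hb
    exact le_of_tendsto ht.norm (Eventually.of_forall fun l => hb l)
  refine ⟨ρ, hρi, ?_, fun k => ?_⟩
  · filter_upwards [hconv, hfs, hzero, hposF] with t ht hf h0 hF
    have hw : 0 < ‖1 - (fourier 1 t : ℂ)‖ ^ 2 := by
      refine pow_pos (norm_pos_iff.2 (sub_ne_zero.2 fun h => h0 ?_)) 2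
      rw [fourier_apply, one_smul] at h
      refine AddCircle.injective_toCircle one_ne_zero ?_
      rw [AddCircle.toCircle_zero]
      exact Subtype.ext h.symm
    have hs : Summable fun l => |factor A (n + l) t - 1| := by
      refine ((hf.mul_left (‖1 - (fourier 1 t : ℂ)‖ ^ 2)⁻¹)).congr fun l => ?_
      rw [wgt, range_zero, prod_empty, mul_one, inv_mul_cancel_left₀ hw.ne']
    have hlog : Summable fun l => Real.log (1 + (factor A (n + l) t - 1)) :=
      Real.summable_log_one_add_of_summable (Summable.of_abs hs)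
    have hlim : Tendsto (fun l => wgt A n l t) atTop
        (𝓝 (‖1 - (fourier 1 t : ℂ)‖ ^ 2 * Real.exp (∑' l, Real.log (factor A (n + l) t)))) := by
      simp only [add_sub_cancel] at hlog
      refine (((Real.continuous_exp.tendsto _).comp hlog.hasSum.tendsto_sum_nat).const_mul
        (‖1 - (fourier 1 t : ℂ)‖ ^ 2)).congr fun l => ?_
      rw [Function.comp_apply, Real.exp_sum, wgt]
      exact congrArg _ (prod_congr rfl fun j _ => Real.exp_log (hF j))
    rw [tendsto_nhds_unique ht hlim]
    positivity
  · refine tendsto_integral_of_dominated_convergence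
      (fun t => |wgt A n 0 t| + ∑' i, |d i t|) (fun l => ?_) hG (fun l => ?_) ?_
    · exact ((map_continuous (fourier k)).mul
        (Complex.continuous_ofReal.comp (continuous_wgt A n l))).aestronglyMeasurable
    · filter_upwards [hbound l] with t ht
      rwa [norm_mul, fourier_apply, Circle.norm_coe, one_mul, Complex.norm_real, Real.norm_eq_abs]
    · filter_upwards [hconv] with t ht
      exact ((Complex.continuous_ofReal.tendsto _).comp ht).const_mul _

/-- The coefficients of the weights, read on the circle. -/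
theorem wgt_coef (A : Params) (n l : ℕ) (k : ℤ) :
    ∫ t, fourier k t * (wgt A n l t : ℂ) ∂cm
      = ∫ θ in (0 : ℝ)..1, (A.weight n l θ : ℂ) * ee ((k : ℝ) * θ) := by
  have e : cm = (volume : Measure Circ) := by
    simpa using (AddCircle.volume_eq_smul_haarAddCircle (T := (1 : ℝ))).symm
  have h := AddCircle.intervalIntegral_preimage (1 : ℝ) 0
    fun t : Circ => fourier k t * (wgt A n l t : ℂ)
  rw [zero_add] at h
  rw [e, ← h]
  refine intervalIntegral.integral_congr fun θ _ => ?_
  change fourier k (θ : Circ) * (wgt A n l (θ : Circ) : ℂ) = _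
  rw [fourier_eq_ee, wgt_coe, mul_comm]

end Vale.Agent.P130.Simple
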