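import Vale.Agent.P130.Simple.Cells
import Vale.Agent.P130.Simple.SpectralRiesz

/-! The spectral argument. -/

namespace Vale.Agent.P130.Simple

open Finset MeasureTheory Filter Topology AddCircle
open scoped BigOperators ComplexConjugate
open Vale.Agent.P110.Flat (ee)
open P130Indep (tp Circ cm)

theorem orbit_eq_tp {X : Type} [MeasurableSpace X] (T : X ≃ᵐ X) (t : ℤ) (x : X) :
    (if 0 ≤ t then (T : X → X)^[t.natAbs] x else (T.symm : X → X)^[t.natAbs] x) = tp T t x := by
  rcases Int.eq_nat_or_neg t with ⟨n, rfl | rfl⟩
  · simp [tp, Equiv.Perm.coe_pow]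
  · rcases Nat.eq_zero_or_pos n with rfl | hn
    · simp [tp]
    · rw [if_neg (by omega)]
      simp only [tp, Int.natAbs_neg, Int.natAbs_natCast, zpow_neg, zpow_natCast, ← inv_pow,
        Equiv.Perm.coe_pow]
      rfl

theorem simpleLebesgue_of_flat (A : Params) (hA : A.FlatAll) (S : RankOne A) :
    SimpleLebesgueExists := by
  choose ρ hρi hρp hρ using exists_density hA
  set β : ℕ → ℝ := fun n => (S.μ (S.B n)).toReal
  have hinj : ∀ n, Set.InjOn (fun j => pos (A.height n) (A.w n) j)
      (Finset.range (A.m n) : Set ℕ) := by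
    intro n i _ j _ h
    simp only at h
    have := A.height_pos n
    rcases lt_trichotomy i j with h' | h' | h'
    · have := pos_gap (A.height n) (A.w n) h'; omega
    · exact h'
    · have := pos_gap (A.height n) (A.w n) h'; omega
  obtain ⟨g, hg, hg0, horth, hcomp⟩ := P130Simple.exists_orthonormal_orbit_of_chain S.hT S.cell
    S.memLp_cell S.integral_cell A.m (fun n => by have := A.hm n; omega)
    (fun n j => pos (A.height n) (A.w n) j) hinj
    (fun n => Eventually.of_forall fun x => S.cell_refine n x)
    (fun n t => β n * ρ n t) (fun n => (hρi n).const_mul _)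
    (fun n => by
      filter_upwards [hρp n] with t ht
      exact mul_pos (S.measure_B_pos n) ht)
    (fun n k => by
      refine tendsto_nhds_unique (S.tendsto_cell_corr n k) ?_
      have e : ∫ t, fourier k t * ((β n * ρ n t : ℝ) : ℂ) ∂cm
          = (β n : ℂ) * ∫ t, fourier k t * (ρ n t : ℂ) ∂cm := by
        rw [← integral_const_mul]
        congr 1; funext t; push_cast; ring
      rw [e]
      simp only [← wgt_coef]
      exact (hρ n k).const_mul _)
    S.total
  refine ⟨S.X, S.mX, S.hstd, S.μ, S.hprob, S.hna, S.T, S.hT, g, hg, hg0, ?_⟩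
  simp only [orbit_eq_tp]
  refine ⟨fun s t => ?_, fun h hh hh0 ho => hcomp h hh hh0 fun t => ?_⟩
  · have := horth t s
    simp only [mul_comm (conj (g _))] at this
    refine this.trans (if_congr eq_comm rfl rfl)
  · have := ho t
    simpa only [mul_comm (conj (g _))] using this

end Vale.Agent.P130.Simple
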