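import Vale.Agent.P130.Simple.Defs
import Vale.Agent.P130.RankOne.Map

/-! Cutting and stacking over an odometer with a roof. -/

namespace Vale.Agent.P130.Simple

open Finset MeasureTheory
open scoped BigOperators
open Vale.Agent.P110.Flat (ee dot)
open Vale.Agent.P130.RankOne (Stack hgt radix)

/-- The radices: one cut producing the first tower, then those of the parameters. -/
def stackP (A : Params) : ℕ → ℕ
  | 0 => 2
  | n + 1 => A.m n

/-- The starts of the pieces. -/
def stackS (A : Params) : ℕ → ℕ → ℕ
  | 0, i => if i = 0 then 0 else A.h₀ - 1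
  | n + 1, i => pos (A.height n) (A.w n) i

theorem pos_succ (h : ℕ) (w : ℕ → ℕ) (j : ℕ) : pos h w (j + 1) = pos h w j + (h + w j) :=
  Finset.sum_range_succ (fun i => h + w i) j

theorem pos_eq (h : ℕ) (w : ℕ → ℕ) (j : ℕ) : pos h w j = j * h + ∑ i ∈ range j, w i := by
  rw [pos, Finset.sum_add_distrib, Finset.sum_const, Finset.card_range, smul_eq_mul]

theorem height_succ (A : Params) (n : ℕ) :
    A.height (n + 1) = pos (A.height n) (A.w n) (A.m n) := rfl

theorem stack_hgt (A : Params) : ∀ n, hgt (stackP A) (stackS A) (n + 1) = A.height n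
  | 0 => by
      have := A.hh₀
      simp only [hgt, stackP, stackS, Params.height]
      norm_num
      omega
  | n + 1 => by
      show pos (A.height n) (A.w n) (A.m n - 1) + hgt (stackP A) (stackS A) (n + 1) =
        A.height (n + 1)
      obtain ⟨k, hk⟩ : ∃ k, A.m n = k + 1 := ⟨A.m n - 1, by have := A.hm n; omega⟩
      have hl := A.hlast n
      rw [stack_hgt A n, height_succ, hk, Nat.add_sub_cancel, pos_succ]
      rw [hk, Nat.add_sub_cancel] at hl
      omega

theorem height_pos (A : Params) : ∀ n, 0 < A.height n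
  | 0 => by have := A.hh₀; show 0 < A.h₀; omega
  | n + 1 => by
      rw [height_succ, pos_eq]
      exact Nat.add_pos_left (Nat.mul_pos (by have := A.hm n; omega) (height_pos A n)) _

theorem stack_bdd (A : Params) (hA : A.FiniteMeasure) :
    ∃ C : ℕ, ∀ n, hgt (stackP A) (stackS A) n ≤ C * radix (stackP A) n := by
  set x : ℕ → ℝ := fun n =>
    ((∑ j ∈ range (A.m n), A.w n j : ℕ) : ℝ) / (A.height (n + 1) : ℝ) with hx
  have hR : ∀ n, 0 < radix (stackP A) n := fun n => by
    induction n with
    | zero => exact Nat.one_pos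
    | succ n ih =>
      refine Nat.mul_pos ih ?_
      cases n with
      | zero => exact Nat.two_pos
      | succ n => exact lt_of_lt_of_le Nat.two_pos (A.hm n)
  set r : ℕ → ℝ := fun n => (A.height n : ℝ) / (radix (stackP A) (n + 1) : ℝ) with hr
  have hr0 : ∀ n, 0 ≤ r n := fun n => div_nonneg (Nat.cast_nonneg _) (Nat.cast_nonneg _)
  have hx0 : ∀ n, 0 ≤ x n := fun n => div_nonneg (Nat.cast_nonneg _) (Nat.cast_nonneg _)
  have hrec : ∀ n, r (n + 1) * (1 - x n) = r n := fun n => by
    have h1 : (A.height (n + 1) : ℝ) =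
        (A.m n : ℝ) * A.height n + ((∑ j ∈ range (A.m n), A.w n j : ℕ) : ℝ) := by
      rw [height_succ, pos_eq]; push_cast; ring
    have h2 : (0 : ℝ) < A.height (n + 1) := Nat.cast_pos.2 (height_pos A (n + 1))
    have h3 : (radix (stackP A) (n + 1 + 1) : ℝ) = radix (stackP A) (n + 1) * A.m n := by
      rw [← Nat.cast_mul]; rfl
    have h4 : (0 : ℝ) < radix (stackP A) (n + 1) := Nat.cast_pos.2 (hR _)
    have h5 : (0 : ℝ) < A.m n := Nat.cast_pos.2 (by have := A.hm n; omega)
    simp only [hr, hx, h3]
    field_simp
    linarith [h1]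
  obtain ⟨N, hN⟩ : ∃ N, ∀ n, N ≤ n → x n ≤ 1 / 2 := by
    have h := hA.tendsto_atTop_zero.eventually (eventually_le_nhds (by norm_num : (0 : ℝ) < 1 / 2))
    exact Filter.eventually_atTop.1 h
  have hstep : ∀ k, r (N + k) ≤ r N * Real.exp (2 * ∑ i ∈ range k, x (N + i)) := fun k => by
    induction k with
    | zero => simp
    | succ k ih =>
      have hk := hN (N + k) (Nat.le_add_right _ _)
      have h1 : r (N + k + 1) ≤ r (N + k) * (1 + 2 * x (N + k)) := by
        rw [← hrec (N + k), mul_assoc]
        exact le_mul_of_one_le_right (hr0 _) (by nlinarith [hx0 (N + k)])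
      rw [Finset.sum_range_succ, mul_add, Real.exp_add, ← mul_assoc, ← add_assoc]
      refine h1.trans (mul_le_mul ih ?_ (by linarith [hx0 (N + k)])
        (mul_nonneg (hr0 N) (Real.exp_pos _).le))
      linarith [Real.add_one_le_exp (2 * x (N + k))]
  have hb : ∃ C : ℝ, ∀ n, r n ≤ C := by
    refine ⟨∑ i ∈ range N, r i + r N * Real.exp (2 * ∑' i, x (N + i)), fun n => ?_⟩
    rcases Nat.lt_or_ge n N with h | h
    · refine (Finset.single_le_sum (fun i _ => hr0 i) (mem_range.2 h)).trans ?_
      exact le_add_of_nonneg_right (mul_nonneg (hr0 N) (Real.exp_pos _).le)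
    · obtain ⟨k, rfl⟩ := Nat.exists_eq_add_of_le h
      refine (hstep k).trans (le_trans ?_
        (le_add_of_nonneg_left (Finset.sum_nonneg fun i _ => hr0 i)))
      refine mul_le_mul_of_nonneg_left (Real.exp_le_exp.2 ?_) (hr0 N)
      have hs : Summable fun i => x (N + i) :=
        hA.comp_injective fun a b h => Nat.add_left_cancel h
      exact mul_le_mul_of_nonneg_left (hs.sum_le_tsum _ fun i _ => hx0 _) (by norm_num)
  obtain ⟨C, hC⟩ := hb
  refine ⟨max 1 ⌈C⌉₊, fun n => ?_⟩
  cases n with
  | zero => simp [hgt, radix]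
  | succ n =>
    rw [stack_hgt]
    have h1 : (A.height n : ℝ) ≤ C * radix (stackP A) (n + 1) :=
      (div_le_iff₀ (Nat.cast_pos.2 (hR _))).1 (hC n)
    have h2 : C ≤ ((max 1 ⌈C⌉₊ : ℕ) : ℝ) :=
      (Nat.le_ceil C).trans (Nat.cast_le.2 (le_max_right _ _))
    have h3 := h1.trans (mul_le_mul_of_nonneg_right h2 (Nat.cast_nonneg _))
    exact_mod_cast h3

/-- The cutting and stacking data of the parameters. -/
def stack (A : Params) (hA : A.FiniteMeasure) : Stack where
  p := stackP A
  two_le n := match n with
    | 0 => le_rfl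
    | n + 1 => A.hm n
  s := stackS A
  s_zero n := match n with
    | 0 => rfl
    | n + 1 => rfl
  gap n i hi := match n with
    | 0 => by
        have hi' : i = 0 := by simp only [stackP] at hi; omega
        subst hi'
        have := A.hh₀
        simp [stackS, hgt]
        omega
    | n + 1 => by
        show pos (A.height n) (A.w n) i + hgt (stackP A) (stackS A) (n + 1) ≤
          pos (A.height n) (A.w n) (i + 1)
        rw [stack_hgt, pos_succ]
        omega
  bdd := stack_bdd A hA

theorem exists_rankOne (A : Params) (hA : A.FiniteMeasure) : Nonempty (RankOne A) := by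
  set S := stack A hA with hS
  have hh : ∀ n, S.h (n + 1) = A.height n := stack_hgt A
  have himg : ∀ n i, i < A.height n →
      ((RankOne.shift S : RankOne.Space S → RankOne.Space S))^[i] '' RankOne.lvl S (n + 1) 0 =
        RankOne.lvl S (n + 1) i := by
    intro n i hi
    induction i with
    | zero => simp
    | succ i ih =>
      rw [Function.iterate_succ', Set.image_comp, ih (by omega)]
      ext q
      constructor
      · rintro ⟨u, hu, rfl⟩
        exact (RankOne.shift_mem_lvl S (by rw [hh]; exact hi) u).2 hu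
      · intro hq
        refine ⟨(RankOne.shift S).symm q, ?_, MeasurableEquiv.apply_symm_apply _ _⟩
        rw [← RankOne.shift_mem_lvl S (by rw [hh]; exact hi),
          MeasurableEquiv.apply_symm_apply]
        exact hq
  refine ⟨{
    X := RankOne.Space S
    mX := inferInstance
    hstd := inferInstance
    μ := RankOne.mu S
    hprob := RankOne.isProb_mu S
    hna := RankOne.nullSingleton_mu S
    T := RankOne.shift S
    hT := RankOne.measurePreserving_shift S
    B := fun n => RankOne.lvl S (n + 1) 0
    hB := fun n => RankOne.measurableSet_lvl S _ _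
    hdisj := fun n i j hi hj hij => ?_
    hsplit := fun n => ?_
    hsize := fun n => ?_
    hcover := ?_
    hgen := ?_ }⟩
  · rw [himg n i hi, himg n j hj]
    exact RankOne.disjoint_lvl S hij
  · rw [RankOne.lvl_refine S (by rw [hh]; exact height_pos A n)]
    refine Set.iUnion₂_congr fun j hj => ?_
    have hlt : pos (A.height n) (A.w n) j < A.height (n + 1) := by
      have h := S.s_add_le_h (n := n + 1) (i := j) (Finset.mem_range.1 hj)
      rw [hh, hh] at h
      have := height_pos A n
      exact lt_of_lt_of_le (Nat.lt_add_of_pos_right this) h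
    exact (himg (n + 1) _ hlt).symm
  · show RankOne.mu S (RankOne.lvl S (n + 1) 0) =
      A.m n * RankOne.mu S (RankOne.lvl S (n + 1 + 1) 0)
    rw [RankOne.mu_lvl S (S.h_pos _), RankOne.mu_lvl S (S.h_pos _), ← ENNReal.ofReal_natCast,
      ← ENNReal.ofReal_mul (Nat.cast_nonneg _)]
    congr 1
    have h1 : (S.M (n + 1 + 1) : ℝ) = S.M (n + 1) * A.m n := by rw [← Nat.cast_mul]; rfl
    have h2 : (A.m n : ℝ) ≠ 0 := Nat.cast_ne_zero.2 (by have := A.hm n; omega)
    rw [h1]
    field_simp
  · have h := (RankOne.tendsto_column S).comp (Filter.tendsto_add_atTop_nat 1)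
    refine h.congr fun n => ?_
    simp only [Function.comp_apply, hh]
    rw [RankOne.mu_lvl S (S.h_pos _), ENNReal.toReal_ofReal
      (div_nonneg (RankOne.cst_pos S).le (Nat.cast_nonneg _))]
    ring
  · refine le_antisymm ?_ (MeasurableSpace.generateFrom_le ?_)
    · refine (le_of_eq (RankOne.generateFrom_lvls S)).trans
        (MeasurableSpace.generateFrom_le ?_)
      have key : ∀ n i, MeasurableSet[MeasurableSpace.generateFrom
          {s | ∃ n i, i < A.height n ∧ s = (RankOne.shift S : RankOne.Space S →
            RankOne.Space S)^[i] '' RankOne.lvl S (n + 1) 0}] (RankOne.lvl S (n + 1) i) := by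
        intro n i
        rcases Nat.lt_or_ge i (A.height n) with hi | hi
        · exact MeasurableSpace.measurableSet_generateFrom ⟨n, i, hi, (himg n i hi).symm⟩
        · rw [RankOne.lvl_eq_empty S (by rw [hh]; exact hi)]
          exact @MeasurableSet.empty _ (MeasurableSpace.generateFrom _)
      rintro s (rfl | ⟨⟨n, j⟩, rfl⟩)
      · exact @MeasurableSet.empty _ (MeasurableSpace.generateFrom _)
      cases n with
      | succ n => exact key n j
      | zero =>
        rcases Nat.lt_or_ge j (S.h 0) with hj | hj
        · dsimp only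
          rw [RankOne.lvl_refine S hj]
          exact @MeasurableSet.iUnion _ _ (MeasurableSpace.generateFrom _) _ _ fun i =>
            @MeasurableSet.iUnion _ _ (MeasurableSpace.generateFrom _) _ _ fun _ => key 0 _
        · dsimp only
          rw [RankOne.lvl_eq_empty S hj]
          exact @MeasurableSet.empty _ (MeasurableSpace.generateFrom _)
    · rintro s ⟨n, i, hi, rfl⟩
      rw [himg n i hi]
      exact RankOne.measurableSet_lvl S _ _

end Vale.Agent.P130.Simple
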