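import Vale.Agent.P130.Simple.Flat
import Vale.Agent.P130.Simple.Schedule
import Vale.Agent.P130.Simple.System
import Vale.Agent.P130.Simple.Spectral

/-! Banach's problem. -/

namespace Vale.Agent.P130.Simple

open Finset MeasureTheory
open scoped BigOperators
open Vale.Agent.P110.Flat (ee dot)

theorem simpleLebesgueExists : SimpleLebesgueExists := by
  obtain ⟨A, hfin, hflat⟩ := exists_params fun ε hε N => flatStage ε hε N
  obtain ⟨S⟩ := exists_rankOne A hfin
  exact simpleLebesgue_of_flat A hflat S

end Vale.Agent.P130.Simple
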