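import Vale.Agent.P130.Simple.WaitDefs

/-!
The Fourier coefficients of `φ ↦ exp (2 π i θ D φ)` for the waiting time `D`, and their modulus away
from `θ = 0`.
-/

namespace Vale.Agent.P130.Simple

open Finset MeasureTheory
open scoped BigOperators
open Vale.Agent.P110.Flat (ee dot)

namespace WC

variable {G L M : ℕ}

theorem ee_add (x y : ℝ) : ee (x + y) = ee x * ee y := by
  simp only [ee]; rw [← Complex.exp_add]; congr 1; push_cast; ring

theorem ee_zero : ee 0 = 1 := by simp [ee]

theorem ee_int (n : ℤ) : ee n = 1 := by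
  rw [ee, show (2 : ℂ) * Real.pi * ((n : ℝ) : ℂ) * Complex.I = (n : ℂ) * (2 * Real.pi * Complex.I) by
    push_cast; ring, Complex.exp_int_mul_two_pi_mul_I]

theorem norm_ee (x : ℝ) : ‖ee x‖ = 1 := by
  rw [ee, show (2 : ℂ) * Real.pi * (x : ℂ) * Complex.I = ((2 * Real.pi * x : ℝ) : ℂ) * Complex.I by
    push_cast; ring, Complex.norm_exp_ofReal_mul_I]

theorem ee_sum {ι : Type*} (s : Finset ι) (f : ι → ℝ) : ee (∑ i ∈ s, f i) = ∏ i ∈ s, ee (f i) := by
  classical
  induction s using Finset.induction_on with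
  | empty => simp [ee_zero]
  | insert a s ha ih => rw [Finset.sum_insert ha, Finset.prod_insert ha, ee_add, ih]

theorem ee_nat_mul (n : ℕ) (x : ℝ) : ee ((n : ℝ) * x) = ee x ^ n := by
  induction n with
  | zero => simp [ee_zero]
  | succ n ih => rw [pow_succ, ← ih, ← ee_add]; congr 1; push_cast; ring

theorem continuous_ee : Continuous ee := by
  unfold ee; fun_prop

theorem measurable_ee : Measurable ee := continuous_ee.measurable

/-- The uniform measure on the unit interval. -/
noncomputable def unitM : Measure ℝ := volume.restrict (Set.Ico (0 : ℝ) 1)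

theorem unitM_univ : unitM Set.univ = 1 := by
  rw [unitM, Measure.restrict_apply_univ, Real.volume_Ico]; simp

theorem restrict_cube (d : ℕ) :
    (volume : Measure (Fin d → ℝ)).restrict (cube d) = Measure.pi fun _ => unitM := by
  rw [cube, volume_pi, Measure.restrict_pi_pi]; rfl

theorem isProb_unitM : IsProbabilityMeasure unitM := ⟨unitM_univ⟩

/-- Bounded measurable functions are integrable for the product. -/
theorem integrable_of_bdd {ι : Type*} [Fintype ι] {f : (ι → ℝ) → ℂ} (hf : Measurable f) (C : ℝ)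
    (hC : ∀ x, ‖f x‖ ≤ C) : Integrable f (Measure.pi fun _ : ι => unitM) := by
  have := isProb_unitM
  exact Integrable.of_bound hf.aestronglyMeasurable C (Filter.Eventually.of_forall hC)

theorem integral_ee_unit (k : ℤ) :
    ∫ x, ee (-((k : ℝ) * x)) ∂unitM = if k = 0 then 1 else 0 := by
  by_cases hk : k = 0
  · have := isProb_unitM
    simp [hk, ee_zero]
  rw [if_neg hk, unitM, integral_Ico_eq_integral_Ioc,
    ← intervalIntegral.integral_of_le zero_le_one]
  have hc : (-(2 * Real.pi * (k : ℝ)) : ℂ) * Complex.I ≠ 0 := by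
    simp [Real.pi_ne_zero, hk]
  have he : ∀ x : ℝ, ee (-((k : ℝ) * x)) =
      Complex.exp ((-(2 * Real.pi * (k : ℝ)) : ℂ) * Complex.I * x) := fun x => by
    rw [ee]; congr 1; push_cast; ring
  simp only [he]
  rw [integral_exp_mul_complex hc, ← he, ← he]
  rw [show -((k : ℝ) * 1) = ((-k : ℤ) : ℝ) by push_cast; ring, ee_int]
  simp [ee_zero]

theorem dot_sum (v : Fin M → ℤ) (ψ : Fin M → ℝ) :
    ee (-dot v ψ) = ∏ i, ee (-((v i : ℝ) * ψ i)) := by
  rw [dot, ← Finset.sum_neg_distrib, ee_sum]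

theorem integral_block_one (v : Fin M → ℤ) :
    ∫ ψ, ee (-dot v ψ) ∂(Measure.pi fun _ => unitM) = if v = 0 then 1 else 0 := by
  have := isProb_unitM
  simp only [dot_sum]
  rw [integral_fintype_prod_eq_prod (fun i x => ee (-((v i : ℝ) * x)))]
  simp only [integral_ee_unit]
  by_cases h : v = 0
  · simp [h]
  · obtain ⟨i, hi⟩ := Function.ne_iff.1 h
    rw [if_neg h]
    exact Finset.prod_eq_zero (Finset.mem_univ i) (if_neg hi)

theorem measurableSet_hit : MeasurableSet {ψ : Fin M → ℝ | BlockHit G ψ} := by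
  have h : Measurable fun ψ : Fin M → ℝ => ∑ i, ⌊(G : ℝ) * Int.fract (ψ i)⌋ := by fun_prop
  exact h (MeasurableSet.of_discrete (s := {n : ℤ | (G : ℤ) ∣ n}))

/-- The integral over one cell of the partition into `G` intervals. -/
theorem integral_cell (hG : 1 ≤ G) (k : ℤ) (a : Fin G) :
    ∫ x, (if ⌊(G : ℝ) * Int.fract x⌋ = (a : ℕ) then ee (-((k : ℝ) * x)) else 0) ∂unitM =
      ee (-((k : ℝ) * (a : ℕ) / G)) * wOne G k := by
  have hG0 : (0 : ℝ) < G := by exact_mod_cast hG
  have ha : ((a : ℕ) : ℝ) + 1 ≤ G := by exact_mod_cast a.isLt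
  have e1 : ∀ x ∈ Set.Ico (0 : ℝ) 1,
      (if ⌊(G : ℝ) * Int.fract x⌋ = (a : ℕ) then ee (-((k : ℝ) * x)) else 0) =
        (Set.Ico (((a : ℕ) : ℝ) / G) ((((a : ℕ) : ℝ) + 1) / G)).indicator
          (fun x => ee (-((k : ℝ) * x))) x := by
    intro x hx
    rw [Int.fract_eq_self.2 ⟨hx.1, hx.2⟩]
    have : ⌊(G : ℝ) * x⌋ = ((a : ℕ) : ℤ) ↔
        x ∈ Set.Ico (((a : ℕ) : ℝ) / G) ((((a : ℕ) : ℝ) + 1) / G) := by
      rw [Int.floor_eq_iff, Set.mem_Ico, div_le_iff₀ hG0, lt_div_iff₀ hG0, mul_comm x]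
      simp
    by_cases h : ⌊(G : ℝ) * x⌋ = ((a : ℕ) : ℤ)
    · rw [if_pos h, Set.indicator_of_mem (this.1 h)]
    · rw [if_neg h, Set.indicator_of_notMem (fun h' => h (this.2 h'))]
  rw [unitM, setIntegral_congr_fun measurableSet_Ico e1, setIntegral_indicator measurableSet_Ico,
    Set.inter_eq_right.2 (Set.Ico_subset_Ico (by positivity) ((div_le_one hG0).2 ha)),
    integral_Ico_eq_integral_Ioc,
    ← intervalIntegral.integral_of_le (by gcongr; linarith)]
  rw [wOne, ← intervalIntegral.integral_const_mul]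
  rw [show (((a : ℕ) : ℝ) + 1) / G = 1 / (G : ℝ) + ((a : ℕ) : ℝ) / G by ring]
  conv_lhs => rw [show ((a : ℕ) : ℝ) / G = 0 + ((a : ℕ) : ℝ) / G from (zero_add _).symm]
  rw [show (1 : ℝ) / G + (0 + ((a : ℕ) : ℝ) / G) = 1 / (G : ℝ) + ((a : ℕ) : ℝ) / G by ring,
    ← intervalIntegral.integral_comp_add_right]
  refine intervalIntegral.integral_congr fun x _ => ?_
  rw [← ee_add]
  congr 1
  ring

/-- A geometric sum of roots of unity. -/
theorem sum_ee_div (hG : 1 ≤ G) (j : ℤ) :
    ∑ a : Fin G, ee ((j : ℝ) * (a : ℕ) / G) = if (G : ℤ) ∣ j then (G : ℂ) else 0 := by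
  have hG0 : (G : ℝ) ≠ 0 := by positivity
  have hpow : ∀ a : ℕ, ee ((j : ℝ) * a / G) = ee ((j : ℝ) / G) ^ a := fun a => by
    rw [← ee_nat_mul]; congr 1; ring
  simp only [hpow]
  rw [Fin.sum_univ_eq_sum_range fun a => ee ((j : ℝ) / G) ^ a]
  by_cases h : (G : ℤ) ∣ j
  · obtain ⟨c, rfl⟩ := h
    rw [if_pos (dvd_mul_right _ _),
      show (((G : ℤ) * c : ℤ) : ℝ) / G = ((c : ℤ) : ℝ) by push_cast; field_simp, ee_int]
    simp
  · rw [if_neg h, geom_sum_eq ?_, ← ee_nat_mul,
      show (G : ℝ) * ((j : ℝ) / G) = ((j : ℤ) : ℝ) by field_simp, ee_int, sub_self, zero_div]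
    intro he
    rw [ee, Complex.exp_eq_one_iff] at he
    obtain ⟨n, hn⟩ := he
    refine h ⟨n, ?_⟩
    have h2 : ((j : ℝ) / G : ℂ) = (n : ℂ) := by
      have hpi : (2 : ℂ) * Real.pi * Complex.I ≠ 0 := by simp [Real.pi_ne_zero]
      refine mul_left_cancel₀ hpi ?_
      rw [mul_comm _ (n : ℂ), ← hn]
      push_cast
      ring
    have h3 : (j : ℝ) / G = (n : ℝ) := by exact_mod_cast h2
    rw [div_eq_iff hG0] at h3
    have h4 : (j : ℤ) = n * G := by exact_mod_cast h3
    rw [h4, mul_comm]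

theorem hit_expand (hG : 1 ≤ G) (v : Fin M → ℤ) (ψ : Fin M → ℝ) :
    {ψ | BlockHit G ψ}.indicator (fun ψ => ee (-dot v ψ)) ψ =
      ∑ a : Fin M → Fin G, if (G : ℤ) ∣ ∑ i, ((a i : ℕ) : ℤ) then
        ∏ i, (if ⌊(G : ℝ) * Int.fract (ψ i)⌋ = (a i : ℕ) then ee (-((v i : ℝ) * ψ i)) else 0)
      else 0 := by
  classical
  have hG0 : (0 : ℝ) < G := by exact_mod_cast hG
  have hfl : ∀ i, ∃ a : Fin G, ⌊(G : ℝ) * Int.fract (ψ i)⌋ = ((a : ℕ) : ℤ) := by
    intro i
    have h1 : 0 ≤ ⌊(G : ℝ) * Int.fract (ψ i)⌋ :=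
      Int.floor_nonneg.2 (mul_nonneg hG0.le (Int.fract_nonneg _))
    have h2 : ⌊(G : ℝ) * Int.fract (ψ i)⌋ < (G : ℤ) := by
      rw [Int.floor_lt]
      push_cast
      nlinarith [Int.fract_lt_one (ψ i)]
    exact ⟨⟨⌊(G : ℝ) * Int.fract (ψ i)⌋.toNat, by omega⟩, by simp only; omega⟩
  choose a₀ ha₀ using hfl
  rw [Finset.sum_eq_single a₀]
  · simp only [ha₀, if_true]
    by_cases h : BlockHit G ψ
    · rw [Set.indicator_of_mem (show ψ ∈ {ψ | BlockHit G ψ} from h), dot_sum,
        if_pos (by simpa [BlockHit, ha₀] using h)]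
    · rw [Set.indicator_of_notMem (show ψ ∉ {ψ | BlockHit G ψ} from h),
        if_neg (by simpa [BlockHit, ha₀] using h)]
  · intro a _ hne
    obtain ⟨i, hi⟩ := Function.ne_iff.1 hne
    have : ∀ z : ℂ, (if ⌊(G : ℝ) * Int.fract (ψ i)⌋ = ((a i : ℕ) : ℤ) then z else 0) = 0 := by
      intro z
      rw [if_neg]
      rw [ha₀]
      exact fun h => hi (Fin.ext (by exact_mod_cast h.symm))
    split_ifs
    · exact Finset.prod_eq_zero (Finset.mem_univ i) (this _)
    · rfl
  · exact fun h => absurd (Finset.mem_univ _) h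

theorem integral_hit (hG : 1 ≤ G) (hM : 1 ≤ M) (v : Fin M → ℤ) :
    ∫ ψ, {ψ | BlockHit G ψ}.indicator (fun ψ => ee (-dot v ψ)) ψ ∂(Measure.pi fun _ => unitM) =
      bBlock G M v := by
  classical
  have := isProb_unitM
  simp only [hit_expand hG v]
  rw [integral_finsetSum]
  swap
  · intro a _
    split_ifs
    · refine integrable_of_bdd (Finset.measurable_fun_prod _ fun i _ => ?_) 1 fun ψ => ?_
      · refine Measurable.ite ?_ (measurable_ee.comp (by fun_prop)) measurable_const
        exact (show Measurable fun ψ : Fin M → ℝ => ⌊(G : ℝ) * Int.fract (ψ i)⌋ by fun_prop)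
          (measurableSet_singleton _)
      · rw [norm_prod]
        refine Finset.prod_le_one (fun i _ => norm_nonneg _) fun i _ => ?_
        split_ifs
        · rw [norm_ee]
        · simp
    · exact integrable_zero _ _ _
  have h1 : ∀ a : Fin M → Fin G,
      (∫ ψ, if (G : ℤ) ∣ ∑ i, ((a i : ℕ) : ℤ) then
        ∏ i, (if ⌊(G : ℝ) * Int.fract (ψ i)⌋ = (a i : ℕ) then ee (-((v i : ℝ) * ψ i)) else 0)
        else 0 ∂(Measure.pi fun _ => unitM)) =
      ((G : ℂ)⁻¹ * ∑ j : Fin G, ∏ i, ee (((((j : ℕ) : ℤ) - v i : ℤ) : ℝ) * (a i : ℕ) / G)) *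
        ∏ i, wOne G (v i) := by
    intro a
    have hsum : (G : ℂ)⁻¹ * ∑ j : Fin G, ee (((∑ i, ((a i : ℕ) : ℤ) : ℤ) : ℝ) * (j : ℕ) / G) =
        if (G : ℤ) ∣ ∑ i, ((a i : ℕ) : ℤ) then 1 else 0 := by
      rw [sum_ee_div hG]
      split_ifs
      · exact inv_mul_cancel₀ (by exact_mod_cast (by omega : G ≠ 0))
      · simp
    have hprod : ∀ j : Fin G,
        ∏ i, ee (((((j : ℕ) : ℤ) - v i : ℤ) : ℝ) * (a i : ℕ) / G) =
        ee (((∑ i, ((a i : ℕ) : ℤ) : ℤ) : ℝ) * (j : ℕ) / G) *
          ∏ i, ee (-((v i : ℝ) * (a i : ℕ) / G)) := by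
      intro j
      rw [← ee_sum, ← ee_sum, ← ee_add]
      congr 1
      push_cast
      rw [Finset.sum_mul, Finset.sum_div, ← Finset.sum_add_distrib]
      exact Finset.sum_congr rfl fun i _ => by ring
    simp only [hprod, ← Finset.sum_mul]
    rw [← mul_assoc, hsum]
    split_ifs with h
    · rw [integral_fintype_prod_eq_prod (fun i x =>
        if ⌊(G : ℝ) * Int.fract x⌋ = (a i : ℕ) then ee (-((v i : ℝ) * x)) else 0)]
      simp only [integral_cell hG, Finset.prod_mul_distrib, one_mul]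
    · simp
  rw [Finset.sum_congr rfl fun a _ => h1 a, ← Finset.sum_mul, ← Finset.mul_sum, Finset.sum_comm]
  have h2 : ∀ j : Fin G,
      ∑ a : Fin M → Fin G, ∏ i, ee (((((j : ℕ) : ℤ) - v i : ℤ) : ℝ) * (a i : ℕ) / G) =
      if ∀ i, (G : ℤ) ∣ ((j : ℕ) : ℤ) - v i then (G : ℂ) ^ M else 0 := by
    intro j
    rw [← Fintype.piFinset_univ, ← Finset.prod_univ_sum (fun _ => (Finset.univ : Finset (Fin G)))
      (fun i b => ee (((((j : ℕ) : ℤ) - v i : ℤ) : ℝ) * (b : ℕ) / G))]
    simp only [sum_ee_div hG]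
    by_cases h : ∀ i, (G : ℤ) ∣ ((j : ℕ) : ℤ) - v i
    · rw [if_pos h, Finset.prod_congr rfl fun i _ => if_pos (h i)]
      simp
    · rw [if_neg h]
      obtain ⟨i, hi⟩ := not_forall.1 h
      exact Finset.prod_eq_zero (Finset.mem_univ i) (if_neg hi)
  simp only [h2]
  have hGz : (G : ℤ) ≠ 0 := by exact_mod_cast (by omega : G ≠ 0)
  have i₀ : Fin M := ⟨0, hM⟩
  unfold bBlock
  by_cases hc : ∀ i j, (G : ℤ) ∣ v i - v j
  · rw [if_pos hc]
    set j₀ : Fin G := ⟨(v i₀ % (G : ℤ)).toNat, by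
      have := Int.emod_lt_of_pos (v i₀) (show (0 : ℤ) < G by omega)
      have := Int.emod_nonneg (v i₀) hGz
      omega⟩ with hj₀
    have hj : ((j₀ : ℕ) : ℤ) = v i₀ % (G : ℤ) := by
      simp [hj₀, Int.emod_nonneg (v i₀) hGz]
    rw [Finset.sum_eq_single j₀]
    · rw [if_pos]
      · obtain ⟨M', rfl⟩ : ∃ M', M = M' + 1 := ⟨M - 1, by omega⟩
        rw [Nat.add_sub_cancel, pow_succ, mul_comm _ (G : ℂ), ← mul_assoc,
          inv_mul_cancel₀ (by exact_mod_cast (by omega : G ≠ 0)), one_mul]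
      · intro i
        have h := hc i₀ i
        have h0 : (G : ℤ) ∣ ((j₀ : ℕ) : ℤ) - v i₀ := by
          rw [hj]; exact ⟨-(v i₀ / (G : ℤ)), by rw [Int.emod_def]; ring⟩
        have := dvd_add h0 h
        simpa using this
    · intro j _ hne
      refine if_neg fun h => hne (Fin.ext ?_)
      have hmod : v i₀ % (G : ℤ) = ((j : ℕ) : ℤ) % (G : ℤ) := Int.emod_eq_emod_iff_emod_sub_eq_zero.2
        (Int.emod_eq_zero_of_dvd (by have := (h i₀).neg_right; simpa using this))
      rw [Int.emod_eq_of_lt (a := ((j : ℕ) : ℤ)) (Int.natCast_nonneg _) (by exact_mod_cast j.isLt)] at hmod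
      omega
    · exact fun h => absurd (Finset.mem_univ _) h
  · rw [if_neg hc, Finset.sum_eq_zero, mul_zero, zero_mul]
    intro j _
    refine if_neg fun h => hc fun i i' => ?_
    have := dvd_sub (h i') (h i)
    simpa using this

/-- The blocks of a point. -/
def blocks (L M : ℕ) : (Fin L → Fin M → ℝ) ≃ᵐ (Fin (L * M) → ℝ) where
  toFun f x := f (finProdFinEquiv.symm x).1 (finProdFinEquiv.symm x).2
  invFun φ u i := φ (widx u i)
  left_inv f := by ext u i; simp [widx]
  right_inv φ := by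
    ext x
    show φ (widx (finProdFinEquiv.symm x).1 (finProdFinEquiv.symm x).2) = φ x
    rw [widx, Prod.mk.eta, Equiv.apply_symm_apply]
  measurable_toFun := measurable_pi_lambda _ fun x =>
    (measurable_pi_apply (finProdFinEquiv.symm x).2).comp
      (measurable_pi_apply (finProdFinEquiv.symm x).1)
  measurable_invFun := measurable_pi_lambda _ fun u => measurable_pi_lambda _ fun i =>
    measurable_pi_apply _

theorem widx_symm (x : Fin (L * M)) :
    widx (finProdFinEquiv.symm x).1 (finProdFinEquiv.symm x).2 = x := by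
  rw [widx, Prod.mk.eta, Equiv.apply_symm_apply]

theorem blocks_widx (f : Fin L → Fin M → ℝ) (u : Fin L) (i : Fin M) :
    blocks L M f (widx u i) = f u i := by
  show f (finProdFinEquiv.symm (finProdFinEquiv (u, i))).1
    (finProdFinEquiv.symm (finProdFinEquiv (u, i))).2 = f u i
  rw [Equiv.symm_apply_apply]

theorem measurePreserving_blocks :
    MeasurePreserving (blocks L M) (Measure.pi fun _ : Fin L => Measure.pi fun _ : Fin M => unitM)
      (Measure.pi fun _ => unitM) := by
  have := isProb_unitM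
  refine ⟨(blocks L M).measurable, (Measure.pi_eq fun s hs => ?_).symm⟩
  rw [(blocks L M).map_apply]
  have : blocks L M ⁻¹' Set.univ.pi s =
      Set.univ.pi fun u => Set.univ.pi fun i => s (widx u i) := by
    ext f
    simp only [Set.mem_preimage, Set.mem_univ_pi]
    constructor
    · intro h u i
      simpa only [blocks_widx] using h (widx u i)
    · intro h x
      have := h (finProdFinEquiv.symm x).1 (finProdFinEquiv.symm x).2
      rwa [← blocks_widx f, widx_symm] at this
  rw [this, Measure.pi_pi]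
  simp only [Measure.pi_pi]
  rw [← Fintype.prod_prod_type' (f := fun u i => unitM (s (widx u i)))]
  exact Equiv.prod_comp finProdFinEquiv fun x => unitM (s x)

theorem integral_blocks (g : Fin L → (Fin M → ℝ) → ℂ) :
    ∫ φ in cube (L * M), ∏ u, g u (fun i => φ (widx u i)) =
      ∏ u, ∫ ψ, g u ψ ∂(Measure.pi fun _ => unitM) := by
  have := isProb_unitM
  rw [restrict_cube, ← measurePreserving_blocks.integral_comp']
  have e : ∀ f : Fin L → Fin M → ℝ, ∀ u, (fun i => blocks L M f (widx u i)) = f u :=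
    fun f u => funext fun i => blocks_widx f u i
  simp only [e]
  exact integral_fintype_prod_eq_prod g

theorem flatK_dot (kk : Fin L → Fin M → ℤ) (φ : Fin (L * M) → ℝ) :
    dot (flatK kk) φ = ∑ u, dot (kk u) (fun i => φ (widx u i)) := by
  simp only [dot]
  rw [← Fintype.sum_prod_type' (f := fun u i => (kk u i : ℝ) * φ (widx u i)),
    ← Equiv.sum_comp finProdFinEquiv]
  refine Finset.sum_congr rfl fun x _ => ?_
  simp [flatK, widx]

/-- The blocks `≤ t` all fail. -/
def Fails (G : ℕ) (t : Fin L) (φ : Fin (L * M) → ℝ) : Prop :=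
  ∀ u : Fin L, u ≤ t → ¬ BlockHit G (fun i => φ (widx u i))

theorem measurableSet_fails (t : Fin L) : MeasurableSet {φ : Fin (L * M) → ℝ | Fails G t φ} := by
  have : {φ : Fin (L * M) → ℝ | Fails G t φ} =
      ⋂ u ∈ Finset.Iic t, ((fun φ : Fin (L * M) → ℝ => fun i => φ (widx u i)) ⁻¹'
        {ψ | BlockHit G ψ})ᶜ := by
    ext φ; simp [Fails]
  rw [this]
  exact Finset.measurableSet_biInter _ fun u _ =>
    ((measurable_pi_lambda _ fun i => measurable_pi_apply _) measurableSet_hit).compl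

theorem waitTime_le (φ : Fin (L * M) → ℝ) : waitTime G L M φ ≤ L := by
  classical
  exact (Finset.card_filter_le _ _).trans (by simp)

theorem fails_iff (φ : Fin (L * M) → ℝ) (t : Fin L) :
    Fails G t φ ↔ (t : ℕ) < waitTime G L M φ := by
  classical
  constructor
  · intro h
    have hsub : Finset.Iic t ⊆ univ.filter fun t' : Fin L =>
        ∀ u : Fin L, u ≤ t' → ¬ BlockHit G (fun i => φ (widx u i)) := fun t' ht' =>
      Finset.mem_filter.2 ⟨Finset.mem_univ _, fun u hu => h u (hu.trans (Finset.mem_Iic.1 ht'))⟩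
    have := Finset.card_le_card hsub
    rw [Fin.card_Iic] at this
    unfold waitTime
    omega
  · intro h
    by_contra hn
    have hsub : (univ.filter fun t' : Fin L =>
        ∀ u : Fin L, u ≤ t' → ¬ BlockHit G (fun i => φ (widx u i))) ⊆ Finset.Iio t := fun t' ht' =>
      Finset.mem_Iio.2 (not_le.1 fun hle =>
        hn fun u hu => (Finset.mem_filter.1 ht').2 u (hu.trans hle))
    have := Finset.card_le_card hsub
    rw [Fin.card_Iio] at this
    unfold waitTime at h
    omega

theorem waitTime_periodic (φ : Fin (L * M) → ℝ) (z : Fin (L * M) → ℤ) :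
    waitTime G L M (fun l => φ l + (z l : ℝ)) = waitTime G L M φ := by
  classical
  unfold waitTime BlockHit
  simp only [Int.fract_add_intCast]

theorem measurable_waitTime : Measurable (waitTime G L M) := by
  classical
  have : waitTime G L M =
      fun φ => ∑ t : Fin L, {φ | Fails G t φ}.indicator (fun _ => 1) φ := by
    funext φ
    rw [waitTime, Finset.card_filter]
    exact Finset.sum_congr rfl fun t _ => by simp [Set.indicator_apply, Fails]
  rw [this]
  exact Finset.measurable_sum _ fun t _ => measurable_const.indicator (measurableSet_fails t)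

theorem sum_telescope (z : ℂ) (D : ℕ) : ∀ L, D ≤ L →
    z ^ D = 1 + ∑ t : Fin L, if (t : ℕ) < D then z ^ ((t : ℕ) + 1) - z ^ (t : ℕ) else 0 := by
  intro L hL
  rw [Fin.sum_univ_eq_sum_range (fun t => if t < D then z ^ (t + 1) - z ^ t else 0),
    ← Finset.sum_filter, show (Finset.range L).filter (fun t => t < D) = Finset.range D by
      ext t; simp; omega, Finset.sum_range_sub (fun t => z ^ t)]
  simp

/-- The coefficient of the indicator that the blocks `≤ t` fail. -/
theorem integral_fails (hG : 1 ≤ G) (hM : 1 ≤ M) (kk : Fin L → Fin M → ℤ) (t : Fin L) :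
    ∫ φ in cube (L * M), {φ | Fails G t φ}.indicator (fun φ => ee (-dot (flatK kk) φ)) φ =
      if ∀ u, t < u → kk u = 0 then
        (-1) ^ (wSupp kk).card * (1 - 1 / (G : ℂ)) ^ ((t : ℕ) + 1 - (wSupp kk).card) *
          ∏ u ∈ wSupp kk, bBlock G M (kk u)
      else 0 := by
  classical
  have := isProb_unitM
  set g : Fin L → (Fin M → ℝ) → ℂ := fun u ψ =>
    if u ≤ t then ee (-dot (kk u) ψ) - {ψ | BlockHit G ψ}.indicator (fun ψ => ee (-dot (kk u) ψ)) ψ
    else ee (-dot (kk u) ψ)
  have hpt : ∀ φ : Fin (L * M) → ℝ,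
      {φ | Fails G t φ}.indicator (fun φ => ee (-dot (flatK kk) φ)) φ =
        ∏ u, g u (fun i => φ (widx u i)) := by
    intro φ
    by_cases h : Fails G t φ
    · rw [Set.indicator_of_mem h, flatK_dot, ← Finset.sum_neg_distrib, ee_sum]
      refine Finset.prod_congr rfl fun u _ => ?_
      simp only [g]
      split_ifs with hu
      · rw [Set.indicator_of_notMem (show (fun i => φ (widx u i)) ∉ {ψ | BlockHit G ψ} from h u hu),
          sub_zero]
      · rfl
    · rw [Set.indicator_of_notMem h]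
      obtain ⟨u, hu, hhit⟩ : ∃ u, u ≤ t ∧ BlockHit G (fun i => φ (widx u i)) := by
        simpa [Fails] using h
      symm
      refine Finset.prod_eq_zero (Finset.mem_univ u) ?_
      simp only [g, if_pos hu]
      rw [Set.indicator_of_mem (show (fun i => φ (widx u i)) ∈ {ψ | BlockHit G ψ} from hhit), sub_self]
  simp only [hpt, integral_blocks g]
  have hint : ∀ u, ∫ ψ, g u ψ ∂(Measure.pi fun _ => unitM) =
      if u ≤ t then (if kk u = 0 then (1 : ℂ) else 0) - bBlock G M (kk u)
      else if kk u = 0 then 1 else 0 := by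
    intro u
    have hm : Measurable fun ψ : Fin M → ℝ => ee (-dot (kk u) ψ) :=
      measurable_ee.comp (by unfold dot; fun_prop)
    simp only [g]
    split_ifs with hu h0 h0 <;>
      first
        | (rw [integral_sub (integrable_of_bdd hm 1 fun ψ => (norm_ee _).le)
            (integrable_of_bdd (hm.indicator measurableSet_hit) 1 fun ψ => by
              rw [Set.indicator_apply]; split_ifs <;> simp [norm_ee]),
            integral_block_one, integral_hit hG hM]; simp [h0])
        | (rw [integral_block_one]; simp [h0])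
  simp only [hint]
  by_cases htop : ∀ u, t < u → kk u = 0
  · rw [if_pos htop]
    have hsub : wSupp kk ⊆ Finset.Iic t := fun u hu => Finset.mem_Iic.2 (not_lt.1 fun h =>
      (Finset.mem_filter.1 hu).2 (htop u h))
    have hb0 : bBlock G M 0 = 1 / (G : ℂ) := by
      obtain ⟨M', rfl⟩ : ∃ M', M = M' + 1 := ⟨M - 1, by omega⟩
      have hw : wOne G 0 = 1 / (G : ℂ) := by simp [wOne, ee_zero]
      have hG' : (G : ℂ) ≠ 0 := by exact_mod_cast (by omega : G ≠ 0)
      simp [bBlock, hw]
      field_simp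
      rw [← pow_succ]
    calc ∏ u, (if u ≤ t then (if kk u = 0 then (1 : ℂ) else 0) - bBlock G M (kk u)
          else if kk u = 0 then 1 else 0)
        = ∏ u ∈ Finset.Iic t, ((if kk u = 0 then (1 : ℂ) else 0) - bBlock G M (kk u)) := by
          rw [← Finset.prod_subset (Finset.subset_univ (Finset.Iic t))]
          · exact Finset.prod_congr rfl fun u hu => if_pos (Finset.mem_Iic.1 hu)
          · intro u _ hu
            rw [Finset.mem_Iic] at hu
            rw [if_neg hu, if_pos (htop u (not_le.1 hu))]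
      _ = (∏ u ∈ Finset.Iic t \ wSupp kk, (1 - 1 / (G : ℂ))) *
            ∏ u ∈ wSupp kk, -bBlock G M (kk u) := by
          rw [← Finset.prod_sdiff hsub]
          congr 1
          · refine Finset.prod_congr rfl fun u hu => ?_
            have h0 : kk u = 0 := by simpa [wSupp] using (Finset.mem_sdiff.1 hu).2
            rw [if_pos h0, h0, hb0]
          · refine Finset.prod_congr rfl fun u hu => ?_
            rw [if_neg (Finset.mem_filter.1 hu).2, zero_sub]
      _ = _ := by
          rw [Finset.prod_const, Finset.card_sdiff_of_subset hsub, Fin.card_Iic, Finset.prod_neg]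
          ring
  · rw [if_neg htop]
    simp only [not_forall] at htop
    obtain ⟨u, hu, hne⟩ := htop
    exact Finset.prod_eq_zero (Finset.mem_univ u) (by rw [if_neg (not_le.2 hu), if_neg hne])

/-- The Fourier coefficient of the waiting time. -/
theorem coef_waitTime (hG : 1 ≤ G) (hM : 1 ≤ M) (θ : ℝ) {kk : Fin L → Fin M → ℤ} {s : Fin L}
    (hs : IsTop kk s) :
    coef (waitTime G L M) θ (flatK kk) =
      (-1) ^ (wSupp kk).card * (1 - 1 / (G : ℂ)) ^ ((s : ℕ) + 1 - (wSupp kk).card) *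
        (∏ u ∈ wSupp kk, bBlock G M (kk u)) *
      (ee θ ^ (s : ℕ) * (ee θ - 1) *
        ∑ i ∈ Finset.range (L - s), ((1 - 1 / (G : ℂ)) * ee θ) ^ i) := by
  classical
  have := isProb_unitM
  set z := ee θ with hz
  set q : ℂ := 1 - 1 / (G : ℂ) with hq
  set B : ℂ := (-1) ^ (wSupp kk).card * q ^ ((s : ℕ) + 1 - (wSupp kk).card) *
    ∏ u ∈ wSupp kk, bBlock G M (kk u) with hB
  have hmk : Measurable fun φ : Fin (L * M) → ℝ => ee (-dot (flatK kk) φ) :=
    measurable_ee.comp (by unfold dot; fun_prop)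
  have hpt : ∀ φ : Fin (L * M) → ℝ, ee (θ * (waitTime G L M φ : ℝ) - dot (flatK kk) φ) =
      ee (-dot (flatK kk) φ) + ∑ t : Fin L, (z ^ ((t : ℕ) + 1) - z ^ (t : ℕ)) *
        {φ | Fails G t φ}.indicator (fun φ => ee (-dot (flatK kk) φ)) φ := by
    intro φ
    rw [sub_eq_add_neg, ee_add, mul_comm θ, ee_nat_mul,
      sum_telescope (ee θ) _ L (waitTime_le φ), add_mul, one_mul, Finset.sum_mul]
    congr 1
    refine Finset.sum_congr rfl fun t _ => ?_
    by_cases h : Fails G t φ
    · rw [if_pos ((fails_iff φ t).1 h), Set.indicator_of_mem h]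
    · rw [if_neg (fun h' => h ((fails_iff φ t).2 h')), Set.indicator_of_notMem h]
      simp
  have hzero : ∫ φ in cube (L * M), ee (-dot (flatK kk) φ) = 0 := by
    rw [restrict_cube, integral_block_one, if_neg]
    intro h0
    refine hs.1 (funext fun i => ?_)
    simpa [flatK, widx] using congrFun h0 (widx s i)
  have hint : ∀ t : Fin L, Integrable
      (fun φ => (z ^ ((t : ℕ) + 1) - z ^ (t : ℕ)) *
        {φ | Fails G t φ}.indicator (fun φ => ee (-dot (flatK kk) φ)) φ)
      ((volume : Measure (Fin (L * M) → ℝ)).restrict (cube (L * M))) := by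
    intro t
    rw [restrict_cube]
    refine (integrable_of_bdd (hmk.indicator (measurableSet_fails t)) 1 fun φ => ?_).const_mul _
    rw [Set.indicator_apply]
    split_ifs <;> simp [norm_ee]
  unfold coef
  simp only [hpt]
  rw [integral_add (by rw [restrict_cube]; exact integrable_of_bdd hmk 1 fun φ => (norm_ee _).le)
    (integrable_finsetSum _ fun t _ => hint t), integral_finsetSum _ fun t _ => hint t, hzero,
    zero_add]
  simp only [integral_const_mul, integral_fails hG hM kk]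
  have hterm : ∀ t : Fin L, (z ^ ((t : ℕ) + 1) - z ^ (t : ℕ)) *
      (if ∀ u, t < u → kk u = 0 then (-1) ^ (wSupp kk).card *
        q ^ ((t : ℕ) + 1 - (wSupp kk).card) * ∏ u ∈ wSupp kk, bBlock G M (kk u) else 0) =
      if (s : ℕ) ≤ t then B * (z ^ (s : ℕ) * (z - 1) * (q * z) ^ ((t : ℕ) - s)) else 0 := by
    intro t
    by_cases hst : s ≤ t
    · have hall : ∀ u, t < u → kk u = 0 := fun u hu => hs.2 u (lt_of_le_of_lt hst hu)
      rw [if_pos hall, if_pos (Fin.le_def.1 hst), hB]
      have hc : (wSupp kk).card ≤ (s : ℕ) + 1 := by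
        have hsub : wSupp kk ⊆ Finset.Iic s := fun u hu => Finset.mem_Iic.2 (not_lt.1 fun h =>
          (Finset.mem_filter.1 hu).2 (hs.2 u h))
        simpa [Fin.card_Iic] using Finset.card_le_card hsub
      have hst' : (s : ℕ) ≤ t := hst
      rw [show (t : ℕ) + 1 - (wSupp kk).card =
        ((s : ℕ) + 1 - (wSupp kk).card) + ((t : ℕ) - s) by omega, pow_add, mul_pow, pow_succ]
      have hzz : z ^ (t : ℕ) = z ^ (s : ℕ) * z ^ ((t : ℕ) - s) := by
        rw [← pow_add]; congr 1; omega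
      rw [hzz]
      ring
    · rw [if_neg fun h => hs.1 (h s (not_le.1 hst)), mul_zero,
        if_neg fun h => hst (Fin.le_def.2 h)]
  rw [Finset.sum_congr rfl fun t _ => hterm t,
    Fin.sum_univ_eq_sum_range (fun t => if (s : ℕ) ≤ t then
      B * (z ^ (s : ℕ) * (z - 1) * (q * z) ^ (t - (s : ℕ))) else 0),
    ← Finset.sum_filter, show (Finset.range L).filter (fun t => (s : ℕ) ≤ t) =
      Finset.Ico (s : ℕ) L by ext t; simp [and_comm], Finset.sum_Ico_eq_sum_range]
  simp only [Nat.add_sub_cancel_left, ← Finset.mul_sum]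

/-- The modulus of the coefficient away from `θ = 0`. -/
theorem coef_flat (hG : 2 ≤ G) (hM : 1 ≤ M) {η θ : ℝ} (hη : 1 / (G : ℝ) < 4 * η) (h1 : η ≤ θ)
    (h2 : θ ≤ 1 - η) {kk : Fin L → Fin M → ℤ} {s : Fin L} (hs : IsTop kk s) :
    |‖coef (waitTime G L M) θ (flatK kk)‖ - cAmp G kk s| ≤
      cAmp G kk s * (2 * (1 / (G : ℝ)) / (4 * η - 1 / (G : ℝ)) +
        (1 - 1 / (G : ℝ)) ^ (L - (s : ℕ))) := by
  set p : ℝ := 1 / (G : ℝ) with hp
  have hG' : (2 : ℝ) ≤ G := by exact_mod_cast hG
  have hp0 : 0 < p := by positivity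
  have hp1 : p ≤ 1 / 2 := one_div_le_one_div_of_le two_pos hG'
  set z := ee θ
  set w : ℂ := (1 - 1 / (G : ℂ)) * z
  have hq : (1 - 1 / (G : ℂ)) = ((1 - p : ℝ) : ℂ) := by simp [hp]
  set n := L - (s : ℕ)
  -- the distance from `1`
  have hd : 4 * η ≤ ‖z - 1‖ := by
    have : z - 1 = Complex.exp (Complex.I * (2 * Real.pi * θ : ℝ)) - 1 := by
      simp only [z, ee]; push_cast; ring_nf
    rw [this, Complex.norm_exp_I_mul_ofReal_sub_one, Real.norm_eq_abs, abs_mul, abs_two,
      show 2 * Real.pi * θ / 2 = Real.pi * θ by ring]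
    refine le_trans ?_ (mul_le_mul_of_nonneg_left (le_abs_self _) two_pos.le)
    rcases le_total θ (1 / 2) with hθ | hθ
    · have := Real.mul_le_sin (x := Real.pi * θ) (by nlinarith [Real.pi_pos])
        (by nlinarith [Real.pi_pos])
      rw [← mul_assoc, div_mul_cancel₀ _ Real.pi_ne_zero] at this
      linarith
    · have := Real.mul_le_sin (x := Real.pi * (1 - θ)) (by nlinarith [Real.pi_pos])
        (by nlinarith [Real.pi_pos])
      rw [← mul_assoc, div_mul_cancel₀ _ Real.pi_ne_zero,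
        show Real.pi * (1 - θ) = Real.pi - Real.pi * θ by ring, Real.sin_pi_sub] at this
      linarith
  have hwn : ‖w‖ = 1 - p := by
    simp only [w, z, hq, norm_mul, Complex.norm_real, norm_ee, mul_one, Real.norm_eq_abs]
    exact abs_of_nonneg (by linarith)
  have hdiff : ‖(1 - w) - (1 - z)‖ = p := by
    have : (1 - w) - (1 - z) = ((p : ℝ) : ℂ) * z := by simp only [w, hq]; push_cast; ring
    rw [this, norm_mul, Complex.norm_real, norm_ee, mul_one, Real.norm_eq_abs, abs_of_pos hp0]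
  have hden : 4 * η - p ≤ ‖1 - w‖ := by
    have := abs_norm_sub_norm_le (1 - w) (1 - z)
    rw [hdiff, norm_sub_rev 1 z] at this
    linarith [(abs_le.1 this).1]
  have hden0 : 0 < ‖1 - w‖ := by linarith
  have hgeo : ∑ i ∈ Finset.range n, w ^ i = (1 - w ^ n) / (1 - w) := by
    rw [geom_sum_eq, ← neg_div_neg_eq]
    · simp
    · intro h
      rw [h, sub_self, norm_zero] at hden0
      exact lt_irrefl _ hden0
  -- the two factors
  have ha : |‖z - 1‖ / ‖1 - w‖ - 1| ≤ p / (4 * η - p) := by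
    rw [div_sub_one hden0.ne', abs_div, abs_of_pos hden0]
    have := abs_norm_sub_norm_le (1 - z) (1 - w)
    rw [norm_sub_rev (1 - z), hdiff, norm_sub_rev 1 z] at this
    exact div_le_div₀ hp0.le this (by linarith) hden
  have hwp : ‖w ^ n‖ = (1 - p) ^ n := by rw [norm_pow, hwn]
  have hb : |‖1 - w ^ n‖ - 1| ≤ (1 - p) ^ n := by
    have := abs_norm_sub_norm_le (1 - w ^ n) 1
    simp only [sub_sub_cancel_left, norm_neg, norm_one, hwp] at this
    exact this
  have hpn : (1 - p) ^ n ≤ 1 := pow_le_one₀ (by linarith) (by linarith)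
  have hnorm : ‖coef (waitTime G L M) θ (flatK kk)‖ =
      cAmp G kk s * (‖z - 1‖ / ‖1 - w‖ * ‖1 - w ^ n‖) := by
    rw [coef_waitTime (by omega) hM θ hs, show ∑ i ∈ Finset.range (L - (s : ℕ)),
      ((1 - 1 / (G : ℂ)) * ee θ) ^ i = _ from hgeo]
    simp only [norm_mul, norm_div, norm_pow, norm_neg, norm_one, one_pow, norm_prod, norm_ee,
      one_mul, cAmp, hq, Complex.norm_real, Real.norm_eq_abs,
      abs_of_nonneg (show (0 : ℝ) ≤ 1 - 1 / (G : ℝ) by rw [← hp]; linarith), z, hp]
    ring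
  rw [hnorm]
  have hc : 0 ≤ cAmp G kk s := by
    unfold cAmp
    exact mul_nonneg (pow_nonneg (by rw [← hp]; linarith) _)
      (Finset.prod_nonneg fun _ _ => norm_nonneg _)
  rw [show cAmp G kk s * (‖z - 1‖ / ‖1 - w‖ * ‖1 - w ^ n‖) - cAmp G kk s =
      cAmp G kk s * ((‖z - 1‖ / ‖1 - w‖ - 1) * ‖1 - w ^ n‖ + (‖1 - w ^ n‖ - 1)) by ring,
    abs_mul, abs_of_nonneg hc]
  refine mul_le_mul_of_nonneg_left ((abs_add_le _ _).trans (add_le_add ?_ hb)) hc
  rw [abs_mul, abs_norm, mul_comm 2 p, mul_div_right_comm]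
  refine mul_le_mul ha ?_ (norm_nonneg _) (div_nonneg hp0.le (by linarith))
  linarith [(abs_le.1 hb).2]

theorem wOne_neg (k : ℤ) : wOne G (-k) = starRingEnd ℂ (wOne G k) := by
  rw [wOne, wOne, ← intervalIntegral.intervalIntegral_conj]
  refine intervalIntegral.integral_congr fun x _ => ?_
  simp only [ee, ← Complex.exp_conj]
  congr 1
  simp [map_ofNat]

theorem norm_bBlock_neg (v : Fin M → ℤ) : ‖bBlock G M (-v)‖ = ‖bBlock G M v‖ := by
  have h : (∀ i j, (G : ℤ) ∣ (-v) i - (-v) j) ↔ ∀ i j, (G : ℤ) ∣ v i - v j := by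
    refine ⟨fun h i j => ?_, fun h i j => ?_⟩ <;> simpa [neg_add_eq_sub] using h j i
  unfold bBlock
  by_cases hv : ∀ i j, (G : ℤ) ∣ v i - v j
  · rw [if_pos hv, if_pos (h.2 hv)]
    simp only [norm_mul, norm_prod, Pi.neg_apply, wOne_neg, RCLike.norm_conj]
  · rw [if_neg hv, if_neg fun h' => hv (h.1 h')]

theorem flatK_neg (kk : Fin L → Fin M → ℤ) : flatK (-kk) = -flatK kk := rfl

theorem isTop_neg {kk : Fin L → Fin M → ℤ} {s : Fin L} (h : IsTop kk s) : IsTop (-kk) s :=
  ⟨by simpa using h.1, fun t ht => by simp [h.2 t ht]⟩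

theorem cAmp_neg (kk : Fin L → Fin M → ℤ) (s : Fin L) : cAmp G (-kk) s = cAmp G kk s := by
  have : wSupp (-kk) = wSupp kk := by ext u; simp [wSupp]
  simp only [cAmp, this, Pi.neg_apply, norm_bBlock_neg]

end WC

end Vale.Agent.P130.Simple
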