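import Vale.Agent.P130.Simple.Defs

/-!
The waiting time on a torus of `L` blocks of `M` coordinates: the number of leading blocks in which
the digit sum `∑ i, ⌊G φ_i⌋` is not divisible by `G`.
-/

namespace Vale.Agent.P130.Simple

open Finset MeasureTheory
open scoped BigOperators
open Vale.Agent.P110.Flat (ee dot)

variable {L M : ℕ}

/-- The coordinate `i` of block `s`. -/
def widx (s : Fin L) (i : Fin M) : Fin (L * M) := finProdFinEquiv (s, i)

/-- A frequency vector written by blocks. -/
def flatK (kk : Fin L → Fin M → ℤ) : Fin (L * M) → ℤ :=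
  fun x => kk (finProdFinEquiv.symm x).1 (finProdFinEquiv.symm x).2

/-- Success in one block. -/
def BlockHit (G : ℕ) (ψ : Fin M → ℝ) : Prop :=
  (G : ℤ) ∣ ∑ i, ⌊(G : ℝ) * Int.fract (ψ i)⌋

/-- The number of leading blocks without success. -/
noncomputable def waitTime (G L M : ℕ) (φ : Fin (L * M) → ℝ) : ℕ := by
  classical
  exact (univ.filter fun t : Fin L =>
    ∀ u : Fin L, u ≤ t → ¬ BlockHit G (fun i => φ (widx u i))).card

/-- `∫ x in [0, 1/G], exp (-2 π i k x)`. -/
noncomputable def wOne (G : ℕ) (k : ℤ) : ℂ :=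
  ∫ x in (0 : ℝ)..(1 / (G : ℝ)), ee (-((k : ℝ) * x))

/-- The coefficient at `v` of the indicator of success in one block. -/
noncomputable def bBlock (G M : ℕ) (v : Fin M → ℤ) : ℂ :=
  if ∀ i j, (G : ℤ) ∣ v i - v j then (G : ℂ) ^ (M - 1) * ∏ i, wOne G (v i) else 0

/-- The blocks in the support of a frequency. -/
def wSupp (kk : Fin L → Fin M → ℤ) : Finset (Fin L) := univ.filter fun s => kk s ≠ 0

/-- `s` is the last block in the support. -/
def IsTop (kk : Fin L → Fin M → ℤ) (s : Fin L) : Prop := kk s ≠ 0 ∧ ∀ t, s < t → kk t = 0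

/-- The modulus of the coefficient away from zero, for a frequency with last block `s`. -/
noncomputable def cAmp (G : ℕ) (kk : Fin L → Fin M → ℤ) (s : Fin L) : ℝ :=
  (1 - 1 / (G : ℝ)) ^ ((s : ℕ) + 1 - (wSupp kk).card) * ∏ u ∈ wSupp kk, ‖bBlock G M (kk u)‖

end Vale.Agent.P130.Simple
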