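import Vale.Agent.P130.Simple.WaitDefs
import Vale.Agent.P130.Simple.Wait.Basic

/-! Finitely many pairwise independent frequencies carrying almost all the energy of the waiting time. -/

namespace Vale.Agent.P130.Simple

open Finset MeasureTheory
open scoped BigOperators
open Vale.Agent.P110.Flat (ee dot)
open Wait

namespace Wait

/-- The coefficient of a phase outside its class vanishes. -/
theorem phase_coef_eq_zero {G : ℕ} (hG : 0 < G) {l n : ℤ} (h : ¬ (G : ℤ) ∣ n - l) :
    (∫ x in (0 : ℝ)..1, phase G l x * ee (-((n : ℝ) * x))) = 0 := by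
  have hG' : (0 : ℝ) < G := by exact_mod_cast hG
  set a : ℕ → ℝ := fun j => (j : ℝ) / G with ha
  set z : ℂ := ee (((l - n : ℤ) : ℝ) / G) with hz
  have hint : ∀ p q : ℝ, IntervalIntegrable (fun x => phase G l x * ee (-((n : ℝ) * x))) volume p q :=
    fun p q => by
      simpa only [neg_mul] using intervalIntegrable_phase G l (-(n : ℝ)) p q
  have hsum := intervalIntegral.sum_integral_adjacent_intervals (μ := volume) (n := G) (a := a)
    (f := fun x => phase G l x * ee (-((n : ℝ) * x))) fun k _ => hint _ _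
  have hterm : ∀ j, j < G → (∫ x in a j..a (j + 1), phase G l x * ee (-((n : ℝ) * x))) =
      z ^ j * ∫ x in (0 : ℝ)..1 / G, ee (-((n : ℝ) * x)) := by
    intro j _
    have hle : a j ≤ a (j + 1) := by
      simp only [ha]; push_cast; gcongr; linarith
    have h1 : (∫ x in a j..a (j + 1), phase G l x * ee (-((n : ℝ) * x))) =
        ∫ x in a j..a (j + 1), ee ((l : ℝ) * j / G) * ee (-((n : ℝ) * x)) := by
      refine intervalIntegral.integral_congr_ae ?_
      have hne : ∀ᵐ x : ℝ, x ≠ a (j + 1) := by simp [ae_iff]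
      filter_upwards [hne] with x hx hmem
      rw [Set.uIoc_of_le hle] at hmem
      have hx1 : (j : ℝ) < G * x := by
        have := hmem.1
        simp only [ha, div_lt_iff₀ hG'] at this
        linarith
      have hx2 : (G : ℝ) * x < j + 1 := by
        have := lt_of_le_of_ne hmem.2 hx
        simp only [ha, lt_div_iff₀ hG'] at this
        push_cast at this
        linarith
      have hfl : ⌊(G : ℝ) * x⌋ = (j : ℤ) := by
        rw [Int.floor_eq_iff]; push_cast; exact ⟨hx1.le, hx2⟩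
      simp only [phase, hfl, Int.cast_natCast]
    rw [h1]
    have h2 : (∫ x in a j..a (j + 1), ee ((l : ℝ) * j / G) * ee (-((n : ℝ) * x))) =
        ∫ x in (0 : ℝ)..1 / G, ee ((l : ℝ) * j / G) * ee (-((n : ℝ) * (a j + x))) := by
      rw [intervalIntegral.integral_comp_add_left
        (fun x => ee ((l : ℝ) * j / G) * ee (-((n : ℝ) * x))) (a j)]
      congr 1
      · simp
      · simp only [ha]; push_cast; ring
    rw [h2]
    have hzj : z ^ j = ee ((j : ℝ) * (((l - n : ℤ) : ℝ) / G)) := by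
      rw [hz]
      simp only [ee, ← Complex.exp_nat_mul]
      congr 1; push_cast; ring
    rw [← intervalIntegral.integral_const_mul, hzj]
    refine intervalIntegral.integral_congr fun x _ => ?_
    rw [← ee_add', ← ee_add']
    congr 1
    simp only [ha]; push_cast; ring
  rw [Finset.sum_congr rfl (fun j hj => hterm j (Finset.mem_range.1 hj)), ← Finset.sum_mul] at hsum
  have hz1 : z ≠ 1 := by
    intro he
    simp only [hz, ee, Complex.exp_eq_one_iff] at he
    obtain ⟨m, hm⟩ := he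
    have h2 : (2 * (Real.pi : ℂ) * Complex.I) ≠ 0 := by
      simp [Real.pi_ne_zero, Complex.I_ne_zero]
    have hm' : (((((l - n : ℤ) : ℝ) / G) : ℝ) : ℂ) = ((m : ℝ) : ℂ) := by
      apply mul_left_cancel₀ h2
      push_cast at hm ⊢
      linear_combination hm
    have hm'' := Complex.ofReal_injective hm'
    rw [div_eq_iff hG'.ne'] at hm''
    have h3 : l - n = m * (G : ℤ) := by exact_mod_cast hm''
    exact h ⟨-m, by linarith⟩
  have hzG : z ^ G = 1 := by
    rw [hz]
    simp only [ee, ← Complex.exp_nat_mul]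
    have : (G : ℂ) ≠ 0 := by exact_mod_cast hG.ne'
    rw [show (G : ℂ) * (2 * (Real.pi : ℂ) * ((((l - n : ℤ) : ℝ) / G : ℝ) : ℂ) * Complex.I) =
      ((l - n : ℤ) : ℂ) * (2 * Real.pi * Complex.I) by push_cast; field_simp]
    exact Complex.exp_int_mul_two_pi_mul_I _
  have hg : (∑ j ∈ range G, z ^ j) = 0 := by
    rw [geom_sum_eq hz1, hzG, sub_self, zero_div]
  rw [hg, zero_mul] at hsum
  rw [hsum]
  simp [ha, hG'.ne']

/-- Parseval within one class. -/
theorem hasSum_class {G : ℕ} (hG : 0 < G) (l : ℤ) :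
    HasSum (fun n : ℤ => if (G : ℤ) ∣ n - l then ‖b G n‖ ^ 2 else 0) 1 := by
  have hmem : MemLp (phase G l) 2 (volume.restrict (Set.Ioc (0 : ℝ) 1)) :=
    MemLp.of_bound (measurable_phase G l).aestronglyMeasurable 1
      (Filter.Eventually.of_forall fun x => (norm_phase G l x).le)
  have h := hasSum_sq_fourierCoeffOn (zero_lt_one' ℝ) hmem
  have hone : ((1 : ℝ) - 0)⁻¹ • ∫ x in (0 : ℝ)..1, ‖phase G l x‖ ^ 2 = 1 := by
    simp [norm_phase]
  rw [hone] at h
  have hfun : (fun n : ℤ => if (G : ℤ) ∣ n - l then ‖b G n‖ ^ 2 else 0) =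
      fun n : ℤ => ‖fourierCoeffOn (zero_lt_one' ℝ) (phase G l) n‖ ^ 2 := by
    funext n
    have hc : fourierCoeffOn (zero_lt_one' ℝ) (phase G l) n =
        ∫ x in (0 : ℝ)..1, phase G l x * ee (-((n : ℝ) * x)) := by
      rw [fourierCoeffOn_eq_integral]
      simp only [sub_zero, div_one, one_smul]
      refine intervalIntegral.integral_congr fun x _ => ?_
      rw [fourier_coe_apply, smul_eq_mul, mul_comm]
      congr 1
      simp only [ee]; congr 1; push_cast; ring
    rw [hc]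
    split_ifs with hd
    · have : ∀ x, phase G l x = phase G n x := fun x => (phase_congr G hd x).symm
      simp only [this, b]
    · rw [phase_coef_eq_zero hG hd]; simp
  rw [hfun]
  exact h

/-- A finite class box. -/
noncomputable def cls (G N : ℕ) (l : ℤ) : Finset ℤ := (Icc (-(N : ℤ)) N).filter fun n => (G : ℤ) ∣ n - l

theorem cls_sum_le {G : ℕ} (hG : 0 < G) (N : ℕ) (l : ℤ) : ∑ n ∈ cls G N l, ‖b G n‖ ^ 2 ≤ 1 := by
  have h := sum_le_hasSum (cls G N l) (fun n _ => by split_ifs <;> positivity) (hasSum_class hG l)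
  refine le_trans (le_of_eq (Finset.sum_congr rfl fun n hn => ?_)) h
  rw [if_pos (Finset.mem_filter.1 hn).2]

theorem cls_sum_ge {G : ℕ} (hG : 0 < G) (l : ℤ) {δ : ℝ} (hδ : 0 < δ) :
    ∃ N₀ : ℕ, ∀ N, N₀ ≤ N → 1 - δ ≤ ∑ n ∈ cls G N l, ‖b G n‖ ^ 2 := by
  obtain ⟨t, ht⟩ := ((hasSum_class hG l).eventually (eventually_ge_nhds
    (show 1 - δ < (1 : ℝ) by linarith))).exists_forall_of_atTop
  refine ⟨t.sup Int.natAbs, fun N hN => ?_⟩
  have h := ht (Icc (-(N : ℤ)) N) fun n hn => by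
    have := (Finset.le_sup hn (f := Int.natAbs)).trans hN
    rw [Finset.mem_Icc]; omega
  rw [cls, Finset.sum_filter]
  exact h

/-- Two entries differing by exactly `G`. -/
def Good (G : ℕ) {M : ℕ} (v : Fin M → ℤ) : Prop := ∃ i j, v i - v j = (G : ℤ)

end Wait

/-- The amplitude of a frequency, as a product over blocks. -/
theorem cAmp_eq_prod {G L M : ℕ} (hG : 0 < G) (hM : 0 < M) (kk : Fin L → Fin M → ℤ) (s : Fin L)
    (hv : ∀ u, kk u = 0 ∨ Valid G (kk u)) (htop : ∀ u, s < u → kk u = 0) :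
    cAmp G kk s = ∏ u ∈ Iic s, amp G (kk u) := by
  have hsub : wSupp kk ⊆ Iic s := fun u hu => by
    rw [Finset.mem_Iic]
    by_contra hlt
    exact (Finset.mem_filter.1 hu).2 (htop u (not_le.1 hlt))
  rw [← Finset.prod_sdiff hsub, cAmp]
  congr 1
  · rw [Finset.prod_congr rfl (g := fun _ => 1 - 1 / (G : ℝ)) fun u hu => ?_, Finset.prod_const,
      Finset.card_sdiff_of_subset hsub, Fin.card_Iic]
    simp only [Finset.mem_sdiff, wSupp, Finset.mem_filter, Finset.mem_univ, true_and,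
      not_not] at hu
    simp [amp, hu.2]
  · refine Finset.prod_congr rfl fun u hu => ?_
    have hu' := (Finset.mem_filter.1 hu).2
    have hval := (hv u).resolve_left hu'
    rw [amp, if_neg hu', bBlock, if_pos hval.2, norm_mul, norm_pow, Complex.norm_natCast, norm_prod]
    have hG' : (G : ℝ) ≠ 0 := by positivity
    have hw : ∀ i, ‖wOne G (kk u i)‖ = ‖b G (kk u i)‖ / G := fun i => by
      rw [b_eq hG, norm_mul, Complex.norm_natCast, wOne]
      field_simp
    simp only [hw, Finset.prod_div_distrib, Finset.prod_const, Finset.card_univ, Fintype.card_fin]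
    obtain ⟨m, rfl⟩ : ∃ m, M = m + 1 := ⟨M - 1, by omega⟩
    rw [Nat.add_sub_cancel, pow_succ]
    field_simp

/-- The frequency blocks: `V` for the lower blocks, `Top` for the last one. -/
theorem exists_blocks (G : ℕ) (hG : G.Prime) (hG2 : 2 < G) {ε : ℝ} (hε0 : 0 < ε) :
    ∃ M : ℕ, 0 < M ∧ ∃ (i₀ : Fin M) (V Top : Finset (Fin M → ℤ)),
      (∀ v ∈ V, Valid G v) ∧ (∀ v ∈ Top, v ∈ V ∧ Good G v ∧ 0 < v i₀) ∧
      1 / (G : ℝ) * (1 - 1 / (G : ℝ)) * (1 - ε) ≤ 2 * ∑ v ∈ Top, amp G v ^ 2 ∧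
      2 * ∑ v ∈ Top, amp G v ^ 2 ≤ ∑ v ∈ V, amp G v ^ 2 ∧
      ∑ v ∈ V, amp G v ^ 2 ≤ 1 / (G : ℝ) * (1 - 1 / (G : ℝ)) := by
  classical
  have hG0 : 0 < G := hG.pos
  have hGr : (2 : ℝ) < G := by exact_mod_cast hG2
  set p : ℝ := 1 / (G : ℝ) with hp
  set q : ℝ := 1 - p with hq
  set w : ℤ → ℝ := fun n => ‖b G n‖ ^ 2 with hw
  have hw0 : ∀ n, 0 ≤ w n := fun n => by simp only [hw]; positivity
  have hw1 : ∀ n, w n ≤ 1 := fun n => by
    simp only [hw]
    exact pow_le_one₀ (norm_nonneg _) (norm_b_le_one G n)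
  have hndvd : ∀ l ∈ Ico 1 G, ¬ (G : ℤ) ∣ (l : ℕ) ∧ ¬ (G : ℤ) ∣ ((l : ℕ) : ℤ) - G := by
    intro l hl
    rw [Finset.mem_Ico] at hl
    have h1 : ¬ (G : ℤ) ∣ (l : ℕ) := by
      rw [Int.natCast_dvd_natCast]
      exact fun hd => absurd (Nat.le_of_dvd (by omega) hd) (by omega)
    exact ⟨h1, by rw [dvd_sub_self_right]; exact h1⟩
  have hne : (Ico 1 G).Nonempty := by rw [Finset.nonempty_Ico]; omega
  set β : ℝ := (Ico 1 G).inf' hne fun l => min (w l) (w ((l : ℤ) - G)) with hβ
  have hβ0 : 0 < β := by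
    rw [hβ, Finset.lt_inf'_iff]
    intro l hl
    have := hndvd l hl
    simp only [hw, lt_min_iff]
    constructor <;> refine pow_pos (norm_pos_iff.2 (b_ne_zero hG0 ?_)) 2
    · exact this.1
    · exact this.2
  have hβ1 : β ≤ 1 := by
    obtain ⟨l, hl⟩ := hne
    exact (Finset.inf'_le _ hl).trans ((min_le_left _ _).trans (hw1 _))
  obtain ⟨M₁, hM₁⟩ := exists_pow_lt_of_lt_one (show 0 < ε / 4 by linarith)
    (show 1 - β < 1 by linarith)
  set M := M₁ + 1 with hM
  have hMpos : 0 < M := by omega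
  have hpowM : (1 - β) ^ M ≤ ε / 4 :=
    (pow_le_pow_of_le_one (by linarith) (by linarith) (by omega)).trans hM₁.le
  set δ : ℝ := ε / (2 * M) with hδ
  have hδ0 : 0 < δ := by rw [hδ]; positivity
  choose N₀ hN₀ using fun l : ℕ => cls_sum_ge hG0 (l : ℤ) hδ0
  set N : ℕ := (Ico 1 G).sup N₀ + G with hN
  have hlow : ∀ l ∈ Ico 1 G, 1 - δ ≤ ∑ n ∈ cls G N l, w n := fun l hl =>
    hN₀ l N ((Finset.le_sup hl).trans (Nat.le_add_right _ _))
  have hupp : ∀ l : ℕ, ∑ n ∈ cls G N l, w n ≤ 1 := fun l => cls_sum_le hG0 N l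
  -- the block frequencies
  set Vl : ℕ → Finset (Fin M → ℤ) := fun l => Fintype.piFinset fun _ => cls G N l with hVl
  set V : Finset (Fin M → ℤ) := (Ico 1 G).biUnion Vl with hV
  have hclsmem : ∀ (l : ℕ) (n : ℤ), n ∈ cls G N l →
      (-(N : ℤ) ≤ n ∧ n ≤ N) ∧ (G : ℤ) ∣ n - l := fun l n hn => by
    simpa [cls] using hn
  have hVvalid : ∀ v ∈ V, Valid G v := by
    intro v hv
    obtain ⟨l, hl, hvl⟩ := Finset.mem_biUnion.1 hv
    simp only [hVl, Fintype.mem_piFinset] at hvl
    refine ⟨fun i hd => (hndvd l hl).1 ?_, fun i j => ?_⟩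
    · exact (dvd_sub_right hd).1 (hclsmem l _ (hvl i)).2
    · have := dvd_sub (hclsmem l _ (hvl i)).2 (hclsmem l _ (hvl j)).2
      simpa using this
  have hVdisj : (↑(Ico 1 G) : Set ℕ).PairwiseDisjoint Vl := by
    intro l hl l' hl' hne'
    rw [Function.onFun, Finset.disjoint_left]
    intro v hv hv'
    simp only [hVl, Fintype.mem_piFinset] at hv hv'
    have h := dvd_sub (hclsmem l _ (hv ⟨0, hMpos⟩)).2 (hclsmem l' _ (hv' ⟨0, hMpos⟩)).2
    simp only [sub_sub_sub_cancel_left] at h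
    simp only [Finset.coe_Ico, Set.mem_Ico] at hl hl'
    have hzero : (l' : ℤ) - l = 0 := Int.eq_zero_of_abs_lt_dvd h (by rw [abs_lt]; omega)
    exact hne' (by omega)
  have hVnegmem : ∀ v ∈ V, -v ∈ V := by
    intro v hv
    obtain ⟨l, hl, hvl⟩ := Finset.mem_biUnion.1 hv
    rw [Finset.mem_Ico] at hl
    refine Finset.mem_biUnion.2 ⟨G - l, Finset.mem_Ico.2 ⟨by omega, by omega⟩, ?_⟩
    simp only [hVl, Fintype.mem_piFinset] at hvl ⊢
    intro i
    obtain ⟨⟨h1, h2⟩, h3⟩ := hclsmem l _ (hvl i)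
    simp only [cls, Finset.mem_filter, Finset.mem_Icc, Pi.neg_apply]
    refine ⟨⟨by omega, by omega⟩, ?_⟩
    have he : -v i - ((G - l : ℕ) : ℤ) = -(v i - l) - G := by
      rw [Nat.cast_sub (by omega : l ≤ G)]; ring
    rw [he]
    exact dvd_sub (dvd_neg.2 h3) dvd_rfl
  set m : (Fin M → ℤ) → ℝ := fun v => ∏ i, w (v i) with hm
  have hm0 : ∀ v, 0 ≤ m v := fun v => Finset.prod_nonneg fun i _ => hw0 _
  have hamp2 : ∀ v ∈ V, amp G v ^ 2 = p ^ 2 * m v := by
    intro v hv
    have hv0 : v ≠ 0 := fun h => (hVvalid v hv).1 ⟨0, hMpos⟩ (by simp [h])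
    rw [amp, if_neg hv0, mul_pow, ← Finset.prod_pow]
  have hsumVl : ∀ l : ℕ, ∑ v ∈ Vl l, m v = (∑ n ∈ cls G N l, w n) ^ M := by
    intro l
    simp only [hVl, hm]
    rw [Finset.sum_prod_piFinset (cls G N (l : ℤ)) (fun _ n => w n)]
    simp
  have hbern : ∀ l ∈ Ico 1 G, 1 - ε / 2 ≤ (∑ n ∈ cls G N l, w n) ^ M := by
    intro l hl
    have h2 : (M : ℝ) * δ = ε / 2 := by rw [hδ]; field_simp
    rcases le_or_gt δ 1 with hd | hd
    · have h1 : (1 : ℝ) + M * (-δ) ≤ (1 + -δ) ^ M := one_add_mul_le_pow (by linarith) M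
      refine le_trans (by linarith) (h1.trans (pow_le_pow_left₀ (by linarith) ?_ M))
      linarith [hlow l hl]
    · have : (1 : ℝ) ≤ M := by exact_mod_cast hMpos
      have : ε / 2 ≥ 1 := by nlinarith
      exact le_trans (by linarith) (pow_nonneg (Finset.sum_nonneg fun n _ => hw0 n) M)
  have hVsum : ∑ v ∈ V, amp G v ^ 2 = p ^ 2 * ∑ l ∈ Ico 1 G, (∑ n ∈ cls G N l, w n) ^ M := by
    rw [Finset.sum_congr rfl hamp2, ← Finset.mul_sum, hV, Finset.sum_biUnion hVdisj]
    simp only [hsumVl]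
  have hcard : p ^ 2 * ((Ico 1 G).card : ℝ) = p * q := by
    rw [Nat.card_Ico, Nat.cast_sub (by omega), hq, hp]
    push_cast
    field_simp
  have hVle : ∑ v ∈ V, amp G v ^ 2 ≤ p * q := by
    rw [hVsum, ← hcard]
    refine mul_le_mul_of_nonneg_left ?_ (by positivity)
    calc ∑ l ∈ Ico 1 G, (∑ n ∈ cls G N l, w n) ^ M ≤ ∑ _l ∈ Ico 1 G, (1 : ℝ) :=
          Finset.sum_le_sum fun l _ =>
            pow_le_one₀ (Finset.sum_nonneg fun n _ => hw0 n) (hupp l)
      _ = _ := by simp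
  set VG := V.filter (Good G) with hVG
  have hGlow : p * q * (1 - ε) ≤ ∑ v ∈ VG, amp G v ^ 2 := by
    have hbad : ∀ l ∈ Ico 1 G, ∑ v ∈ (Vl l).filter (fun v => ¬ Good G v), m v ≤ ε / 2 := by
      intro l hl
      set c : ℤ → Finset ℤ := fun a => (cls G N l).erase a with hc
      have hsub : (Vl l).filter (fun v => ¬ Good G v) ⊆
          (Fintype.piFinset fun _ : Fin M => c l) ∪
            (Fintype.piFinset fun _ : Fin M => c ((l : ℤ) - G)) := by
        intro v hv
        simp only [hVl, Finset.mem_filter, Fintype.mem_piFinset] at hv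
        simp only [Finset.mem_union, Fintype.mem_piFinset, hc, Finset.mem_erase]
        by_contra hno
        push Not at hno
        obtain ⟨⟨i, hi⟩, ⟨j, hj⟩⟩ := hno
        refine hv.2 ⟨i, j, ?_⟩
        have h1 : v i = (l : ℤ) := by
          by_contra h
          exact hi h (hv.1 i)
        have h2 : v j = (l : ℤ) - G := by
          by_contra h
          exact hj h (hv.1 j)
        rw [h1, h2]; ring
      have hlN : (l : ℤ) ∈ cls G N l ∧ (l : ℤ) - G ∈ cls G N l := by
        rw [Finset.mem_Ico] at hl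
        simp only [cls, Finset.mem_filter, Finset.mem_Icc]
        refine ⟨⟨⟨by omega, by omega⟩, by simp⟩, ⟨by omega, by omega⟩, ?_⟩
        rw [sub_sub_cancel_left]
        exact dvd_neg.2 dvd_rfl
      have hone : ∀ a, a ∈ cls G N l → β ≤ w a →
          ∑ v ∈ Fintype.piFinset (fun _ : Fin M => c a), m v ≤ (1 - β) ^ M := by
        intro a ha hβa
        simp only [hm]
        rw [Finset.sum_prod_piFinset (c a) (fun _ n => w n)]
        simp only [Finset.prod_const, Finset.card_univ, Fintype.card_fin]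
        refine pow_le_pow_left₀ (Finset.sum_nonneg fun n _ => hw0 n) ?_ M
        simp only [hc]
        rw [Finset.sum_erase_eq_sub ha]
        linarith [hupp l]
      have hβl : β ≤ min (w l) (w ((l : ℤ) - G)) := Finset.inf'_le _ hl
      calc ∑ v ∈ (Vl l).filter (fun v => ¬ Good G v), m v
          ≤ ∑ v ∈ (Fintype.piFinset fun _ : Fin M => c l) ∪
              (Fintype.piFinset fun _ : Fin M => c ((l : ℤ) - G)), m v :=
            Finset.sum_le_sum_of_subset_of_nonneg hsub fun v _ _ => hm0 v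
        _ ≤ ∑ v ∈ (Fintype.piFinset fun _ : Fin M => c l), m v +
              ∑ v ∈ (Fintype.piFinset fun _ : Fin M => c ((l : ℤ) - G)), m v := by
            rw [← Finset.sum_union_inter]
            exact le_add_of_nonneg_right (Finset.sum_nonneg fun v _ => hm0 v)
        _ ≤ (1 - β) ^ M + (1 - β) ^ M :=
            add_le_add (hone _ hlN.1 (hβl.trans (min_le_left _ _)))
              (hone _ hlN.2 (hβl.trans (min_le_right _ _)))
        _ ≤ ε / 2 := by linarith
    have hgood : ∀ l ∈ Ico 1 G, 1 - ε ≤ ∑ v ∈ (Vl l).filter (Good G), m v := by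
      intro l hl
      have := Finset.sum_filter_add_sum_filter_not (Vl l) (Good G) m
      rw [hsumVl] at this
      linarith [hbad l hl, hbern l hl]
    rw [hVG, Finset.sum_congr rfl fun v hv => hamp2 v (Finset.filter_subset _ _ hv),
      ← Finset.mul_sum, hV, Finset.filter_biUnion, Finset.sum_biUnion
        (fun l hl l' hl' hll => Finset.disjoint_filter_filter (hVdisj hl hl' hll))]
    calc p * q * (1 - ε) = p ^ 2 * ∑ _l ∈ Ico 1 G, (1 - ε) := by
          rw [Finset.sum_const, nsmul_eq_mul, ← hcard]; ring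
      _ ≤ _ := mul_le_mul_of_nonneg_left (Finset.sum_le_sum hgood) (by positivity)
  -- the two signs
  set i₀ : Fin M := ⟨0, hMpos⟩ with hi₀
  set Top := VG.filter fun v => 0 < v i₀ with hTop
  have hhalf : 2 * ∑ v ∈ Top, amp G v ^ 2 = ∑ v ∈ VG, amp G v ^ 2 := by
    have h := Finset.sum_filter_add_sum_filter_not VG (fun v => 0 < v i₀) fun v => amp G v ^ 2
    have hbij : ∑ v ∈ VG.filter (fun v => ¬ 0 < v i₀), amp G v ^ 2 = ∑ v ∈ Top, amp G v ^ 2 := by
      refine Finset.sum_nbij' (fun v => -v) (fun v => -v) ?_ ?_ ?_ ?_ ?_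
      · intro v hv
        simp only [Finset.coe_filter, Set.mem_ofPred_eq, hVG, Finset.mem_filter] at hv
        simp only [hTop, hVG, Finset.coe_filter, Set.mem_ofPred_eq, Finset.mem_filter, Pi.neg_apply]
        refine ⟨⟨hVnegmem v hv.1.1, ?_⟩, ?_⟩
        · obtain ⟨i, j, hij⟩ := hv.1.2
          exact ⟨j, i, by simp only [Pi.neg_apply]; linarith⟩
        · have hne0 : v i₀ ≠ 0 := fun h0 => (hVvalid v hv.1.1).1 i₀ (h0 ▸ dvd_zero _)
          omega
      · intro v hv
        simp only [hTop, hVG, Finset.coe_filter, Set.mem_ofPred_eq, Finset.mem_filter] at hv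
        simp only [hVG, Finset.coe_filter, Set.mem_ofPred_eq, Finset.mem_filter, Pi.neg_apply]
        refine ⟨⟨hVnegmem v hv.1.1, ?_⟩, by omega⟩
        obtain ⟨i, j, hij⟩ := hv.1.2
        exact ⟨j, i, by simp only [Pi.neg_apply]; linarith⟩
      · intro v _; exact neg_neg v
      · intro v _; exact neg_neg v
      · intro v _; rw [amp_neg]
    rw [hbij] at h
    linarith
  refine ⟨M, hMpos, i₀, V, Top, hVvalid, fun v hv => ?_, by linarith, ?_, hVle⟩
  · simp only [hTop, hVG, Finset.mem_filter] at hv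
    exact ⟨hv.1.1, hv.1.2, hv.2⟩
  · rw [hhalf]
    exact Finset.sum_le_sum_of_subset_of_nonneg (Finset.filter_subset _ _) fun v _ _ => sq_nonneg _

/-- Distinct frequencies with good last blocks of positive first entry are independent. -/
theorem indep_of_good {G L M : ℕ} (hG : G.Prime) (i₀ : Fin M) {k k' : Fin L → Fin M → ℤ} {s s' : Fin L}
    (hk0 : ∀ u, s < u → k u = 0) (hk0' : ∀ u, s' < u → k' u = 0) (hsv : Valid G (k s))
    (hsv' : Valid G (k' s')) (hg : Good G (k s)) (hg' : Good G (k' s')) (hp : 0 < k s i₀)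
    (hp' : 0 < k' s' i₀) (hne : ¬ (s = s' ∧ k = k')) {a c : ℤ}
    (hac : ∀ u i, a * k u i + c * k' u i = 0) : a = 0 ∧ c = 0 := by
  have hnz : k s i₀ ≠ 0 := hp.ne'
  have hnz' : k' s' i₀ ≠ 0 := hp'.ne'
  by_cases ha : a = 0
  · refine ⟨ha, ?_⟩
    have := hac s' i₀
    simp only [ha, zero_mul, zero_add, mul_eq_zero] at this
    exact this.resolve_right hnz'
  by_cases hc : c = 0
  · have := hac s i₀
    simp only [hc, zero_mul, add_zero, mul_eq_zero] at this
    exact absurd (this.resolve_right hnz) ha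
  exfalso
  have hss : s = s' := by
    rcases lt_trichotomy s s' with h | h | h
    · have := hac s' i₀
      simp only [hk0 s' h, Pi.zero_apply, mul_zero, zero_add, mul_eq_zero] at this
      exact absurd (this.resolve_right hnz') hc
    · exact h
    · have := hac s i₀
      simp only [hk0' s h, Pi.zero_apply, mul_zero, add_zero, mul_eq_zero] at this
      exact absurd (this.resolve_right hnz) ha
  subst hss
  obtain ⟨a', c', hcop, hae, hce⟩ := Int.exists_gcd_one
    (m := a) (n := c) (Nat.pos_of_ne_zero fun h => ha (Int.gcd_eq_zero_iff.1 h).1)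
  have hg0 : ((Int.gcd a c : ℕ) : ℤ) ≠ 0 := by
    simpa [Int.gcd_eq_zero_iff] using fun h => absurd h ha
  have hac' : ∀ u i, a' * k u i + c' * k' u i = 0 := by
    intro u i
    have h := hac u i
    have : (a' * k u i + c' * k' u i) * ((Int.gcd a c : ℕ) : ℤ) = 0 := by
      linear_combination h - k u i * hae - k' u i * hce
    exact (mul_eq_zero.1 this).resolve_right hg0
  have hunit : ∀ (x y : ℤ) (n n' : Fin M → ℤ), IsCoprime x y → Valid G n' → Good G n' →
      (∀ i, x * n i + y * n' i = 0) → x = 1 ∨ x = -1 := by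
    intro x y n n' hco hval ⟨i, i', hii⟩ hrel
    have hdvd : ∀ t, x ∣ n' t := fun t =>
      hco.dvd_of_dvd_mul_left ⟨-n t, by linarith [hrel t]⟩
    have hxG : x ∣ (G : ℤ) := hii ▸ dvd_sub (hdvd i) (hdvd i')
    have hnat : x.natAbs ∣ G := by simpa using Int.natAbs_dvd_natAbs.2 hxG
    rcases (Nat.dvd_prime hG).1 hnat with h | h
    · exact Int.natAbs_eq_iff.1 h
    · exfalso
      refine hval.1 i ((Int.natAbs_dvd_natAbs.1 ?_))
      rw [Int.natAbs_natCast, ← h]
      exact Int.natAbs_dvd_natAbs.2 (hdvd i)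
  have hco : IsCoprime a' c' := Int.isCoprime_iff_gcd_eq_one.2 hcop
  have ha1 := hunit a' c' (k s) (k' s) hco hsv' hg' (hac' s)
  have hc1 := hunit c' a' (k' s) (k s) hco.symm hsv hg
    (fun i => by linarith [hac' s i])
  have h0 := hac' s i₀
  have hkk : ∀ u i, k u i = k' u i := by
    intro u i
    have h := hac' u i
    rcases ha1 with rfl | rfl <;> rcases hc1 with rfl | rfl <;> linarith [hp, hp']
  exact hne ⟨rfl, funext fun u => funext fun i => hkk u i⟩

theorem exists_wait_classes (G L L₀ : ℕ) (hG : G.Prime) (hG2 : 2 < G) (hL : L₀ ≤ L) {ζ : ℝ}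
    (hζ : 0 < ζ) :
    ∃ M K : ℕ, 0 < M ∧ ∃ (kk : Fin K → Fin L → Fin M → ℤ) (top : Fin K → Fin L),
      (∀ j, (top j : ℕ) < L₀ ∧ IsTop (kk j) (top j) ∧ 0 < cAmp G (kk j) (top j) ∧
        cAmp G (kk j) (top j) ≤ 1 / (G : ℝ)) ∧
      (∀ j j', j ≠ j' → ∀ a c : ℤ, (∀ u i, a * kk j u i + c * kk j' u i = 0) → a = 0 ∧ c = 0) ∧
      (1 - 1 / (G : ℝ)) * (1 - (1 - 1 / (G : ℝ)) ^ L₀) - ζ ≤
        2 * ∑ j, cAmp G (kk j) (top j) ^ 2 ∧
      2 * ∑ j, cAmp G (kk j) (top j) ^ 2 ≤ 1 := by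
  classical
  have hG0 : 0 < G := hG.pos
  have hGr : (2 : ℝ) < G := by exact_mod_cast hG2
  set p : ℝ := 1 / (G : ℝ) with hp
  set q : ℝ := 1 - p with hq
  have hp0 : 0 < p := by rw [hp]; positivity
  have hp1 : p ≤ 1 := by rw [hp, div_le_one (by linarith)]; linarith
  have hq0 : 0 ≤ q := by rw [hq]; linarith
  have hq1 : q ≤ 1 := by rw [hq]; linarith
  set ε : ℝ := ζ / (L₀ + 1) with hε
  have hε0 : 0 < ε := by rw [hε]; positivity
  obtain ⟨M, hMpos, i₀, V, Top, hVvalid, hTopV, hGlow, hGV, hVle⟩ := exists_blocks G hG hG2 hε0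
  set A : Finset (Fin M → ℤ) := insert 0 V with hA
  have h0V : (0 : Fin M → ℤ) ∉ V := fun h => (hVvalid 0 h).1 i₀ (by simp)
  have hAsum : ∑ v ∈ A, amp G v ^ 2 = q ^ 2 + ∑ v ∈ V, amp G v ^ 2 := by
    rw [hA, Finset.sum_insert h0V]
    simp [amp, hq, hp]
  have hqq : q ^ 2 + p * q = q := by rw [hq]; ring
  have hAle : ∑ v ∈ A, amp G v ^ 2 ≤ q := by linarith
  have hAge : q * (1 - ε) ≤ ∑ v ∈ A, amp G v ^ 2 := by
    have : 0 ≤ q ^ 2 * ε := by positivity
    nlinarith [mul_nonneg hp0.le hq0]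
  set T : Fin L → Finset (Fin L → Fin M → ℤ) := fun s =>
    Fintype.piFinset fun u => if u < s then A else if u = s then Top else {0} with hT
  have hTmem : ∀ s k, k ∈ T s → (∀ u, k u = 0 ∨ Valid G (k u)) ∧ k s ∈ Top ∧
      ∀ u, s < u → k u = 0 := by
    intro s k hk
    simp only [hT, Fintype.mem_piFinset] at hk
    refine ⟨fun u => ?_, by simpa using hk s, fun u hu => ?_⟩
    · have hu := hk u
      split_ifs at hu with h1 h2
      · rcases Finset.mem_insert.1 (hA ▸ hu) with h | h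
        · exact Or.inl h
        · exact Or.inr (hVvalid _ h)
      · exact Or.inr (hVvalid _ (hTopV _ hu).1)
      · exact Or.inl (Finset.mem_singleton.1 hu)
    · have := hk u
      rw [if_neg (not_lt.2 hu.le), if_neg hu.ne'] at this
      exact Finset.mem_singleton.1 this
  have hTsum : ∀ s : Fin L, ∑ k ∈ T s, cAmp G k s ^ 2 =
      (∑ v ∈ A, amp G v ^ 2) ^ (s : ℕ) * ∑ v ∈ Top, amp G v ^ 2 := by
    intro s
    have he : ∀ k ∈ T s, cAmp G k s ^ 2 =
        ∏ u, if u ≤ s then amp G (k u) ^ 2 else 1 := by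
      intro k hk
      obtain ⟨h1, -, h3⟩ := hTmem s k hk
      rw [cAmp_eq_prod hG0 hMpos k s h1 h3, ← Finset.prod_pow, Finset.prod_ite, Finset.prod_const_one,
        mul_one]
      refine Finset.prod_congr ?_ fun _ _ => rfl
      ext u; simp
    rw [Finset.sum_congr rfl he, hT]
    simp only
    rw [← Finset.prod_univ_sum _ (fun u v => if u ≤ s then amp G v ^ 2 else 1)]
    have hu : ∀ u : Fin L, (∑ v ∈ (if u < s then A else if u = s then Top else {0}),
        if u ≤ s then amp G v ^ 2 else 1) =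
        if u < s then ∑ v ∈ A, amp G v ^ 2 else if u = s then ∑ v ∈ Top, amp G v ^ 2 else 1 := by
      intro u
      rcases lt_trichotomy u s with h | h | h
      · simp [h, h.le]
      · simp [h]
      · simp [not_lt.2 h.le, h.ne', not_le.2 h]
    simp only [hu]
    rw [Finset.prod_ite, Finset.prod_const, Finset.filter_gt_eq_Iio, Fin.card_Iio]
    congr 1
    rw [Finset.prod_ite, Finset.prod_const_one, mul_one, Finset.filter_filter]
    rw [show univ.filter (fun u : Fin L => ¬ u < s ∧ u = s) = {s} by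
      ext u; simp only [Finset.mem_filter, Finset.mem_univ, true_and, Finset.mem_singleton]
      exact ⟨fun h => h.2, fun h => ⟨h ▸ lt_irrefl _, h⟩⟩]
    simp
  set S := (univ.filter fun s : Fin L => (s : ℕ) < L₀).sigma T with hS
  have htotal : ∑ x ∈ S, cAmp G x.2 x.1 ^ 2 =
      ∑ s ∈ range L₀, (∑ v ∈ A, amp G v ^ 2) ^ s * ∑ v ∈ Top, amp G v ^ 2 := by
    rw [hS, Finset.sum_sigma]
    simp only [hTsum]
    refine Finset.sum_nbij (fun s : Fin L => (s : ℕ)) (fun s hs => ?_) ?_ ?_ fun s _ => rfl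
    · simpa using hs
    · intro s _ s' _ h; exact Fin.ext h
    · intro t ht
      simp only [Finset.coe_range, Set.mem_Iio] at ht
      exact ⟨⟨t, by omega⟩, by simpa using ht, rfl⟩
  let e := S.equivFin.symm
  refine ⟨M, S.card, hMpos, fun j => (e j).1.2, fun j => (e j).1.1, fun j => ?_, ?_, ?_, ?_⟩
  · have hj := (e j).2
    simp only [hS, Finset.mem_sigma, Finset.mem_filter, Finset.mem_univ, true_and] at hj
    obtain ⟨h1, h2, h3⟩ := hTmem _ _ hj.2
    have htopV : (e j).1.2 (e j).1.1 ∈ V := by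
      exact (hTopV _ h2).1
    have hne0 : (e j).1.2 (e j).1.1 ≠ 0 := fun h => h0V (h ▸ htopV)
    refine ⟨hj.1, ⟨hne0, h3⟩, ?_, ?_⟩
    · rw [cAmp_eq_prod hG0 hMpos _ _ h1 h3]
      exact Finset.prod_pos fun u _ => amp_pos hG.two_le (h1 u)
    · rw [cAmp_eq_prod hG0 hMpos _ _ h1 h3,
        ← Finset.mul_prod_erase _ _ (Finset.mem_Iic.2 (le_refl (e j).1.1))]
      refine le_trans (mul_le_of_le_one_right (amp_pos hG.two_le (h1 _)).le ?_) ?_
      · refine Finset.prod_le_one (fun u _ => (amp_pos hG.two_le (h1 u)).le) fun u _ => ?_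
        rw [amp]
        split_ifs
        · linarith
        · exact mul_le_one₀ hp1 (Finset.prod_nonneg fun i _ => norm_nonneg _)
            (Finset.prod_le_one (fun i _ => norm_nonneg _) fun i _ => norm_b_le_one G _)
      · rw [amp, if_neg hne0]
        exact mul_le_of_le_one_right hp0.le
          (Finset.prod_le_one (fun i _ => norm_nonneg _) fun i _ => norm_b_le_one G _)
  · intro j j' hjj a c hac
    have hj := (e j).2
    have hj' := (e j').2
    simp only [hS, Finset.mem_sigma, Finset.mem_filter, Finset.mem_univ, true_and] at hj hj'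
    obtain ⟨-, hks, hk0⟩ := hTmem _ _ hj.2
    obtain ⟨-, hks', hk0'⟩ := hTmem _ _ hj'.2
    obtain ⟨h1, h2, h3⟩ := hTopV _ hks
    obtain ⟨h1', h2', h3'⟩ := hTopV _ hks'
    refine indep_of_good hG i₀ hk0 hk0' (hVvalid _ h1) (hVvalid _ h1') h2 h2' h3 h3'
      (fun h => hjj (e.injective (Subtype.ext (Sigma.ext h.1 (heq_of_eq h.2))))) hac
  · rw [show (∑ j, cAmp G (e j).1.2 (e j).1.1 ^ 2) = ∑ x ∈ S, cAmp G x.2 x.1 ^ 2 by
      rw [Equiv.sum_comp e (fun x => cAmp G x.1.2 x.1.1 ^ 2)]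
      exact Finset.sum_coe_sort S (fun x => cAmp G x.2 x.1 ^ 2), htotal, Finset.mul_sum]
    have hsum1 : ∀ s ∈ range L₀, p * q * q ^ s * (1 - (L₀ : ℝ) * ε) ≤
        2 * ((∑ v ∈ A, amp G v ^ 2) ^ s * ∑ v ∈ Top, amp G v ^ 2) := by
      intro s hs
      have htop0 : 0 ≤ 2 * ∑ v ∈ Top, amp G v ^ 2 := mul_nonneg zero_le_two <| Finset.sum_nonneg fun v _ => sq_nonneg _
      rw [mul_left_comm (2 : ℝ)]
      have hA0 : 0 ≤ ∑ v ∈ A, amp G v ^ 2 := Finset.sum_nonneg fun v _ => sq_nonneg _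
      rcases le_or_gt ε 1 with he | he
      · have h1 : (q * (1 - ε)) ^ s * (p * q * (1 - ε)) ≤
            (∑ v ∈ A, amp G v ^ 2) ^ s * (2 * ∑ v ∈ Top, amp G v ^ 2) := by
          have : 0 ≤ 1 - ε := by linarith
          exact mul_le_mul (pow_le_pow_left₀ (by positivity) hAge s) hGlow (by positivity)
            (by positivity)
        refine le_trans ?_ h1
        have hb : 1 - (L₀ : ℝ) * ε ≤ (1 - ε) ^ (s + 1) := by
          have hpow := one_add_mul_le_pow (show -2 ≤ -ε by linarith) (s + 1)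
          have hs' : ((s + 1 : ℕ) : ℝ) ≤ L₀ := by
            exact_mod_cast Finset.mem_range.1 hs
          rw [← sub_eq_add_neg] at hpow
          nlinarith
        have hpos : (0 : ℝ) ≤ p * q * q ^ s := by positivity
        refine le_trans (mul_le_mul_of_nonneg_left hb hpos) (le_of_eq ?_)
        rw [mul_pow, pow_succ]; ring
      · refine le_trans ?_ (mul_nonneg (pow_nonneg hA0 _) htop0)
        have : (1 : ℝ) ≤ L₀ := by
          exact_mod_cast Nat.one_le_of_lt (Finset.mem_range.1 hs)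
        exact mul_nonpos_of_nonneg_of_nonpos (by positivity) (by nlinarith)
    refine le_trans ?_ (Finset.sum_le_sum hsum1)
    rw [← Finset.sum_mul, ← Finset.mul_sum]
    have hgeo : p * ∑ s ∈ range L₀, q ^ s = 1 - q ^ L₀ := by
      rw [show p = 1 - q by rw [hq]; ring, mul_comm, geom_sum_mul_neg]
    rw [show p * q * (∑ s ∈ range L₀, q ^ s) = q * (p * ∑ s ∈ range L₀, q ^ s) by ring, hgeo]
    have hx0 : 0 ≤ q * (1 - q ^ L₀) := mul_nonneg hq0 (by linarith [pow_le_one₀ hq0 hq1 (n := L₀)])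
    have hx1 : q * (1 - q ^ L₀) ≤ 1 := by nlinarith [pow_nonneg hq0 L₀]
    have hLε : (L₀ : ℝ) * ε ≤ ζ := by
      rw [hε, ← mul_div_assoc, div_le_iff₀ (by positivity)]; nlinarith
    nlinarith
  · rw [show (∑ j, cAmp G (e j).1.2 (e j).1.1 ^ 2) = ∑ x ∈ S, cAmp G x.2 x.1 ^ 2 by
      rw [Equiv.sum_comp e (fun x => cAmp G x.1.2 x.1.1 ^ 2)]
      exact Finset.sum_coe_sort S (fun x => cAmp G x.2 x.1 ^ 2), htotal, Finset.mul_sum]
    calc ∑ s ∈ range L₀, 2 * ((∑ v ∈ A, amp G v ^ 2) ^ s * ∑ v ∈ Top, amp G v ^ 2)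
        ≤ ∑ s ∈ range L₀, q ^ s * (p * q) := by
          refine Finset.sum_le_sum fun s _ => ?_
          rw [mul_left_comm (2 : ℝ)]
          exact mul_le_mul (pow_le_pow_left₀ (Finset.sum_nonneg fun v _ => sq_nonneg _) hAle s)
            (hGV.trans hVle)
            (mul_nonneg zero_le_two <| Finset.sum_nonneg fun v _ => sq_nonneg _) (by positivity)
      _ = q * ((1 - q) * ∑ s ∈ range L₀, q ^ s) := by
          rw [← Finset.sum_mul, hq]; ring
      _ = q * (1 - q ^ L₀) := by rw [mul_comm (1 - q), geom_sum_mul_neg]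
      _ ≤ 1 := by nlinarith [pow_nonneg hq0 L₀]

end Vale.Agent.P130.Simple
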