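import Vale.Agent.P130.Simple.WaitCoef
import Vale.Agent.P130.Simple.WaitEnergy

/-! The waiting time function and its Fourier coefficients. -/

namespace Vale.Agent.P130.Simple

open Finset MeasureTheory
open scoped BigOperators
open Vale.Agent.P110.Flat (ee dot)

theorem exists_wait (η : ℝ) (hη : 0 < η) : Nonempty (Wait η) := by
  set e : ℝ := min η (1 / 4) with he
  have he0 : 0 < e := lt_min hη (by norm_num)
  have heη : e ≤ η := min_le_left _ _
  have he4 : e ≤ 1 / 4 := min_le_right _ _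
  obtain ⟨G, hG₁, hGp⟩ := Nat.exists_infinite_primes (max 3 ⌈1 / e ^ 2⌉₊)
  have hG2 : 2 < G := by omega
  set p : ℝ := 1 / (G : ℝ) with hp
  have hp0 : 0 < p := by positivity
  have hpe : p ≤ e ^ 2 := by
    have : 1 / e ^ 2 ≤ (G : ℝ) :=
      (Nat.le_ceil _).trans (by exact_mod_cast (le_max_right _ _).trans hG₁)
    have := one_div_le_one_div_of_le (by positivity) this
    rwa [one_div_one_div] at this
  have hpq : p ≤ e / 4 := hpe.trans (by nlinarith)
  obtain ⟨L₀, hL₀⟩ := exists_pow_lt_of_lt_one (show 0 < e / 4 by positivity)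
    (show 1 - p < 1 by linarith)
  obtain ⟨M, K, hM, kk, top, htop, hind, hlow, hupp⟩ :=
    exists_wait_classes G (L₀ + L₀) L₀ hGp hG2 (by omega) (show 0 < e / 4 by positivity)
  have hlow' : 1 - e ≤ 2 * ∑ j, cAmp G (kk j) (top j) ^ 2 := by
    refine le_trans ?_ hlow
    rw [← hp]
    have : (1 - e / 4) * (1 - e / 4) ≤ (1 - p) * (1 - (1 - p) ^ L₀) :=
      mul_le_mul (by linarith) (by linarith) (by linarith) (by linarith)
    nlinarith
  have hK : 2 ≤ K := by
    by_contra hK
    have h1 : ∑ j, cAmp G (kk j) (top j) ^ 2 ≤ (K : ℝ) * p ^ 2 := by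
      refine (Finset.sum_le_sum fun j _ => ?_).trans (le_of_eq
        (show ∑ _j : Fin K, p ^ 2 = (K : ℝ) * p ^ 2 by simp))
      exact pow_le_pow_left₀ (htop j).2.2.1.le (by rw [hp]; exact (htop j).2.2.2) 2
    have h2 : (K : ℝ) ≤ 1 := by exact_mod_cast (by omega : K ≤ 1)
    have h3 : p ≤ 1 / 16 := by linarith
    have h4 : (K : ℝ) * p ^ 2 ≤ 1 / 256 :=
      (mul_le_mul h2 (pow_le_pow_left₀ hp0.le h3 2) (by positivity) zero_le_one).trans (by norm_num)
    linarith
  have hflat : ∀ θ : ℝ, η ≤ θ → θ ≤ 1 - η → ∀ j, ∀ v : Fin (L₀ + L₀) → Fin M → ℤ,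
      IsTop v (top j) → cAmp G v (top j) = cAmp G (kk j) (top j) →
      |‖coef (waitTime G (L₀ + L₀) M) θ (flatK v)‖ - cAmp G (kk j) (top j)| ≤
        η * cAmp G (kk j) (top j) := by
    intro θ h1 h2 j v hv hc
    have h := WC.coef_flat (G := G) (η := e) (by omega) hM (by rw [← hp]; linarith) (heη.trans h1)
      (h2.trans (by linarith)) hv
    rw [hc] at h
    refine h.trans ?_
    rw [mul_comm]
    refine mul_le_mul_of_nonneg_right ?_ (htop j).2.2.1.le
    rw [← hp]
    have ha : 2 * p / (4 * e - p) ≤ 2 * e / 3 := by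
      rw [div_le_iff₀ (by linarith)]
      nlinarith
    have hb : (1 - p) ^ (L₀ + L₀ - (top j : ℕ)) ≤ e / 4 := by
      refine le_trans ?_ hL₀.le
      exact pow_le_pow_of_le_one (by linarith) (by linarith) (by have := (htop j).1; omega)
    linarith
  refine ⟨{
    d := (L₀ + L₀) * M
    K := K
    R := L₀ + L₀
    D := waitTime G (L₀ + L₀) M
    hmeas := WC.measurable_waitTime
    hR := WC.waitTime_le
    hper := WC.waitTime_periodic
    hK := hK
    k := fun j => flatK (kk j)
    c := fun j => cAmp G (kk j) (top j)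
    hk := fun j h => (htop j).2.1.1 (funext fun i => ?_)
    hpair := fun j j' hne a b h => hind j j' hne a b fun u i => ?_
    hc := fun j => (htop j).2.2.1
    hlow := by linarith
    hupp := hupp
    hflat := fun θ h1 h2 j => ⟨hflat θ h1 h2 j _ (htop j).2.1 rfl, by
      rw [← WC.flatK_neg]
      exact hflat θ h1 h2 j _ (WC.isTop_neg (htop j).2.1) (WC.cAmp_neg _ _)⟩ }⟩
  · simpa [flatK, widx] using congrFun h (widx (top j) i)
  · simpa [flatK, widx] using h (widx u i)

end Vale.Agent.P130.Simple
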